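import Mathlib

/-! Row 40: `σ * σ` is absolutely continuous, generic points, and `L¹(dθ)`-continuity of
`x ↦ G f (x + e ·)`. -/

set_option autoImplicit false

open MeasureTheory Filter Topology Set
open scoped ENNReal

namespace Crest.Agent.R40

/-- Preimages of null sets under a `C¹` map are null where the Jacobian does not vanish. -/
theorem null_preimage_of_det {E : Type*} [NormedAddCommGroup E] [NormedSpace ℝ E]
    [FiniteDimensional ℝ E] [MeasurableSpace E] [BorelSpace E] (μ : Measure E)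
    [μ.IsAddHaarMeasure] (Φ : E → E) (Φ' : E → E →L[ℝ] E)
    (hΦ : ∀ p, HasStrictFDerivAt Φ (Φ' p) p) (hm : Measurable fun p => (Φ' p).det)
    (N : Set E) (hN : μ N = 0) : μ {p | (Φ' p).det ≠ 0 ∧ Φ p ∈ N} = 0 := by
  have : CompleteSpace E := FiniteDimensional.complete ℝ E
  have hcont : Continuous Φ := continuous_iff_continuousAt.2 fun p => (hΦ p).continuousAt
  set N' := toMeasurable μ N with hN'
  have hN'0 : μ N' = 0 := by rw [hN', measure_toMeasurable, hN]
  have hN'm : MeasurableSet N' := measurableSet_toMeasurable _ _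
  set s : Set E := {p | (Φ' p).det ≠ 0 ∧ Φ p ∈ N'} with hs
  have hsm : MeasurableSet s := by
    have h1 : MeasurableSet {p | (Φ' p).det ≠ 0} := (hm (measurableSet_singleton 0)).compl
    exact h1.inter (hcont.measurable hN'm)
  refine measure_mono_null (t := s) (fun p hp => ⟨hp.1, subset_toMeasurable _ _ hp.2⟩) ?_
  refine measure_null_of_locally_null s fun p hp => ?_
  let L : E ≃L[ℝ] E := (Φ' p).toContinuousLinearEquivOfDetNeZero hp.1
  have hL : HasStrictFDerivAt Φ (L : E →L[ℝ] E) p := by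
    simpa [L] using hΦ p
  let e := hL.toOpenPartialHomeomorph Φ
  have hpU : p ∈ e.source := hL.mem_toOpenPartialHomeomorph_source
  have hinj : InjOn Φ e.source := by
    have := e.injOn
    simpa [e] using this
  refine ⟨s ∩ e.source, inter_mem_nhdsWithin s (e.open_source.mem_nhds hpU), ?_⟩
  have hum : MeasurableSet (s ∩ e.source) := hsm.inter e.open_source.measurableSet
  have h1 := lintegral_abs_det_fderiv_le_addHaar_image μ hum
    (fun q _ => (hΦ q).hasFDerivAt.hasFDerivWithinAt) (hinj.mono inter_subset_right)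
  have h2 : μ (Φ '' (s ∩ e.source)) = 0 := by
    refine measure_mono_null ?_ hN'0
    rintro _ ⟨q, hq, rfl⟩
    exact hq.1.2
  rw [h2, nonpos_iff_eq_zero, lintegral_eq_zero_iff (by fun_prop)] at h1
  have h3 : ∀ᵐ q ∂μ.restrict (s ∩ e.source), False := by
    filter_upwards [h1, ae_restrict_mem hum] with q hq hq'
    have : |(Φ' q).det| ≤ 0 := by simpa using hq
    exact hq'.1.1 (abs_nonpos_iff.1 this)
  simpa [ae_iff, Measure.restrict_apply_univ] using h3

/-- `σ * σ ≪ vol`, on the parameter plane. -/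
theorem ae_prod_notMem (N : Set ℂ) (hN : volume N = 0) (x : ℂ) :
    ∀ᵐ p : ℝ × ℝ, x + circleMap 0 1 p.1 + circleMap 0 1 p.2 ∉ N := by
  let Φ : ℝ × ℝ → ℝ × ℝ := fun p =>
    (x.re + Real.cos p.1 + Real.cos p.2, x.im + Real.sin p.1 + Real.sin p.2)
  let Φ' : ℝ × ℝ → (ℝ × ℝ) →L[ℝ] (ℝ × ℝ) := fun p =>
    (((-Real.sin p.1) • ContinuousLinearMap.fst ℝ ℝ ℝ +
      (-Real.sin p.2) • ContinuousLinearMap.snd ℝ ℝ ℝ).prod
      ((Real.cos p.1) • ContinuousLinearMap.fst ℝ ℝ ℝ +
      (Real.cos p.2) • ContinuousLinearMap.snd ℝ ℝ ℝ))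
  have hΦ : ∀ p, HasStrictFDerivAt Φ (Φ' p) p := by
    intro p
    have h1 : HasStrictFDerivAt (fun q : ℝ × ℝ => Real.cos q.1)
        ((-Real.sin p.1) • ContinuousLinearMap.fst ℝ ℝ ℝ) p :=
      (Real.hasStrictDerivAt_cos p.1).comp_hasStrictFDerivAt p hasStrictFDerivAt_fst
    have h2 : HasStrictFDerivAt (fun q : ℝ × ℝ => Real.cos q.2)
        ((-Real.sin p.2) • ContinuousLinearMap.snd ℝ ℝ ℝ) p :=
      (Real.hasStrictDerivAt_cos p.2).comp_hasStrictFDerivAt p hasStrictFDerivAt_snd
    have h3 : HasStrictFDerivAt (fun q : ℝ × ℝ => Real.sin q.1)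
        ((Real.cos p.1) • ContinuousLinearMap.fst ℝ ℝ ℝ) p :=
      (Real.hasStrictDerivAt_sin p.1).comp_hasStrictFDerivAt p hasStrictFDerivAt_fst
    have h4 : HasStrictFDerivAt (fun q : ℝ × ℝ => Real.sin q.2)
        ((Real.cos p.2) • ContinuousLinearMap.snd ℝ ℝ ℝ) p :=
      (Real.hasStrictDerivAt_sin p.2).comp_hasStrictFDerivAt p hasStrictFDerivAt_snd
    have h5 := ((h1.const_add x.re).add h2).prodMk ((h3.const_add x.im).add h4)
    exact h5
  have hdet : ∀ p, (Φ' p).det = Real.sin (p.2 - p.1) := by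
    intro p
    rw [ContinuousLinearMap.det, ← LinearMap.det_toMatrix (Module.Basis.finTwoProd ℝ),
      Matrix.det_fin_two]
    simp [Φ', LinearMap.toMatrix_apply, Real.sin_sub]
    ring
  have hm : Measurable fun p => (Φ' p).det := by
    simp_rw [hdet]; fun_prop
  let N' : Set (ℝ × ℝ) := Complex.measurableEquivRealProd.symm ⁻¹' N
  have hN' : volume N' = 0 :=
    Complex.volume_preserving_equiv_real_prod.symm.quasiMeasurePreserving.preimage_null hN
  have h1 := null_preimage_of_det volume Φ Φ' hΦ hm N' hN'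
  have h2 : volume {p : ℝ × ℝ | Real.sin (p.2 - p.1) = 0} = 0 := by
    have hm2 : MeasurableSet {p : ℝ × ℝ | Real.sin (p.2 - p.1) = 0} :=
      measurableSet_eq_fun (by fun_prop) measurable_const
    rw [Measure.volume_eq_prod, Measure.measure_prod_null hm2]
    refine Eventually.of_forall fun a => ?_
    have : (Prod.mk a ⁻¹' {p : ℝ × ℝ | Real.sin (p.2 - p.1) = 0}).Countable := by
      refine (countable_range fun n : ℤ => a + n * Real.pi).mono fun b hb => ?_
      obtain ⟨n, hn⟩ := Real.sin_eq_zero_iff.1 hb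
      exact ⟨n, by simp only at hn ⊢; linarith⟩
    exact this.measure_zero _
  rw [ae_iff]
  refine measure_mono_null (fun p hp => ?_) (measure_union_null h1 h2)
  by_cases hp0 : Real.sin (p.2 - p.1) = 0
  · exact Or.inr hp0
  · left
    refine ⟨by rw [hdet]; exact hp0, ?_⟩
    have hp' : x + circleMap 0 1 p.1 + circleMap 0 1 p.2 ∈ N := by simpa using hp
    show Complex.measurableEquivRealProd.symm (Φ p) ∈ N
    convert hp' using 1
    apply Complex.ext <;>
      simp [Φ, circleMap, Complex.exp_ofReal_mul_I_re, Complex.exp_ofReal_mul_I_im]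

/-- `σ * σ ≪ vol`, iterated form. -/
theorem ae_ae_notMem (N : Set ℂ) (hN : volume N = 0) (x : ℂ) :
    ∀ᵐ θ : ℝ, ∀ᵐ φ : ℝ, x + circleMap 0 1 θ + circleMap 0 1 φ ∉ N := by
  have := ae_prod_notMem N hN x
  rw [Measure.volume_eq_prod] at this
  exact Measure.ae_ae_of_ae_prod this

/-- `σ * σ ≪ vol`, for a property that holds almost everywhere. -/
theorem ae_ae_of_ae {P : ℂ → Prop} (hP : ∀ᵐ z, P z) (x : ℂ) :
    ∀ᵐ θ : ℝ, ∀ᵐ φ : ℝ, P (x + circleMap 0 1 θ + circleMap 0 1 φ) := by
  have := ae_ae_notMem {z | ¬ P z} (ae_iff.1 hP) x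
  simpa using this

theorem ae_prod_of_ae {P : ℂ → Prop} (hP : ∀ᵐ z, P z) (x : ℂ) :
    ∀ᵐ p : ℝ × ℝ, P (x + circleMap 0 1 p.1 + circleMap 0 1 p.2) := by
  have := ae_prod_notMem {z | ¬ P z} (ae_iff.1 hP) x
  simpa using this

/-- Almost every point is generic: its unit circle meets a null set in a null set. -/
theorem ae_circle_of_ae {P : ℂ → Prop} (hP : ∀ᵐ z, P z) :
    ∀ᵐ y : ℂ, ∀ᵐ θ : ℝ, P (y + circleMap 0 1 θ) := by
  set N := toMeasurable volume {z | ¬ P z} with hNdef
  have hN0 : volume N = 0 := by rw [hNdef, measure_toMeasurable]; exact ae_iff.1 hP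
  have hNm : MeasurableSet N := measurableSet_toMeasurable _ _
  have hmeas : MeasurableSet {p : ℂ × ℝ | p.1 + circleMap 0 1 p.2 ∉ N} := by
    have hc : Measurable fun p : ℂ × ℝ => p.1 + circleMap 0 1 p.2 :=
      (continuous_fst.add ((continuous_circleMap 0 1).comp continuous_snd)).measurable
    exact (hc hNm).compl
  have h1 : ∀ᵐ θ : ℝ, ∀ᵐ y : ℂ, y + circleMap 0 1 θ ∉ N := by
    refine Eventually.of_forall fun θ => ?_
    have := (measurePreserving_add_right volume (circleMap 0 1 θ)).quasiMeasurePreserving.preimage_null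
      hN0
    rw [ae_iff]
    simpa [preimage] using this
  have h2 : ∀ᵐ y : ℂ, ∀ᵐ θ : ℝ, y + circleMap 0 1 θ ∉ N :=
    (Measure.ae_ae_comm (μ := (volume : Measure ℂ)) (ν := (volume : Measure ℝ))
      (p := fun y θ => y + circleMap 0 1 θ ∉ N) hmeas).2 h1
  filter_upwards [h2] with y hy
  filter_upwards [hy] with θ hθ
  by_contra h
  exact hθ (subset_toMeasurable _ _ h)

theorem ae_circle_notMem (N : Set ℂ) (hN : volume N = 0) :
    ∀ᵐ y : ℂ, ∀ᵐ θ : ℝ, y + circleMap 0 1 θ ∉ N :=
  ae_circle_of_ae (P := fun z => z ∉ N) (by rw [ae_iff]; simpa using hN)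

/-- Translates of an integrable function converge almost everywhere along a subsequence. -/
theorem exists_subseq_translate_ae (f : ℂ → ℝ) (hf : Integrable f) (y : ℕ → ℂ) (x : ℂ)
    (hy : Tendsto y atTop (𝓝 x)) :
    ∃ ms : ℕ → ℕ, StrictMono ms ∧
      ∀ᵐ z : ℂ, Tendsto (fun n => f (y (ms n) + z)) atTop (𝓝 (f (x + z))) := by
  have hf1 : MemLp f 1 volume := memLp_one_iff_integrable.2 hf
  let F : Lp ℝ 1 (volume : Measure ℂ) := hf1.toLp f
  let A : C(ℂ × ℂ, ℂ) := ⟨fun p => p.1 + p.2, continuous_add⟩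
  let g : ℂ → C(ℂ, ℂ) := fun a => A.curry a
  have hg : Continuous g := A.curry.continuous
  have hgm : ∀ a, MeasurePreserving (g a) volume volume := fun a =>
    measurePreserving_add_left volume a
  have h1 : Tendsto (fun n => Lp.compMeasurePreserving (g (y n)) (hgm _) F) atTop
      (𝓝 (Lp.compMeasurePreserving (g x) (hgm x) F)) :=
    Tendsto.compMeasurePreservingLp tendsto_const_nhds ((hg.tendsto x).comp hy) _ _ (by simp)
  have h2 := tendstoInMeasure_of_tendsto_Lp h1
  have hae : ∀ a, (Lp.compMeasurePreserving (g a) (hgm a) F : ℂ → ℝ) =ᵐ[volume]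
      fun z => f (a + z) := by
    intro a
    refine (Lp.coeFn_compMeasurePreserving F (hgm a)).trans ?_
    exact (hgm a).quasiMeasurePreserving.ae_eq_comp hf1.coeFn_toLp
  have h3 := h2.congr (fun n => hae (y n)) (hae x)
  exact h3.exists_seq_tendsto_ae

/-- Translates of a bounded measurable function converge almost everywhere along a
subsequence. -/
theorem exists_subseq_translate_ae_ball (f : ℂ → ℝ) (hf : Measurable f) (hb : ∀ z, |f z| ≤ 1)
    (y : ℕ → ℂ) (x : ℂ) (hy : Tendsto y atTop (𝓝 x)) (R : ℝ) :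
    ∃ ms : ℕ → ℕ, StrictMono ms ∧
      ∀ᵐ z : ℂ, ‖z‖ ≤ R → Tendsto (fun n => f (y (ms n) + z)) atTop (𝓝 (f (x + z))) := by
  let B := Metric.ball x (R + 1)
  have hint : Integrable (B.indicator f) := by
    rw [integrable_indicator_iff Metric.isOpen_ball.measurableSet]
    refine Measure.integrableOn_of_bounded (M := 1) measure_ball_lt_top.ne
      hf.aestronglyMeasurable (Eventually.of_forall fun z => ?_)
    simpa using hb z
  obtain ⟨ms, hms, hae⟩ := exists_subseq_translate_ae _ hint y x hy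
  refine ⟨ms, hms, ?_⟩
  filter_upwards [hae] with z hz hzR
  have hxz : x + z ∈ B := by
    simp only [B, Metric.mem_ball, dist_eq_norm, add_sub_cancel_left]; linarith
  rw [indicator_of_mem hxz] at hz
  have hev : ∀ᶠ n in atTop, y (ms n) + z ∈ B :=
    ((hy.comp hms.tendsto_atTop).add_const z).eventually (Metric.isOpen_ball.mem_nhds hxz)
  refine hz.congr' ?_
  filter_upwards [hev] with n hn
  rw [indicator_of_mem hn]

theorem measurable_inner_abs (f : ℂ → ℝ) (hf : Measurable f) (y x : ℂ) :
    Measurable fun θ : ℝ => ∫ φ in (0 : ℝ)..(2 * Real.pi),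
      |f (y + circleMap 0 1 θ + circleMap 0 1 φ) - f (x + circleMap 0 1 θ + circleMap 0 1 φ)| := by
  have hc : ∀ a : ℂ, Measurable fun p : ℝ × ℝ => a + circleMap 0 1 p.1 + circleMap 0 1 p.2 :=
    fun a => ((continuous_const.add ((continuous_circleMap 0 1).comp continuous_fst)).add
      ((continuous_circleMap 0 1).comp continuous_snd)).measurable
  have hm : Measurable fun p : ℝ × ℝ =>
      |f (y + circleMap 0 1 p.1 + circleMap 0 1 p.2) -
        f (x + circleMap 0 1 p.1 + circleMap 0 1 p.2)| :=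
    ((hf.comp (hc y)).sub (hf.comp (hc x))).abs
  simp_rw [intervalIntegral.integral_of_le Real.two_pi_pos.le]
  exact (hm.stronglyMeasurable.integral_prod_right'
    (ν := volume.restrict (Ioc (0 : ℝ) (2 * Real.pi)))).measurable

/-- `L¹(σ * σ)`-continuity of the translates of a bounded measurable function. -/
theorem tendsto_double_integral (f : ℂ → ℝ) (hf : Measurable f) (hb : ∀ z, |f z| ≤ 1) (x : ℂ) :
    Tendsto (fun y : ℂ => ∫ θ in (0 : ℝ)..(2 * Real.pi), ∫ φ in (0 : ℝ)..(2 * Real.pi),
      |f (y + circleMap 0 1 θ + circleMap 0 1 φ) - f (x + circleMap 0 1 θ + circleMap 0 1 φ)|)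
      (𝓝 x) (𝓝 0) := by
  refine tendsto_of_subseq_tendsto fun y hy => ?_
  obtain ⟨ms, hms, hae⟩ := exists_subseq_translate_ae_ball f hf hb y x hy 2
  refine ⟨ms, ?_⟩
  have hae2 := ae_ae_of_ae hae 0
  have hb2 : ∀ a b : ℂ, |f a - f b| ≤ 2 := fun a b => by
    have := abs_sub (f a) (f b); linarith [hb a, hb b]
  have hmain := intervalIntegral.tendsto_integral_filter_of_dominated_convergence
    (μ := volume) (a := 0) (b := 2 * Real.pi) (l := atTop)
    (F := fun n θ => ∫ φ in (0 : ℝ)..(2 * Real.pi),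
      |f (y (ms n) + circleMap 0 1 θ + circleMap 0 1 φ) -
        f (x + circleMap 0 1 θ + circleMap 0 1 φ)|) (f := fun _ => (0 : ℝ))
    (fun _ => 2 * |2 * Real.pi - 0|)
    (Eventually.of_forall fun n => (measurable_inner_abs f hf _ _).aestronglyMeasurable)
    (Eventually.of_forall fun n => Eventually.of_forall fun θ _ =>
      intervalIntegral.norm_integral_le_of_norm_le_const fun φ _ => by
        rw [Real.norm_eq_abs, abs_abs]; exact hb2 _ _)
    intervalIntegrable_const ?_
  · simpa using hmain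
  filter_upwards [hae2] with θ hθ _
  have hc : ∀ a : ℂ, Measurable fun φ : ℝ => a + circleMap 0 1 φ :=
    fun a => (continuous_const.add (continuous_circleMap 0 1)).measurable
  have hin := intervalIntegral.tendsto_integral_filter_of_dominated_convergence
    (μ := volume) (a := 0) (b := 2 * Real.pi) (l := atTop)
    (F := fun n φ => |f (y (ms n) + circleMap 0 1 θ + circleMap 0 1 φ) -
        f (x + circleMap 0 1 θ + circleMap 0 1 φ)|) (f := fun _ => (0 : ℝ))
    (fun _ => 2)
    (Eventually.of_forall fun n =>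
      ((hf.comp (hc _)).sub (hf.comp (hc _))).abs.aestronglyMeasurable)
    (Eventually.of_forall fun n => Eventually.of_forall fun φ _ => by
        rw [Real.norm_eq_abs, abs_abs]; exact hb2 _ _)
    intervalIntegrable_const ?_
  · simpa using hin
  filter_upwards [hθ] with φ hφ _
  have hn : ‖(0 : ℂ) + circleMap 0 1 θ + circleMap 0 1 φ‖ ≤ 2 := by
    have := norm_add_le (circleMap 0 1 θ) (circleMap 0 1 φ)
    simp only [norm_circleMap_zero, abs_one] at this
    rw [zero_add]; linarith
  have h := hφ hn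
  simp only [zero_add, ← add_assoc] at h
  have h' := (h.sub_const (f (x + circleMap 0 1 θ + circleMap 0 1 φ))).abs
  simpa using h'

/-- `L¹(dθ)`-continuity of `x ↦ G f (x + e ·)`, where `G f` is the unit circle average. -/
theorem tendsto_integral_circleAvg (f : ℂ → ℝ) (hf : Measurable f) (hb : ∀ z, |f z| ≤ 1)
    (x : ℂ) :
    Tendsto (fun y : ℂ => ∫ θ in (0 : ℝ)..(2 * Real.pi),
      |(1 / (2 * Real.pi)) * (∫ φ in (0 : ℝ)..(2 * Real.pi),
          f (y + circleMap 0 1 θ + circleMap 0 1 φ)) -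
        (1 / (2 * Real.pi)) * ∫ φ in (0 : ℝ)..(2 * Real.pi),
          f (x + circleMap 0 1 θ + circleMap 0 1 φ)|) (𝓝 x) (𝓝 0) := by
  have h := (tendsto_double_integral f hf hb x).const_mul (1 / (2 * Real.pi))
  rw [mul_zero] at h
  have hc : ∀ a : ℂ, Measurable fun φ : ℝ => a + circleMap 0 1 φ :=
    fun a => (continuous_const.add (continuous_circleMap 0 1)).measurable
  have hint : ∀ a : ℂ, IntervalIntegrable (fun φ : ℝ => f (a + circleMap 0 1 φ)) volume 0
      (2 * Real.pi) := fun a => by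
    rw [intervalIntegrable_iff]
    refine Measure.integrableOn_of_bounded (M := 1) (by simp; finiteness) (hf.comp (hc a)).aestronglyMeasurable
      (Eventually.of_forall fun φ => ?_)
    simpa using hb _
  have hb2 : ∀ a b : ℂ, |f a - f b| ≤ 2 := fun a b => by
    have := abs_sub (f a) (f b); linarith [hb a, hb b]
  have hpos : 0 ≤ 1 / (2 * Real.pi) := by positivity
  refine squeeze_zero (fun y => ?_) (fun y => ?_) h
  · exact intervalIntegral.integral_nonneg Real.two_pi_pos.le fun _ _ => abs_nonneg _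
  · rw [← intervalIntegral.integral_const_mul]
    have hpt : ∀ θ : ℝ, |(1 / (2 * Real.pi)) * (∫ φ in (0 : ℝ)..(2 * Real.pi),
          f (y + circleMap 0 1 θ + circleMap 0 1 φ)) -
        (1 / (2 * Real.pi)) * ∫ φ in (0 : ℝ)..(2 * Real.pi),
          f (x + circleMap 0 1 θ + circleMap 0 1 φ)| ≤
        (1 / (2 * Real.pi)) * ∫ φ in (0 : ℝ)..(2 * Real.pi),
          |f (y + circleMap 0 1 θ + circleMap 0 1 φ) -
            f (x + circleMap 0 1 θ + circleMap 0 1 φ)| := by
      intro θ
      rw [← mul_sub, abs_mul, abs_of_nonneg hpos,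
        ← intervalIntegral.integral_sub (hint _) (hint _)]
      exact mul_le_mul_of_nonneg_left
        (intervalIntegral.abs_integral_le_integral_abs Real.two_pi_pos.le) hpos
    have hI2 : IntervalIntegrable (fun θ : ℝ => (1 / (2 * Real.pi)) *
        ∫ φ in (0 : ℝ)..(2 * Real.pi), |f (y + circleMap 0 1 θ + circleMap 0 1 φ) -
            f (x + circleMap 0 1 θ + circleMap 0 1 φ)|) volume 0 (2 * Real.pi) := by
      refine IntervalIntegrable.const_mul ?_ _
      rw [intervalIntegrable_iff]
      refine Measure.integrableOn_of_bounded (M := 2 * |2 * Real.pi - 0|) (by simp; finiteness)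
        (measurable_inner_abs f hf y x).aestronglyMeasurable (Eventually.of_forall fun θ => ?_)
      exact intervalIntegral.norm_integral_le_of_norm_le_const fun φ _ => by
        rw [Real.norm_eq_abs, abs_abs]; exact hb2 _ _
    have hG : ∀ a : ℂ, Measurable fun θ : ℝ => ∫ φ in (0 : ℝ)..(2 * Real.pi),
        f (a + circleMap 0 1 θ + circleMap 0 1 φ) := by
      intro a
      have hc2 : Measurable fun p : ℝ × ℝ => a + circleMap 0 1 p.1 + circleMap 0 1 p.2 :=
        ((continuous_const.add ((continuous_circleMap 0 1).comp continuous_fst)).add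
          ((continuous_circleMap 0 1).comp continuous_snd)).measurable
      simp_rw [intervalIntegral.integral_of_le Real.two_pi_pos.le]
      exact ((hf.comp hc2).stronglyMeasurable.integral_prod_right'
        (ν := volume.restrict (Ioc (0 : ℝ) (2 * Real.pi)))).measurable
    refine intervalIntegral.integral_mono_on Real.two_pi_pos.le ?_ hI2 fun θ _ => hpt θ
    refine hI2.mono_fun' ?_ (Eventually.of_forall fun θ => ?_)
    · exact (((hG y).const_mul _).sub ((hG x).const_mul _)).abs.aestronglyMeasurable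
    · simp only [Real.norm_eq_abs, abs_abs]; exact hpt θ

end Crest.Agent.R40
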