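import Mathlib

/-! Row 40: maps close to the identity with an expanding bound move measurable sets a little. -/

set_option autoImplicit false

open Filter Topology MeasureTheory Set

namespace Crest.Agent.R40

/-- If `|s - t| ≤ C |φ s - φ t|` on `S`, then `vol (S ∩ φ ⁻¹' A) ≤ C * vol A`. -/
theorem vol_preimage_le {φ : ℝ → ℝ} {S : Set ℝ} {C : NNReal}
    (h : ∀ s ∈ S, ∀ t ∈ S, |s - t| ≤ C * |φ s - φ t|) (A : Set ℝ) :
    volume (S ∩ φ ⁻¹' A) ≤ C * volume A := by
  have h1 : AntilipschitzWith C (S.domRestrict φ) :=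
    AntilipschitzWith.of_le_mul_dist fun s t => by
      simpa [Real.dist_eq, Subtype.dist_eq] using h s s.2 t t.2
  have h2 := h1.hausdorffMeasure_preimage_le (d := 1) zero_le_one A
  have h3 : (Subtype.val : S → ℝ) '' (S.domRestrict φ ⁻¹' A) = S ∩ φ ⁻¹' A := by
    ext x; simp [and_comm]
  have h4 := (isometry_subtype_coe (s := S)).hausdorffMeasure_image (d := 1) (Or.inl zero_le_one)
    (S.domRestrict φ ⁻¹' A)
  rw [h3] at h4
  rw [← h4, hausdorffMeasure_real] at h2
  simpa using h2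

/-- Sweeping lemma: if `φ n → id` pointwise on `S` (finite measure) and the `φ n` are uniformly
expanding on `S`, then for every measurable `J` the set of `t ∈ S ∩ J` with `φ n t ∉ J` has
measure tending to `0`. -/
theorem sweep {α : Type*} {l : Filter α} [l.IsCountablyGenerated] {φ : α → ℝ → ℝ} {S : Set ℝ}
    (hS : MeasurableSet S) (hS' : volume S ≠ ⊤) {C : NNReal}
    (hm : ∀ᶠ n in l, AEMeasurable (φ n) (volume.restrict S))
    (h : ∀ᶠ n in l, ∀ s ∈ S, ∀ t ∈ S, |s - t| ≤ C * |φ n s - φ n t|)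
    (hlim : ∀ t ∈ S, Tendsto (fun n => φ n t) l (𝓝 t)) {J : Set ℝ} (hJ : MeasurableSet J) :
    Tendsto (fun n => volume {t ∈ S | t ∈ J ∧ φ n t ∉ J}) l (𝓝 0) := by
  rw [ENNReal.tendsto_nhds_zero]
  intro ε hε
  obtain ⟨δ, hδ0, hδ⟩ : ∃ δ : ENNReal, δ ≠ 0 ∧ C * δ ≤ ε / 2 := by
    obtain ⟨δ, h1, h2⟩ := ENNReal.exists_nnreal_pos_mul_lt (a := C) (b := ε / 2) ENNReal.coe_ne_top
      (ENNReal.half_pos hε.ne').ne'
    exact ⟨δ, by simpa using h1.ne', by rw [mul_comm]; exact h2.le⟩
  have hfin : volume (S ∩ J) ≠ ⊤ := ne_top_of_le_ne_top hS' (measure_mono inter_subset_left)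
  obtain ⟨U, hU1, hU2, -, hU3⟩ := (hS.inter hJ).exists_isOpen_sdiff_lt hfin hδ0
  have hfm : IsFiniteMeasure (volume.restrict S) := ⟨by simpa using hS'.lt_top⟩
  -- the part leaving `U`
  have h1 : Tendsto (fun n => volume.restrict S {t | t ∈ U ∧ φ n t ∉ U}) l (𝓝 0) := by
    have := tendsto_lintegral_filter_of_dominated_convergence' (μ := volume.restrict S) (l := l)
      (F := fun n t => indicator {t | t ∈ U ∧ φ n t ∉ U} (1 : ℝ → ENNReal) t) (f := fun _ => 0)
      (fun _ => 1) ?_ ?_ ?_ ?_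
    · rw [lintegral_zero] at this
      refine tendsto_of_tendsto_of_tendsto_of_le_of_le' tendsto_const_nhds this
        (Eventually.of_forall fun _ => zero_le) ?_
      filter_upwards [hm] with n hn
      have : NullMeasurableSet {t | t ∈ U ∧ φ n t ∉ U} (volume.restrict S) :=
        hU2.measurableSet.nullMeasurableSet.inter (hn.nullMeasurable hU2.measurableSet.compl)
      rw [lintegral_indicator_one₀ this]
    · filter_upwards [hm] with n hn
      have : NullMeasurableSet {t | t ∈ U ∧ φ n t ∉ U} (volume.restrict S) :=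
        hU2.measurableSet.nullMeasurableSet.inter (hn.nullMeasurable hU2.measurableSet.compl)
      exact aemeasurable_const.indicator₀ this
    · exact Eventually.of_forall fun n => ae_of_all _ fun t => indicator_le_self' (by simp) t
    · simpa using hS'
    · filter_upwards [ae_restrict_mem hS] with t ht
      refine tendsto_const_nhds.congr' ?_
      by_cases htU : t ∈ U
      · filter_upwards [(hlim t ht).eventually (hU2.mem_nhds htU)] with n hn
        rw [indicator_of_notMem]
        exact fun h' => h'.2 hn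
      · refine Eventually.of_forall fun n => ?_
        exact (indicator_of_notMem (fun h' => htU h'.1) _).symm
  filter_upwards [(ENNReal.tendsto_nhds_zero.1 h1) (ε / 2) (ENNReal.half_pos hε.ne'), h]
    with n hn hn'
  have hsub : {t ∈ S | t ∈ J ∧ φ n t ∉ J} ⊆
      ({t | t ∈ U ∧ φ n t ∉ U} ∩ S) ∪ (S ∩ φ n ⁻¹' (U \ (S ∩ J))) := by
    rintro t ⟨h1, h2, h3⟩
    by_cases h4 : φ n t ∈ U
    · exact Or.inr ⟨h1, h4, fun h5 => h3 h5.2⟩
    · exact Or.inl ⟨⟨hU1 ⟨h1, h2⟩, h4⟩, h1⟩
  rw [Measure.restrict_apply' hS] at hn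
  calc _ ≤ _ := measure_mono hsub
    _ ≤ _ := measure_union_le _ _
    _ ≤ ε / 2 + ε / 2 := by
        refine add_le_add hn ((vol_preimage_le hn' _).trans (le_trans ?_ hδ))
        gcongr
    _ = ε := ENNReal.add_halves ε

end Crest.Agent.R40
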