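import Mathlib
import Crest.Agent.R40.Conv
import Crest.Agent.R40.Sweep

/-! Row 40: the avoidance rules R1, R2, R3 (free of definitions). -/

set_option autoImplicit false

open MeasureTheory Filter Topology Set
open scoped ENNReal

namespace Crest.Agent.R40

/-- Local to global on a compact set, off a null set of exceptional parameters. -/
theorem tendsto_vol_of_local {P : Type*} {l : Filter P} {S : Set ℝ} (hS : IsCompact S)
    (Bad : P → Set ℝ) (hsub : ∀ y, Bad y ⊆ S)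
    (hloc : ∀ᵐ t : ℝ, t ∈ S → ∃ I ∈ 𝓝 t, Tendsto (fun y => volume (Bad y ∩ I)) l (𝓝 0)) :
    Tendsto (fun y => volume (Bad y)) l (𝓝 0) := by
  rw [ENNReal.tendsto_nhds_zero]
  intro ε hε
  have hε2 : 0 < ε / 2 := ENNReal.half_pos hε.ne'
  obtain ⟨U, hU1, hU2, hU3⟩ := Set.exists_isOpen_lt_of_lt
    {t : ℝ | ¬ (t ∈ S → ∃ I ∈ 𝓝 t, Tendsto (fun y => volume (Bad y ∩ I)) l (𝓝 0))} (ε / 2)
    (by rw [ae_iff.1 hloc]; exact hε2)
  have hK : IsCompact (S \ U) := hS.diff hU2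
  have hex : ∀ t ∈ S \ U, ∃ I ∈ 𝓝 t, Tendsto (fun y => volume (Bad y ∩ I)) l (𝓝 0) := by
    intro t ht
    by_contra h
    exact ht.2 (hU1 fun h' => h (h' ht.1))
  choose! I hI1 hI2 using hex
  obtain ⟨T, hT1, hT2⟩ := hK.elim_nhds_subcover I hI1
  have hsum : Tendsto (fun y => ∑ t ∈ T, volume (Bad y ∩ I t)) l (𝓝 0) := by
    have := tendsto_finsetSum T (f := fun t y => volume (Bad y ∩ I t)) (x := l)
      (a := fun _ => 0) fun t ht => hI2 t (hT1 t ht)
    simpa using this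
  filter_upwards [(ENNReal.tendsto_nhds_zero.1 hsum) (ε / 2) hε2] with y hy
  have hcov : Bad y ⊆ U ∪ ⋃ t ∈ T, (Bad y ∩ I t) := by
    intro s hs
    by_cases hsU : s ∈ U
    · exact Or.inl hsU
    · obtain ⟨t, ht, hst⟩ := mem_iUnion₂.1 (hT2 ⟨hsub y hs, hsU⟩)
      exact Or.inr (mem_iUnion₂.2 ⟨t, ht, hs, hst⟩)
  calc volume (Bad y) ≤ volume U + volume (⋃ t ∈ T, (Bad y ∩ I t)) :=
        (measure_mono hcov).trans (measure_union_le _ _)
    _ ≤ ε / 2 + ε / 2 := add_le_add hU3.le ((measure_biUnion_finset_le _ _).trans hy)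
    _ = ε := ENNReal.add_halves ε

/-- Local sweeping for a strictly differentiable family that is a shift at the base point. -/
theorem local_sweep (φ : ℂ × ℝ → ℝ) (L : ℂ × ℝ →L[ℝ] ℝ) (x : ℂ) (θ0 κ : ℝ)
    (hφ : HasStrictFDerivAt φ L (x, θ0)) (hid : ∀ᶠ θ in 𝓝 θ0, φ (x, θ) = θ + κ)
    {J : Set ℝ} (hJ : MeasurableSet J) :
    ∃ I ∈ 𝓝 θ0, Tendsto (fun y => volume {θ ∈ I | θ + κ ∈ J ∧ φ (y, θ) ∉ J}) (𝓝 x) (𝓝 0) := by
  have hL1 : L (0, 1) = 1 := by
    have h1 : HasDerivAt (fun θ : ℝ => (x, θ)) ((0 : ℂ), (1 : ℝ)) θ0 :=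
      (hasDerivAt_const θ0 x).prodMk (hasDerivAt_id θ0)
    have h2 : HasDerivAt (fun θ : ℝ => φ (x, θ)) (L (0, 1)) θ0 :=
      hφ.hasFDerivAt.comp_hasDerivAt θ0 h1
    have h3 : HasDerivAt (fun θ : ℝ => φ (x, θ)) 1 θ0 :=
      ((hasDerivAt_id θ0).add_const κ).congr_of_eventuallyEq hid
    exact h2.unique h3
  have h := hφ.isLittleO.def (c := 1 / 2) (by norm_num)
  obtain ⟨r1, hr1, h1⟩ := Metric.eventually_nhds_iff.1 h
  obtain ⟨r2, hr2, h2⟩ := Metric.eventually_nhds_iff.1 hid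
  set r := min r1 r2 with hr
  have hr0 : 0 < r := lt_min hr1 hr2
  have key : ∀ y y' : ℂ, ∀ s t : ℝ, dist y x < r → dist y' x < r → dist s θ0 < r →
      dist t θ0 < r →
      |φ (y, s) - φ (y', t) - L ((y, s) - (y', t))| ≤ 1 / 2 * ‖((y, s) - (y', t) : ℂ × ℝ)‖ := by
    intro y y' s t hy hy' hs ht
    have := h1 (y := ((y, s), (y', t))) (by
      simp only [Prod.dist_eq, max_lt_iff]
      exact ⟨⟨hy.trans_le (min_le_left _ _), hs.trans_le (min_le_left _ _)⟩,
        hy'.trans_le (min_le_left _ _), ht.trans_le (min_le_left _ _)⟩)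
    simpa using this
  have key2 : ∀ y : ℂ, ∀ s t : ℝ, dist y x < r → dist s θ0 < r → dist t θ0 < r →
      |φ (y, s) - φ (y, t) - (s - t)| ≤ 1 / 2 * |s - t| := by
    intro y s t hy hs ht
    have h3 := key y y s t hy hy hs ht
    have h4 : ((y, s) - (y, t) : ℂ × ℝ) = (s - t) • ((0 : ℂ), (1 : ℝ)) := by simp
    rw [h4, map_smul, hL1, norm_smul] at h3
    simpa using h3
  have hball : ∀ᶠ y in 𝓝 x, dist y x < r := Metric.ball_mem_nhds x hr0
  have hsw := sweep (l := 𝓝 x) (φ := fun y t => φ (y, t) - κ) (S := Metric.ball θ0 r)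
    Metric.isOpen_ball.measurableSet measure_ball_lt_top.ne (C := 2) ?_ ?_ ?_
    (J := (fun t => t + κ) ⁻¹' J) (measurable_add_const κ hJ)
  · refine ⟨Metric.ball θ0 r, Metric.ball_mem_nhds _ hr0, ?_⟩
    simpa using hsw
  · filter_upwards [hball] with y hy
    refine ContinuousOn.aemeasurable ?_ Metric.isOpen_ball.measurableSet
    refine (LipschitzOnWith.of_dist_le_mul (K := 2) fun s hs t ht => ?_).continuousOn
    have h3 := key2 y s t hy hs ht
    rw [Real.dist_eq, Real.dist_eq]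
    have h4 := abs_sub_abs_le_abs_sub (φ (y, s) - φ (y, t)) (s - t)
    have h5 : φ (y, s) - κ - (φ (y, t) - κ) = φ (y, s) - φ (y, t) := by ring
    rw [h5]
    have := abs_nonneg (s - t)
    push_cast
    linarith
  · filter_upwards [hball] with y hy s hs t ht
    have h3 := key2 y s t hy hs ht
    have h4 := abs_sub_abs_le_abs_sub (s - t) (φ (y, s) - φ (y, t))
    rw [abs_sub_comm (s - t)] at h4
    have h5 : φ (y, s) - κ - (φ (y, t) - κ) = φ (y, s) - φ (y, t) := by ring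
    rw [h5]
    push_cast
    linarith
  · intro t ht
    have ht' : dist t θ0 < r := ht
    have hxt : φ (x, t) = t + κ := h2 (ht'.trans_le (min_le_right _ _))
    rw [tendsto_iff_norm_sub_tendsto_zero]
    have hlim : Tendsto (fun y : ℂ => (‖L‖ + 1 / 2) * ‖y - x‖) (𝓝 x) (𝓝 0) := by
      have : Tendsto (fun y : ℂ => ‖y - x‖) (𝓝 x) (𝓝 0) := tendsto_norm_sub_self x
      simpa using this.const_mul (‖L‖ + 1 / 2)
    refine squeeze_zero' (Eventually.of_forall fun _ => norm_nonneg _) ?_ hlim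
    filter_upwards [hball] with y hy
    have h3 := key y x t t hy (by simpa using hr0) ht' ht'
    have h4 : ‖((y, t) - (x, t) : ℂ × ℝ)‖ = ‖y - x‖ := by simp [Prod.norm_def]
    have h5 := L.le_opNorm ((y, t) - (x, t))
    rw [h4] at h3 h5
    have h6 := abs_sub_abs_le_abs_sub (φ (y, t) - φ (x, t)) (L ((y, t) - (x, t)))
    have h7 : φ (y, t) - κ - t = φ (y, t) - φ (x, t) := by rw [hxt]; ring
    rw [Real.norm_eq_abs] at h5 ⊢
    rw [h7]
    linarith

/-- The sum map in real coordinates. -/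
noncomputable def sumMap (p : ℝ × ℝ) : ℝ × ℝ :=
  (Real.cos p.1 + Real.cos p.2, Real.sin p.1 + Real.sin p.2)

theorem sumMap_eq (p : ℝ × ℝ) :
    Complex.equivRealProdCLM (circleMap 0 1 p.1 + circleMap 0 1 p.2) = sumMap p := by
  simp [sumMap, circleMap, Complex.exp_ofReal_mul_I_re, Complex.exp_ofReal_mul_I_im]

theorem sumMap_strict (p : ℝ × ℝ) : ∃ L : (ℝ × ℝ) →L[ℝ] (ℝ × ℝ),
    HasStrictFDerivAt sumMap L p ∧ L.det = Real.sin (p.2 - p.1) := by
  refine ⟨(((-Real.sin p.1) • ContinuousLinearMap.fst ℝ ℝ ℝ +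
      (-Real.sin p.2) • ContinuousLinearMap.snd ℝ ℝ ℝ).prod
      ((Real.cos p.1) • ContinuousLinearMap.fst ℝ ℝ ℝ +
      (Real.cos p.2) • ContinuousLinearMap.snd ℝ ℝ ℝ)), ?_, ?_⟩
  · have h1 : HasStrictFDerivAt (fun q : ℝ × ℝ => Real.cos q.1)
        ((-Real.sin p.1) • ContinuousLinearMap.fst ℝ ℝ ℝ) p :=
      (Real.hasStrictDerivAt_cos p.1).comp_hasStrictFDerivAt p hasStrictFDerivAt_fst
    have h2 : HasStrictFDerivAt (fun q : ℝ × ℝ => Real.cos q.2)
        ((-Real.sin p.2) • ContinuousLinearMap.snd ℝ ℝ ℝ) p :=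
      (Real.hasStrictDerivAt_cos p.2).comp_hasStrictFDerivAt p hasStrictFDerivAt_snd
    have h3 : HasStrictFDerivAt (fun q : ℝ × ℝ => Real.sin q.1)
        ((Real.cos p.1) • ContinuousLinearMap.fst ℝ ℝ ℝ) p :=
      (Real.hasStrictDerivAt_sin p.1).comp_hasStrictFDerivAt p hasStrictFDerivAt_fst
    have h4 : HasStrictFDerivAt (fun q : ℝ × ℝ => Real.sin q.2)
        ((Real.cos p.2) • ContinuousLinearMap.snd ℝ ℝ ℝ) p :=
      (Real.hasStrictDerivAt_sin p.2).comp_hasStrictFDerivAt p hasStrictFDerivAt_snd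
    exact (h1.add h2).prodMk (h3.add h4)
  · rw [ContinuousLinearMap.det, ← LinearMap.det_toMatrix (Module.Basis.finTwoProd ℝ),
      Matrix.det_fin_two]
    simp [LinearMap.toMatrix_apply, Real.sin_sub]
    ring

/-- Core of the rules R2 and R3: a point of the circle about `y` lies on a circle centred at
`x' + e α` with `α` close to `θ + κ`. -/
theorem avoid_core (x x' : ℂ) (κ : ℝ) (b : ℝ → ℝ) (hb : Continuous b)
    (h : ∀ θ, x + circleMap 0 1 θ = x' + circleMap 0 1 (θ + κ) + circleMap 0 1 (b θ))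
    (hnd : ∀ᵐ θ : ℝ, Real.sin (b θ - (θ + κ)) ≠ 0) {J : Set ℝ} (hJ : MeasurableSet J)
    {S : Set ℝ} (hS : IsCompact S) :
    Tendsto (fun y : ℂ => volume {θ ∈ S | θ + κ ∈ J ∧
      ∀ α ∈ J, ∀ β, y + circleMap 0 1 θ ≠ x' + circleMap 0 1 α + circleMap 0 1 β})
      (𝓝 x) (𝓝 0) := by
  refine tendsto_vol_of_local hS _ (fun y θ hθ => hθ.1) ?_
  filter_upwards [hnd] with θ0 hθ0 _
  obtain ⟨L, hL, hdet⟩ := sumMap_strict (θ0 + κ, b θ0)
  have hdet' : L.det ≠ 0 := by rw [hdet]; exact hθ0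
  let L' : (ℝ × ℝ) ≃L[ℝ] (ℝ × ℝ) := L.toContinuousLinearEquivOfDetNeZero hdet'
  have hL' : HasStrictFDerivAt sumMap (L' : (ℝ × ℝ) →L[ℝ] (ℝ × ℝ)) (θ0 + κ, b θ0) := by
    simpa [L'] using hL
  let Ψ := hL'.localInverse sumMap L' (θ0 + κ, b θ0)
  let w : ℂ × ℝ → ℝ × ℝ := fun q => Complex.equivRealProdCLM (q.1 + circleMap 0 1 q.2 - x')
  have hwx : ∀ θ, w (x, θ) = sumMap (θ + κ, b θ) := by
    intro θ
    rw [← sumMap_eq]
    simp only [w]
    congr 1
    rw [h θ]; ring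
  have hwd : ContDiff ℝ 1 w := by
    refine Complex.equivRealProdCLM.contDiff.comp ?_
    exact (contDiff_fst.add ((contDiff_circleMap 0 1).comp contDiff_snd)).sub contDiff_const
  have hw := hwd.contDiffAt.hasStrictFDerivAt (x := (x, θ0)) one_ne_zero
  have hΨ : HasStrictFDerivAt Ψ (L'.symm : (ℝ × ℝ) →L[ℝ] (ℝ × ℝ)) (w (x, θ0)) := by
    rw [hwx]; exact hL'.to_localInverse
  have hφ := (hasStrictFDerivAt_fst (𝕜 := ℝ) (p := Ψ (w (x, θ0)))).comp (x, θ0)
    (hΨ.comp (x, θ0) hw)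
  have hid : ∀ᶠ θ in 𝓝 θ0, (fun q => (Ψ (w q)).1) (x, θ) = θ + κ := by
    have hc : Tendsto (fun θ => (θ + κ, b θ)) (𝓝 θ0) (𝓝 (θ0 + κ, b θ0)) :=
      ((continuous_id.add continuous_const).prodMk hb).tendsto θ0
    filter_upwards [hc.eventually hL'.eventually_left_inverse] with θ hθ
    simp only [hwx, Ψ]
    rw [hθ]
  obtain ⟨I, hI, hT⟩ := local_sweep (fun q => (Ψ (w q)).1) _ x θ0 κ hφ hid hJ
  have hright : ∀ᶠ q in 𝓝 (x, θ0), sumMap (Ψ (w q)) = w q := by
    have hc : Tendsto w (𝓝 (x, θ0)) (𝓝 (sumMap (θ0 + κ, b θ0))) := by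
      rw [← hwx]; exact hwd.continuous.tendsto _
    exact hc.eventually hL'.eventually_right_inverse
  rw [nhds_prod_eq] at hright
  obtain ⟨pa, hpa, pb, hpb, hab⟩ := eventually_prod_iff.1 hright
  refine ⟨I ∩ {θ | pb θ}, inter_mem hI hpb, ?_⟩
  refine tendsto_of_tendsto_of_tendsto_of_le_of_le' tendsto_const_nhds hT
    (Eventually.of_forall fun _ => zero_le) ?_
  filter_upwards [hpa] with y hy
  refine measure_mono ?_
  rintro θ ⟨⟨-, h1, h2⟩, h3, h4⟩
  refine ⟨h3, h1, fun h5 => h2 _ h5 (Ψ (w (y, θ))).2 ?_⟩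
  have h6 := hab hy h4
  rw [← sumMap_eq] at h6
  have h7 := Complex.equivRealProdCLM.injective h6
  simp only at h7
  rw [add_assoc, h7]; ring

/-- The set of points whose unit circle misses `A` almost everywhere is measurable. -/
theorem measurableSet_unseen {A : Set ℂ} (hA : MeasurableSet A) :
    MeasurableSet {z : ℂ | ∀ᵐ φ : ℝ, z + circleMap 0 1 φ ∉ A} := by
  have hc : Measurable fun p : ℂ × ℝ => p.1 + circleMap 0 1 p.2 :=
    (continuous_fst.add ((continuous_circleMap 0 1).comp continuous_snd)).measurable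
  have h1 := measurable_measure_prodMk_left (ν := (volume : Measure ℝ)) (hc hA)
  have h2 := h1 (measurableSet_singleton 0)
  convert h2 using 1
  ext z
  simp [ae_iff, preimage]

/-- The points of `A` on circles whose centres `x' + e α` do not see `A` form a null set. -/
theorem null_swept {A : Set ℂ} (hA : MeasurableSet A) (x' : ℂ) :
    volume {w ∈ A | ∃ α β : ℝ, (∀ᵐ φ : ℝ, x' + circleMap 0 1 α + circleMap 0 1 φ ∉ A) ∧
      w = x' + circleMap 0 1 α + circleMap 0 1 β} = 0 := by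
  let T : Set (ℝ × ℝ) := {p | (∀ᵐ φ : ℝ, x' + circleMap 0 1 p.1 + circleMap 0 1 φ ∉ A) ∧
    x' + circleMap 0 1 p.1 + circleMap 0 1 p.2 ∈ A}
  have hc1 : Measurable fun p : ℝ × ℝ => x' + circleMap 0 1 p.1 :=
    (continuous_const.add ((continuous_circleMap 0 1).comp continuous_fst)).measurable
  have hc2 : Measurable fun p : ℝ × ℝ => x' + circleMap 0 1 p.1 + circleMap 0 1 p.2 :=
    ((continuous_const.add ((continuous_circleMap 0 1).comp continuous_fst)).add
      ((continuous_circleMap 0 1).comp continuous_snd)).measurable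
  have hTm : MeasurableSet T := (hc1 (measurableSet_unseen hA)).inter (hc2 hA)
  have hT0 : volume T = 0 := by
    rw [Measure.volume_eq_prod, Measure.measure_prod_null hTm]
    refine Eventually.of_forall fun α => ?_
    by_cases hα : ∀ᵐ φ : ℝ, x' + circleMap 0 1 α + circleMap 0 1 φ ∉ A
    · refine measure_mono_null (fun β hβ => ?_) (ae_iff.1 hα)
      simpa using hβ.2
    · have : Prod.mk α ⁻¹' T = ∅ := eq_empty_of_forall_notMem fun β hβ => hα hβ.1
      simp [this]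
  have hdiff : Differentiable ℝ fun p => Complex.equivRealProdCLM x' + sumMap p := fun p => by
    obtain ⟨L, hL, -⟩ := sumMap_strict p
    exact hL.differentiableAt.const_add _
  have h1 := addHaar_image_eq_zero_of_differentiableOn_of_addHaar_eq_zero volume
    hdiff.differentiableOn hT0
  have h2 := Complex.volume_preserving_equiv_real_prod.quasiMeasurePreserving.preimage_null h1
  refine measure_mono_null ?_ h2
  rintro w ⟨hw, α, β, hα, rfl⟩
  refine ⟨(α, β), ⟨hα, hw⟩, ?_⟩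
  simp only [← sumMap_eq, ← map_add, add_assoc]
  rfl

/-- General form of R2 and R3 for a colour class `A`. -/
theorem avoid_gen {A : Set ℂ} (hA : MeasurableSet A) (x x' : ℂ) (κ : ℝ) (b : ℝ → ℝ)
    (hb : Continuous b)
    (h : ∀ θ, x + circleMap 0 1 θ = x' + circleMap 0 1 (θ + κ) + circleMap 0 1 (b θ))
    (hnd : ∀ᵐ θ : ℝ, Real.sin (b θ - (θ + κ)) ≠ 0) {S : Set ℝ} (hS : IsCompact S) :
    ∃ N : Set ℂ, volume N = 0 ∧ Tendsto (fun y : ℂ => volume {θ ∈ S |
      (∀ᵐ φ : ℝ, x' + circleMap 0 1 (θ + κ) + circleMap 0 1 φ ∉ A) ∧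
        y + circleMap 0 1 θ ∈ A ∧ y + circleMap 0 1 θ ∉ N}) (𝓝 x) (𝓝 0) := by
  refine ⟨_, null_swept hA x', ?_⟩
  have hJ : MeasurableSet {α : ℝ | ∀ᵐ φ : ℝ, x' + circleMap 0 1 α + circleMap 0 1 φ ∉ A} :=
    (continuous_const.add (continuous_circleMap 0 1)).measurable (measurableSet_unseen hA)
  refine tendsto_of_tendsto_of_tendsto_of_le_of_le tendsto_const_nhds
    (avoid_core x x' κ b hb h hnd hJ hS) (fun _ => zero_le) fun y => measure_mono ?_
  rintro θ ⟨h0, h1, h2, h3⟩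
  exact ⟨h0, h1, fun α hα β hβ => h3 ⟨h2, α, β, hα, hβ⟩⟩

theorem circleMap_sixty (θ : ℝ) : circleMap 0 1 θ =
    circleMap 0 1 (θ + Real.pi / 3) + circleMap 0 1 (θ - Real.pi / 3) := by
  apply Complex.ext <;>
    simp only [circleMap, zero_add, Complex.ofReal_one, one_mul, Complex.exp_ofReal_mul_I_re,
      Complex.exp_ofReal_mul_I_im, Complex.add_re, Complex.add_im, Real.cos_add, Real.cos_sub,
      Real.sin_add, Real.sin_sub, Real.cos_pi_div_three] <;> ring

/-- Rule R2, shift `+π/3`. -/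
theorem avoid_R2_add {A : Set ℂ} (hA : MeasurableSet A) (x : ℂ) {S : Set ℝ} (hS : IsCompact S) :
    ∃ N : Set ℂ, volume N = 0 ∧ Tendsto (fun y : ℂ => volume {θ ∈ S |
      (∀ᵐ φ : ℝ, x + circleMap 0 1 (θ + Real.pi / 3) + circleMap 0 1 φ ∉ A) ∧
        y + circleMap 0 1 θ ∈ A ∧ y + circleMap 0 1 θ ∉ N}) (𝓝 x) (𝓝 0) := by
  refine avoid_gen hA x x (Real.pi / 3) (fun θ => θ - Real.pi / 3) (by fun_prop)
    (fun θ => by rw [add_assoc, ← circleMap_sixty]) (Eventually.of_forall fun θ => ?_) hS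
  have : θ - Real.pi / 3 - (θ + Real.pi / 3) = -(Real.pi - Real.pi / 3) := by ring
  rw [this, Real.sin_neg, Real.sin_pi_sub, Real.sin_pi_div_three]
  have : (0 : ℝ) < √3 / 2 := by positivity
  linarith

/-- Rule R2, shift `-π/3`. -/
theorem avoid_R2_sub {A : Set ℂ} (hA : MeasurableSet A) (x : ℂ) {S : Set ℝ} (hS : IsCompact S) :
    ∃ N : Set ℂ, volume N = 0 ∧ Tendsto (fun y : ℂ => volume {θ ∈ S |
      (∀ᵐ φ : ℝ, x + circleMap 0 1 (θ - Real.pi / 3) + circleMap 0 1 φ ∉ A) ∧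
        y + circleMap 0 1 θ ∈ A ∧ y + circleMap 0 1 θ ∉ N}) (𝓝 x) (𝓝 0) := by
  have := avoid_gen hA x x (-(Real.pi / 3)) (fun θ => θ + Real.pi / 3) (by fun_prop)
    (fun θ => by
      rw [add_assoc, ← sub_eq_add_neg, add_comm (circleMap 0 1 (θ - Real.pi / 3)),
        ← circleMap_sixty]) (Eventually.of_forall fun θ => ?_) hS
  · simpa only [← sub_eq_add_neg] using this
  have : θ + Real.pi / 3 - (θ + -(Real.pi / 3)) = Real.pi - Real.pi / 3 := by ring
  rw [this, Real.sin_pi_sub, Real.sin_pi_div_three]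
  positivity

/-- Rule R3. -/
theorem avoid_R3 {A : Set ℂ} (hA : MeasurableSet A) (x x' : ℂ) (hx : ‖x - x'‖ = 1)
    {S : Set ℝ} (hS : IsCompact S) :
    ∃ N : Set ℂ, volume N = 0 ∧ Tendsto (fun y : ℂ => volume {θ ∈ S |
      (∀ᵐ φ : ℝ, x' + circleMap 0 1 θ + circleMap 0 1 φ ∉ A) ∧
        y + circleMap 0 1 θ ∈ A ∧ y + circleMap 0 1 θ ∉ N}) (𝓝 x) (𝓝 0) := by
  have hγ : circleMap 0 1 (Complex.arg (x - x')) = x - x' := by
    have := Complex.norm_mul_exp_arg_mul_I (x - x')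
    rw [hx] at this
    simpa [circleMap] using this
  have := avoid_gen hA x x' 0 (fun _ => Complex.arg (x - x')) continuous_const
    (fun θ => by rw [hγ, add_zero]; ring) ?_ hS
  · simpa only [add_zero] using this
  have hc : {θ : ℝ | Real.sin (Complex.arg (x - x') - (θ + 0)) = 0}.Countable := by
    refine (countable_range fun n : ℤ => Complex.arg (x - x') - n * Real.pi).mono fun t ht => ?_
    obtain ⟨n, hn⟩ := Real.sin_eq_zero_iff.1 ht
    exact ⟨n, by simp only; linarith⟩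
  rw [ae_iff]
  simpa using hc.measure_zero volume

/-- Rule R1 (no genericity needed in this form). -/
theorem avoid_R1 {A : Set ℂ} (hA : MeasurableSet A) (x : ℂ) {S : Set ℝ} (hSm : MeasurableSet S)
    (hS : volume S ≠ ⊤) :
    Tendsto (fun y : ℂ => volume {θ ∈ S |
      (∀ᵐ φ : ℝ, y + circleMap 0 1 θ + circleMap 0 1 φ ∉ A) ∧
        ¬ ∀ᵐ φ : ℝ, x + circleMap 0 1 θ + circleMap 0 1 φ ∉ A}) (𝓝 x) (𝓝 0) := by
  refine tendsto_of_subseq_tendsto fun y hy => ?_
  have hfm : Measurable (A.indicator (fun _ => (1 : ℝ))) := measurable_const.indicator hA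
  obtain ⟨ms, hms, hae⟩ := exists_subseq_translate_ae_ball (A.indicator fun _ => (1 : ℝ)) hfm
    (fun z => by by_cases hz : z ∈ A <;> simp [hz]) y x hy 2
  refine ⟨ms, ?_⟩
  have hae2 := ae_ae_of_ae hae 0
  have hmeas : ∀ a : ℂ,
      MeasurableSet {θ : ℝ | ∀ᵐ φ : ℝ, a + circleMap 0 1 θ + circleMap 0 1 φ ∉ A} := fun a =>
    (continuous_const.add (continuous_circleMap 0 1)).measurable (measurableSet_unseen hA)
  have hfin : IsFiniteMeasure (volume.restrict S) := ⟨by simpa using hS.lt_top⟩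
  have hB : ∀ n, MeasurableSet {θ : ℝ |
      (∀ᵐ φ : ℝ, y (ms n) + circleMap 0 1 θ + circleMap 0 1 φ ∉ A) ∧
        ¬ ∀ᵐ φ : ℝ, x + circleMap 0 1 θ + circleMap 0 1 φ ∉ A} := fun n =>
    (hmeas _).inter (hmeas x).compl
  have hlim := tendsto_measure_of_ae_tendsto_indicator_of_isFiniteMeasure (μ := volume.restrict S)
    atTop (A := ∅) MeasurableSet.empty hB ?_
  · rw [measure_empty] at hlim
    refine hlim.congr fun n => ?_
    rw [Measure.restrict_apply' hSm]
    congr 1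
    ext θ; simp only [mem_inter_iff, mem_ofPred_eq]; tauto
  refine ae_restrict_of_ae ?_
  filter_upwards [hae2] with θ hθ
  simp only [mem_empty_iff_false, iff_false]
  by_contra hcon
  rw [not_eventually] at hcon
  simp only [not_not] at hcon
  obtain ⟨n0, -, hx⟩ := hcon.exists
  apply hx
  have hall : ∀ᵐ φ : ℝ, ∀ n, (∀ᵐ φ' : ℝ, y (ms n) + circleMap 0 1 θ + circleMap 0 1 φ' ∉ A) →
      y (ms n) + circleMap 0 1 θ + circleMap 0 1 φ ∉ A := by
    rw [ae_all_iff]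
    intro n
    by_cases hn : ∀ᵐ φ' : ℝ, y (ms n) + circleMap 0 1 θ + circleMap 0 1 φ' ∉ A
    · filter_upwards [hn] with φ hφ _ using hφ
    · exact Eventually.of_forall fun φ h => absurd h hn
  filter_upwards [hθ, hall] with φ hφ hφ2 hmem
  have hn : ‖(0 : ℂ) + circleMap 0 1 θ + circleMap 0 1 φ‖ ≤ 2 := by
    have := norm_add_le (circleMap 0 1 θ) (circleMap 0 1 φ)
    simp only [norm_circleMap_zero, abs_one] at this
    rw [zero_add]; linarith
  have h1 := hφ hn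
  simp only [zero_add, ← add_assoc] at h1
  rw [indicator_of_mem hmem] at h1
  have h2 := h1.eventually (lt_mem_nhds (show (0 : ℝ) < 1 by norm_num))
  obtain ⟨n, hn1, hn2⟩ := (hcon.and_eventually h2).exists
  rw [indicator_of_notMem (hφ2 n hn1.1)] at hn2
  exact lt_irrefl _ hn2

end Crest.Agent.R40
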