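import Mathlib

set_option autoImplicit false

namespace Crest.Agent.R40.Bessel

open MeasureTheory intervalIntegral Real

/-- middle part, integration by parts -/
theorem mid (r δ : ℝ) (hr : r ≠ 0) (hδ : 0 < δ) (hδ' : δ ≤ π / 2) :
    ‖∫ θ in δ..(π - δ), Complex.exp (Complex.I * r * Real.cos θ)‖ ≤ 4 / (|r| * Real.sin δ) := by
  have hle : δ ≤ π - δ := by linarith
  have hsδ : 0 < Real.sin δ := Real.sin_pos_of_pos_of_lt_pi hδ (by linarith [Real.pi_pos])
  have hpos : ∀ θ ∈ Set.uIcc δ (π - δ), 0 < Real.sin θ := by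
    intro θ hθ
    rw [Set.uIcc_of_le hle] at hθ
    exact Real.sin_pos_of_pos_of_lt_pi (by linarith [hθ.1]) (by linarith [hθ.2])
  set u : ℝ → ℂ := fun θ => ((-(1 / Real.sin θ) : ℝ) : ℂ) / (Complex.I * r) with hu
  set u' : ℝ → ℂ := fun θ => ((Real.cos θ / Real.sin θ ^ 2 : ℝ) : ℂ) / (Complex.I * r) with hu'
  set v : ℝ → ℂ := fun θ => Complex.exp (Complex.I * r * Real.cos θ) with hv
  set v' : ℝ → ℂ := fun θ => Complex.exp (Complex.I * r * Real.cos θ) *
    (Complex.I * r * ((-Real.sin θ : ℝ) : ℂ)) with hv'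
  have hrC : (Complex.I * r : ℂ) ≠ 0 := mul_ne_zero Complex.I_ne_zero (by exact_mod_cast hr)
  have hdu : ∀ θ ∈ Set.uIcc δ (π - δ), HasDerivAt u (u' θ) θ := by
    intro θ hθ
    have h0 := (hpos θ hθ).ne'
    have h1 : HasDerivAt (fun θ => -(1 / Real.sin θ)) (Real.cos θ / Real.sin θ ^ 2) θ := by
      have := ((Real.hasDerivAt_sin θ).fun_inv h0).fun_neg
      simp only [one_div]
      exact this.congr_deriv (by ring)
    exact h1.ofReal_comp.div_const _
  have hdv : ∀ θ ∈ Set.uIcc δ (π - δ), HasDerivAt v (v' θ) θ := by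
    intro θ _
    exact ((Real.hasDerivAt_cos θ).ofReal_comp.const_mul (Complex.I * r)).cexp
  have hcu' : ContinuousOn u' (Set.uIcc δ (π - δ)) := by
    apply ContinuousOn.div_const
    apply Complex.continuous_ofReal.comp_continuousOn
    exact Real.continuous_cos.continuousOn.div (Real.continuous_sin.pow 2).continuousOn
      (fun θ hθ => pow_ne_zero 2 (hpos θ hθ).ne')
  have hcv' : Continuous v' := by
    simp only [hv']; fun_prop
  have hcv : Continuous v := by
    simp only [hv]; fun_prop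
  have key := intervalIntegral.integral_mul_deriv_eq_deriv_mul hdu hdv hcu'.intervalIntegrable
    (hcv'.intervalIntegrable _ _)
  have heq : ∫ θ in δ..(π - δ), Complex.exp (Complex.I * r * Real.cos θ)
      = ∫ θ in δ..(π - δ), u θ * v' θ := by
    apply intervalIntegral.integral_congr
    intro θ hθ
    have h0 : ((Real.sin θ : ℝ) : ℂ) ≠ 0 := by exact_mod_cast (hpos θ hθ).ne'
    simp only [hu, hv']
    push_cast
    push_cast at h0
    have hr' : (r : ℂ) ≠ 0 := by exact_mod_cast hr
    field_simp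
  rw [heq, key]
  have hnv : ∀ θ, ‖v θ‖ = 1 := by
    intro θ
    simp only [hv]
    rw [show Complex.I * r * (Real.cos θ : ℂ) = ((r * Real.cos θ : ℝ) : ℂ) * Complex.I by
      push_cast; ring]
    exact Complex.norm_exp_ofReal_mul_I _
  have hra : 0 < |r| := abs_pos.mpr hr
  have hnu : ∀ θ, Real.sin θ = Real.sin δ → ‖u θ * v θ‖ = 1 / (|r| * Real.sin δ) := by
    intro θ h
    rw [norm_mul, hnv, mul_one]
    simp only [hu, norm_div, Complex.norm_real, norm_mul, Complex.norm_I, one_mul, h,
      Real.norm_eq_abs, abs_neg]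
    rw [abs_of_pos (by positivity)]
    field_simp
  have h3 : ‖∫ θ in δ..(π - δ), u' θ * v θ‖ ≤ 2 / (|r| * Real.sin δ) := by
    have hd : ∀ θ ∈ Set.uIcc δ (π - δ),
        HasDerivAt (fun θ => -(Real.cos θ / Real.sin θ) / |r|) (1 / Real.sin θ ^ 2 / |r|) θ := by
      intro θ hθ
      have h0 := (hpos θ hθ).ne'
      have := (((Real.hasDerivAt_cos θ).fun_div (Real.hasDerivAt_sin θ) h0).fun_neg).div_const |r|
      refine this.congr_deriv ?_
      have h1 := Real.sin_sq_add_cos_sq θ
      congr 1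
      rw [← neg_div]
      congr 1
      linarith
    have hc : ContinuousOn (fun θ => 1 / Real.sin θ ^ 2 / |r|) (Set.uIcc δ (π - δ)) := by
      apply ContinuousOn.div_const
      exact continuousOn_const.div (Real.continuous_sin.pow 2).continuousOn
        (fun θ hθ => pow_ne_zero 2 (hpos θ hθ).ne')
    have hI := intervalIntegral.integral_eq_sub_of_hasDerivAt hd hc.intervalIntegrable
    have hb : ‖∫ θ in δ..(π - δ), u' θ * v θ‖ ≤ ∫ θ in δ..(π - δ), 1 / Real.sin θ ^ 2 / |r| := by
      apply intervalIntegral.norm_integral_le_of_norm_le hle _ hc.intervalIntegrable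
      refine Filter.Eventually.of_forall fun θ hθ => ?_
      have h0 := hpos θ (by rw [Set.uIcc_of_le hle]; exact ⟨hθ.1.le, hθ.2⟩)
      rw [norm_mul, hnv, mul_one]
      simp only [hu', norm_div, Complex.norm_real, norm_mul, Complex.norm_I, one_mul,
        Real.norm_eq_abs]
      rw [abs_of_pos (by positivity : (0:ℝ) < Real.sin θ ^ 2)]
      gcongr
      exact Real.abs_cos_le_one θ
    refine hb.trans ?_
    rw [hI]
    simp only [Real.cos_pi_sub, Real.sin_pi_sub]
    have := Real.cos_le_one δ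
    rw [show -(-Real.cos δ / Real.sin δ) / |r| - -(Real.cos δ / Real.sin δ) / |r|
      = 2 * Real.cos δ / (|r| * Real.sin δ) by field_simp; ring]
    gcongr
    linarith
  have h1 := hnu (π - δ) (Real.sin_pi_sub δ)
  have h2 := hnu δ rfl
  calc _ ≤ ‖u (π - δ) * v (π - δ)‖ + ‖u δ * v δ‖ + ‖∫ θ in δ..(π - δ), u' θ * v θ‖ := by
        refine (norm_sub_le _ _).trans ?_
        gcongr
        exact norm_sub_le _ _
    _ ≤ 1 / (|r| * Real.sin δ) + 1 / (|r| * Real.sin δ) + 2 / (|r| * Real.sin δ) := by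
        rw [h1, h2]; gcongr
    _ = _ := by ring

theorem norm_e (r θ : ℝ) : ‖Complex.exp (Complex.I * r * Real.cos θ)‖ = 1 := by
  rw [show Complex.I * r * (Real.cos θ : ℂ) = ((r * Real.cos θ : ℝ) : ℂ) * Complex.I by
    push_cast; ring]
  exact Complex.norm_exp_ofReal_mul_I _

theorem half (r : ℝ) (hr : 1 ≤ |r|) :
    ‖∫ θ in (0:ℝ)..π, Complex.exp (Complex.I * r * Real.cos θ)‖ ≤ 9 / Real.sqrt |r| := by
  have hr0 : r ≠ 0 := by intro h; rw [h] at hr; norm_num at hr
  have hra : 0 < |r| := abs_pos.mpr hr0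
  set s := Real.sqrt |r| with hs
  have hs1 : 1 ≤ s := by rw [hs]; exact Real.one_le_sqrt.mpr hr
  have hss : s * s = |r| := Real.mul_self_sqrt hra.le
  set δ := 1 / s with hδ
  have hδ0 : 0 < δ := by positivity
  have hδ1 : δ ≤ 1 := by rw [hδ, div_le_one (by positivity)]; exact hs1
  have hδ2 : δ ≤ π / 2 := by linarith [Real.pi_gt_three]
  have hc : Continuous fun θ : ℝ => Complex.exp (Complex.I * r * Real.cos θ) := by fun_prop
  have hsplit : ∫ θ in (0:ℝ)..π, Complex.exp (Complex.I * r * Real.cos θ) =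
      (∫ θ in (0:ℝ)..δ, Complex.exp (Complex.I * r * Real.cos θ)) +
      (∫ θ in δ..(π - δ), Complex.exp (Complex.I * r * Real.cos θ)) +
      (∫ θ in (π - δ)..π, Complex.exp (Complex.I * r * Real.cos θ)) := by
    rw [intervalIntegral.integral_add_adjacent_intervals (hc.intervalIntegrable _ _)
      (hc.intervalIntegrable _ _), intervalIntegral.integral_add_adjacent_intervals
      (hc.intervalIntegrable _ _) (hc.intervalIntegrable _ _)]
  have e1 : ‖∫ θ in (0:ℝ)..δ, Complex.exp (Complex.I * r * Real.cos θ)‖ ≤ δ := by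
    have := intervalIntegral.norm_integral_le_of_norm_le_const (a := 0) (b := δ) (C := 1)
      (f := fun θ : ℝ => Complex.exp (Complex.I * r * Real.cos θ)) (fun θ _ => (norm_e r θ).le)
    simpa [abs_of_pos hδ0] using this
  have e3 : ‖∫ θ in (π - δ)..π, Complex.exp (Complex.I * r * Real.cos θ)‖ ≤ δ := by
    have := intervalIntegral.norm_integral_le_of_norm_le_const (a := π - δ) (b := π) (C := 1)
      (f := fun θ : ℝ => Complex.exp (Complex.I * r * Real.cos θ)) (fun θ _ => (norm_e r θ).le)
    simpa [abs_of_pos hδ0] using this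
  have e2 := mid r δ hr0 hδ0 hδ2
  have hsin : 2 / π * δ ≤ Real.sin δ := Real.mul_le_sin hδ0.le hδ2
  have hpi := Real.pi_pos
  have e2' : 4 / (|r| * Real.sin δ) ≤ 7 / s := by
    have h1 : 4 / (|r| * Real.sin δ) ≤ 4 / (|r| * (2 / π * δ)) := by gcongr
    refine h1.trans ?_
    rw [← hss, hδ, show 4 / (s * s * (2 / π * (1 / s))) = 2 * π / s by field_simp; ring]
    gcongr
    linarith [Real.pi_lt_d2]
  rw [hsplit]
  calc _ ≤ δ + 7 / s + δ := by
        refine (norm_add_le _ _).trans ?_
        gcongr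
        refine (norm_add_le _ _).trans ?_
        gcongr
        exact e2.trans e2'
    _ = 9 / s := by rw [hδ]; ring

/-- decay of the Fourier transform of arc length -/
theorem decay (r α : ℝ) :
    ‖∫ θ in (0:ℝ)..(2 * π), Complex.exp (Complex.I * r * Real.cos (θ - α))‖ ^ 2 * |r| ≤ 324 := by
  have hc : ∀ r : ℝ, Continuous fun θ : ℝ => Complex.exp (Complex.I * r * Real.cos θ) := by
    intro r; fun_prop
  have hper : Function.Periodic (fun θ : ℝ => Complex.exp (Complex.I * r * Real.cos θ)) (2 * π) := by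
    intro θ; simp only [Real.cos_add_two_pi]
  have h0 : ∫ θ in (0:ℝ)..(2 * π), Complex.exp (Complex.I * r * Real.cos (θ - α)) =
      ∫ θ in (0:ℝ)..(2 * π), Complex.exp (Complex.I * r * Real.cos θ) := by
    rw [intervalIntegral.integral_comp_sub_right
      (fun θ : ℝ => Complex.exp (Complex.I * r * Real.cos θ)) α]
    have := hper.intervalIntegral_add_eq (0 - α) 0
    rw [show 2 * π - α = 0 - α + 2 * π by ring, this, zero_add]
  rw [h0]
  by_cases hr : 1 ≤ |r|
  · have hra : 0 < |r| := by linarith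
    have h1 : ∫ θ in π..(2 * π), Complex.exp (Complex.I * r * Real.cos θ) =
        ∫ θ in (0:ℝ)..π, Complex.exp (Complex.I * ((-r : ℝ) : ℂ) * Real.cos θ) := by
      have := intervalIntegral.integral_comp_add_right (a := 0) (b := π)
        (fun θ : ℝ => Complex.exp (Complex.I * r * Real.cos θ)) π
      rw [zero_add, ← two_mul] at this
      rw [← this]
      congr 1; ext θ
      rw [Real.cos_add_pi]; push_cast; ring_nf
    have h2 : ‖∫ θ in (0:ℝ)..(2 * π), Complex.exp (Complex.I * r * Real.cos θ)‖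
        ≤ 18 / Real.sqrt |r| := by
      rw [← intervalIntegral.integral_add_adjacent_intervals (b := π)
        ((hc r).intervalIntegrable _ _) ((hc r).intervalIntegrable _ _), h1]
      have a1 := half r hr
      have a2 := half (-r) (by rwa [abs_neg])
      rw [abs_neg] at a2
      refine (norm_add_le _ _).trans ?_
      calc _ ≤ 9 / Real.sqrt |r| + 9 / Real.sqrt |r| := add_le_add a1 a2
        _ = _ := by ring
    calc _ ≤ (18 / Real.sqrt |r|) ^ 2 * |r| := by gcongr
      _ = 324 := by
        rw [div_pow, Real.sq_sqrt hra.le]; field_simp; norm_num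
  · push Not at hr
    have := intervalIntegral.norm_integral_le_of_norm_le_const (a := 0) (b := 2 * π) (C := 1)
      (f := fun θ : ℝ => Complex.exp (Complex.I * r * Real.cos θ)) (fun θ _ => (norm_e r θ).le)
    have hpi := Real.pi_pos
    rw [sub_zero, abs_of_pos (by positivity), one_mul] at this
    calc _ ≤ (2 * π) ^ 2 * 1 := by gcongr
      _ ≤ 324 := by nlinarith [Real.pi_lt_four]

end Crest.Agent.R40.Bessel
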