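import Mathlib

set_option autoImplicit false

open MeasureTheory Set Filter Topology Metric

namespace Crest.Agent.R40

/-- `A ⊆ ℝ` has density zero at `u`. -/
def TD1 (A : Set ℝ) (u : ℝ) : Prop :=
  ∀ ε : ℝ, 0 < ε → ∀ᶠ r in 𝓝[>] (0 : ℝ), volume (A ∩ closedBall u r) ≤ ENNReal.ofReal (ε * r)

/-- `A ⊆ ℂ` has density zero at `p`. -/
def TD2 (A : Set ℂ) (p : ℂ) : Prop :=
  ∀ ε : ℝ, 0 < ε → ∀ᶠ r in 𝓝[>] (0 : ℝ), volume (A ∩ closedBall p r) ≤ ENNReal.ofReal (ε * r ^ 2)

theorem ae_D1 {A : Set ℝ} (hA : MeasurableSet A) : ∀ᵐ u, u ∉ A → TD1 A u := by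
  filter_upwards [Besicovitch.ae_tendsto_measure_inter_div_of_measurableSet volume hA]
    with u hu hnot ε hε
  rw [indicator_of_notMem hnot] at hu
  have h1 := (ENNReal.tendsto_nhds_zero.1 hu) (ENNReal.ofReal (ε / 2))
    (ENNReal.ofReal_pos.2 (by positivity))
  filter_upwards [h1, self_mem_nhdsWithin] with r hr hr0
  have hr0' : 0 < r := hr0
  rw [Real.volume_closedBall] at hr
  have hne : ENNReal.ofReal (2 * r) ≠ 0 := by
    simp only [ne_eq, ENNReal.ofReal_eq_zero, not_le]; positivity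
  rw [ENNReal.div_le_iff hne ENNReal.ofReal_ne_top, ← ENNReal.ofReal_mul (by positivity)] at hr
  convert hr using 2
  ring

theorem ae_shift {P : ℝ → Prop} (h : ∀ᵐ u, P u) (t : ℝ) : ∀ᵐ u, P (u + t) :=
  (measurePreserving_add_right volume t).quasiMeasurePreserving.ae h

theorem ae_shiftC {P : ℂ → Prop} (h : ∀ᵐ u, P u) (t : ℂ) : ∀ᵐ u, P (t + u) :=
  (measurePreserving_add_left volume t).quasiMeasurePreserving.ae h

/-- A measurable set with a dense set of almost-periods is null or conull. -/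
theorem null_or_conull_of_dense {E : Set ℝ} (hE : MeasurableSet E)
    (hd : Dense {t : ℝ | ∀ᵐ u, u ∈ E ↔ u + t ∈ E}) : (∀ᵐ u, u ∈ E) ∨ (∀ᵐ u, u ∉ E) := by
  by_contra hcon
  push Not at hcon
  obtain ⟨h1, h2⟩ := hcon
  obtain ⟨b, hb⟩ : ∃ b, TD1 E b := by
    by_contra hno
    push Not at hno
    apply h1
    filter_upwards [ae_D1 hE] with u hu
    by_contra hn
    exact hno u (hu hn)
  obtain ⟨a, ha⟩ : ∃ a, TD1 Eᶜ a := by
    by_contra hno
    push Not at hno
    apply h2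
    filter_upwards [ae_D1 hE.compl] with u hu
    intro hn
    exact hno u (hu (by simpa using hn))
  have hb' : ∀ᶠ r in 𝓝[>] (0 : ℝ),
      volume (E ∩ closedBall b (2 * r)) ≤ ENNReal.ofReal (1 / 4 * (2 * r)) := by
    have ht : Tendsto (fun r : ℝ => 2 * r) (𝓝[>] 0) (𝓝[>] 0) := by
      refine tendsto_nhdsWithin_iff.2 ⟨?_, ?_⟩
      · have : Tendsto (fun r : ℝ => 2 * r) (𝓝 0) (𝓝 (2 * 0)) :=
          (continuous_const.mul continuous_id).tendsto 0
        rw [mul_zero] at this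
        exact this.mono_left nhdsWithin_le_nhds
      · filter_upwards [self_mem_nhdsWithin] with r hr
        have : 0 < r := hr
        show 0 < 2 * r
        positivity
    exact ht.eventually (hb (1 / 4) (by norm_num))
  obtain ⟨r, ⟨hr1, hr2⟩, hr0⟩ :=
    (((ha (1 / 2) (by norm_num)).and hb').and self_mem_nhdsWithin).exists
  have hr0' : 0 < r := hr0
  obtain ⟨t, ht, htd⟩ := hd.exists_dist_lt (b - a) hr0'
  have hsub : (E ∩ closedBall a r : Set ℝ) ≤ᵐ[volume] (fun u => u + t) ⁻¹' (E ∩ closedBall b (2 * r)) := by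
    filter_upwards [ht] with u hu hmem
    refine ⟨hu.1 hmem.1, ?_⟩
    have h3 : |u - a| ≤ r := by simpa [Real.dist_eq] using hmem.2
    have h4 : |b - a - t| < r := by rw [← Real.dist_eq]; exact htd
    simp only [mem_closedBall, Real.dist_eq]
    rw [abs_le] at h3 ⊢
    rw [abs_lt] at h4
    constructor <;> linarith [h3.1, h3.2, h4.1, h4.2]
  have h5 := measure_mono_ae hsub
  rw [measure_preimage_add_right] at h5
  have h6 : volume (closedBall a r) ≤ volume (E ∩ closedBall a r) + volume (Eᶜ ∩ closedBall a r) := by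
    refine le_trans (measure_mono ?_) (measure_union_le _ _)
    intro u hu
    by_cases h : u ∈ E
    · exact Or.inl ⟨h, hu⟩
    · exact Or.inr ⟨h, hu⟩
  rw [Real.volume_closedBall] at h6
  have h7 := h6.trans (add_le_add (h5.trans hr2) hr1)
  rw [← ENNReal.ofReal_add (by positivity) (by positivity),
    ENNReal.ofReal_le_ofReal_iff (by positivity)] at h7
  linarith

/-- The angle of the triangle trick. -/
noncomputable def rho : ℝ := Real.arccos (5 / 6)

theorem cos_rho : Real.cos rho = 5 / 6 := Real.cos_arccos (by norm_num) (by norm_num)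

theorem irrational_rho : Irrational (2 * rho / (2 * Real.pi)) := by
  rintro ⟨q, hq⟩
  have hπ := Real.pi_ne_zero
  have h1 : rho = q * Real.pi := by rw [hq]; field_simp
  have := niven ⟨q, h1⟩ ⟨5 / 6, by rw [cos_rho]; norm_num⟩
  rw [cos_rho] at this
  simp only [mem_insert_iff, mem_singleton_iff] at this
  norm_num at this

/-- (TT0) no measurable periodic set is flipped by the rotation `rho`. -/
theorem not_flip {E : Set ℝ} (hE : MeasurableSet E)
    (hp : ∀ᵐ u, u ∈ E ↔ u + 2 * Real.pi ∈ E) : ¬ ∀ᵐ u, u ∈ E ↔ u + rho ∉ E := by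
  intro h
  let P : AddSubgroup ℝ :=
    { carrier := {t : ℝ | ∀ᵐ u, u ∈ E ↔ u + t ∈ E}
      zero_mem' := by simp
      add_mem' := by
        intro s t hs ht
        filter_upwards [hs, ae_shift ht s] with u h1 h2
        rw [h1, h2, add_assoc]
      neg_mem' := by
        intro t ht
        filter_upwards [ae_shift ht (-t)] with u h1
        rw [h1]; simp }
  have h2 : 2 * rho ∈ P := by
    filter_upwards [h, ae_shift h rho] with u h1 h2
    rw [h1, h2, not_not]
    congr! 1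
    ring
  have hd : Dense (P : Set ℝ) := by
    refine (dense_addSubgroupClosure_pair_iff.2 irrational_rho).mono ?_
    rw [SetLike.coe_subset_coe, AddSubgroup.closure_le, pair_subset_iff]
    exact ⟨h2, hp⟩
  have hne : ¬ ∀ᵐ _u : ℝ, False := by
    intro h0
    exact (h0.exists).elim fun _ h => h
  rcases null_or_conull_of_dense hE hd with h3 | h3
  · apply hne
    filter_upwards [h, h3, ae_shift h3 rho] with u a b c
    exact (a.1 b) c
  · apply hne
    filter_upwards [h, h3, ae_shift h3 rho] with u a b c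
    exact b (a.2 c)


theorem lip_e : LipschitzWith 1 (circleMap 0 1) := by
  simpa using lipschitzWith_circleMap 0 1

/-- Images under `(α, β) ↦ x + e α + e β` have controlled area. -/
theorem exists_vol_image_le : ∃ C : ENNReal, C ≠ ⊤ ∧ ∀ (x : ℂ) (A : Set (ℝ × ℝ)),
    volume ((fun p : ℝ × ℝ => x + circleMap 0 1 p.1 + circleMap 0 1 p.2) '' A) ≤ C * volume A := by
  have hfr : (Module.finrank ℝ ℂ : ℝ) = 2 := by simp
  have : (μH[(2 : ℝ)] : Measure ℂ).IsAddHaarMeasure := by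
    rw [← hfr]; infer_instance
  have hv := Measure.isAddLeftInvariant_eq_smul (volume : Measure ℂ) (μH[(2 : ℝ)] : Measure ℂ)
  set c := Measure.addHaarScalarFactor (volume : Measure ℂ) (μH[(2 : ℝ)] : Measure ℂ)
  refine ⟨c * 2 ^ (2 : ℝ), ENNReal.mul_ne_top ENNReal.coe_ne_top (by simp), fun x A => ?_⟩
  have hl : LipschitzWith 2 (fun p : ℝ × ℝ => x + circleMap 0 1 p.1 + circleMap 0 1 p.2) := by
    have h1 := lip_e.comp (LipschitzWith.prod_fst (α := ℝ) (β := ℝ))
    have h2 := lip_e.comp (LipschitzWith.prod_snd (α := ℝ) (β := ℝ))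
    have h3 := ((LipschitzWith.const (α := ℝ × ℝ) x).add h1).add h2
    exact h3.weaken (by norm_num)
  have h4 := hl.hausdorffMeasure_image_le (d := 2) (by norm_num) A
  rw [hausdorffMeasure_prod_real] at h4
  rw [hv, Measure.smul_apply, mul_assoc]
  simp only [ENNReal.smul_def, smul_eq_mul]
  gcongr
  simpa using h4

theorem exists_local_inv (x : ℂ) {u v : ℝ} (hs : Real.sin (u - v) ≠ 0) :
    ∃ K : ℝ, 0 < K ∧ ∀ᶠ z in 𝓝 (x + circleMap 0 1 u + circleMap 0 1 v), ∃ p : ℝ × ℝ,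
      x + circleMap 0 1 p.1 + circleMap 0 1 p.2 = z ∧
      dist p (u, v) ≤ K * dist z (x + circleMap 0 1 u + circleMap 0 1 v) := by
  let Φ : ℝ × ℝ → ℂ := fun p => x + circleMap 0 1 p.1 + circleMap 0 1 p.2
  let L : (ℝ × ℝ) →L[ℝ] ℂ :=
    (ContinuousLinearMap.toSpanSingleton ℝ (circleMap 0 1 u * Complex.I)).comp
        (ContinuousLinearMap.fst ℝ ℝ ℝ) +
      (ContinuousLinearMap.toSpanSingleton ℝ (circleMap 0 1 v * Complex.I)).comp
        (ContinuousLinearMap.snd ℝ ℝ ℝ)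
  have hd : ∀ t : ℝ, HasStrictDerivAt (circleMap 0 1) (circleMap 0 1 t * Complex.I) t := by
    intro t
    have h := (contDiff_circleMap 0 1 (n := 1)).contDiffAt.hasStrictDerivAt' (x := t)
      (hasDerivAt_circleMap 0 1 t) (by norm_num)
    exact h
  have hΦ : HasStrictFDerivAt Φ L (u, v) := by
    have h1 := (hd u).hasStrictFDerivAt.comp (u, v)
      (hasStrictFDerivAt_fst (𝕜 := ℝ) (p := (u, v)))
    have h2 := (hd v).hasStrictFDerivAt.comp (u, v)
      (hasStrictFDerivAt_snd (𝕜 := ℝ) (p := (u, v)))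
    exact (h1.const_add x).add h2
  have hinj : Function.Injective (L : (ℝ × ℝ) →ₗ[ℝ] ℂ) := by
    rw [injective_iff_map_eq_zero]
    rintro ⟨a, b⟩ hab
    have hre := congrArg Complex.re hab
    have him := congrArg Complex.im hab
    simp [L, circleMap, Complex.exp_ofReal_mul_I_re, Complex.exp_ofReal_mul_I_im] at hre him
    rw [Real.sin_sub] at hs
    have ha : a * (Real.sin u * Real.cos v - Real.cos u * Real.sin v) = 0 := by
      linear_combination (-Real.cos v) * hre - Real.sin v * him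
    have hb : b * (Real.sin u * Real.cos v - Real.cos u * Real.sin v) = 0 := by
      linear_combination (Real.cos u) * hre + Real.sin u * him
    ext
    · simpa [hs] using ha
    · simpa [hs] using hb
  let Le : (ℝ × ℝ) ≃L[ℝ] ℂ :=
    (LinearMap.linearEquivOfInjective (L : (ℝ × ℝ) →ₗ[ℝ] ℂ) hinj (by simp)).toContinuousLinearEquiv
  have hLe : (Le : (ℝ × ℝ) →L[ℝ] ℂ) = L := by ext <;> rfl
  have hΦ' : HasStrictFDerivAt Φ (Le : (ℝ × ℝ) →L[ℝ] ℂ) (u, v) := hLe ▸ hΦ
  obtain ⟨K, s, hs1, hK⟩ := hΦ'.to_localInverse.exists_lipschitzOnWith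
  refine ⟨K + 1, by positivity, ?_⟩
  filter_upwards [hs1, hΦ'.eventually_right_inverse] with z hz1 hz2
  refine ⟨_, hz2, ?_⟩
  have h5 := hK.dist_le_mul z hz1 _ (mem_of_mem_nhds hs1)
  rw [hΦ'.localInverse_apply_image] at h5
  refine h5.trans ?_
  have : 0 ≤ dist z (Φ (u, v)) := dist_nonneg
  show (K : ℝ) * dist z (Φ (u, v)) ≤ (K + 1) * dist z (Φ (u, v))
  nlinarith


/-- Density transfer: if `x + e α + e β ∉ A` for almost all `(α, β) ∈ E × F`, and `u`, `v` are
density points of `E`, `F` (not parallel), then `A` has density zero at `x + e u + e v`. -/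
theorem dens_sum {A : Set ℂ} (hA : MeasurableSet A) {E F : Set ℝ} (hE : MeasurableSet E)
    (hF : MeasurableSet F) (x : ℂ)
    (h : ∀ᵐ α : ℝ, ∀ᵐ β : ℝ, α ∈ E → β ∈ F → x + circleMap 0 1 α + circleMap 0 1 β ∉ A)
    {u v : ℝ} (hu : TD1 Eᶜ u) (hv : TD1 Fᶜ v) (hs : Real.sin (u - v) ≠ 0) :
    TD2 A (x + circleMap 0 1 u + circleMap 0 1 v) := by
  obtain ⟨C, hC, hCv⟩ := exists_vol_image_le
  obtain ⟨K, hK, hinv⟩ := exists_local_inv x hs
  set Φ : ℝ × ℝ → ℂ := fun p => x + circleMap 0 1 p.1 + circleMap 0 1 p.2 with hΦ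
  have hΦm : Measurable Φ :=
    ((continuous_const.add ((continuous_circleMap 0 1).comp continuous_fst)).add
      ((continuous_circleMap 0 1).comp continuous_snd)).measurable
  set N : Set (ℝ × ℝ) := E ×ˢ F ∩ Φ ⁻¹' A with hN
  have hNm : MeasurableSet N := (hE.prod hF).inter (hΦm hA)
  have hN0 : volume N = 0 := by
    rw [Measure.volume_eq_prod, Measure.measure_prod_null hNm]
    filter_upwards [h] with α hα
    show volume (Prod.mk α ⁻¹' N) = 0
    rw [← compl_mem_ae_iff]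
    filter_upwards [hα] with β hβ
    intro hmem
    exact hβ hmem.1.1 hmem.1.2 hmem.2
  intro ε hε
  set c : ℝ := C.toReal + 1 with hc
  have hc0 : 0 < c := by have := ENNReal.toReal_nonneg (a := C); linarith
  have hCc : C ≤ ENNReal.ofReal c := by
    rw [← ENNReal.ofReal_toReal hC]
    exact ENNReal.ofReal_le_ofReal (by linarith)
  set η : ℝ := ε / (4 * c * K ^ 2) with hη
  have hη0 : 0 < η := by positivity
  have ht : Tendsto (fun r : ℝ => K * r) (𝓝[>] 0) (𝓝[>] 0) := by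
    refine tendsto_nhdsWithin_iff.2 ⟨?_, ?_⟩
    · have : Tendsto (fun r : ℝ => K * r) (𝓝 0) (𝓝 (K * 0)) :=
        (continuous_const.mul continuous_id).tendsto 0
      rw [mul_zero] at this
      exact this.mono_left nhdsWithin_le_nhds
    · filter_upwards [self_mem_nhdsWithin] with r hr
      have : 0 < r := hr
      show 0 < K * r
      positivity
  obtain ⟨δ, hδ, hball⟩ := Metric.eventually_nhds_iff.1 hinv
  have hsmall : ∀ᶠ r in 𝓝[>] (0 : ℝ), r < δ :=
    mem_nhdsWithin_of_mem_nhds (Iio_mem_nhds hδ)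
  filter_upwards [ht.eventually (hu η hη0), ht.eventually (hv η hη0), hsmall,
    self_mem_nhdsWithin] with r hr1 hr2 hr3 hr0
  have hr0' : 0 < r := hr0
  have hsub : A ∩ closedBall (Φ (u, v)) r ⊆
      Φ '' (((Eᶜ ∩ closedBall u (K * r)) ×ˢ closedBall v (K * r) ∪
        closedBall u (K * r) ×ˢ (Fᶜ ∩ closedBall v (K * r))) ∪ N) := by
    rintro z ⟨hzA, hz⟩
    obtain ⟨p, hp1, hp2⟩ := hball (lt_of_le_of_lt hz hr3)
    have hp3 : dist p (u, v) ≤ K * r := hp2.trans (by gcongr; exact hz)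
    rw [Prod.dist_eq, max_le_iff] at hp3
    refine ⟨p, ?_, hp1⟩
    by_cases h1 : p.1 ∈ E
    · by_cases h2 : p.2 ∈ F
      · right
        refine ⟨⟨h1, h2⟩, ?_⟩
        show Φ p ∈ A
        rw [show Φ p = z from hp1]; exact hzA
      · exact Or.inl (Or.inr ⟨hp3.1, h2, hp3.2⟩)
    · exact Or.inl (Or.inl ⟨⟨h1, hp3.1⟩, hp3.2⟩)
  refine (measure_mono hsub).trans ((hCv x _).trans ?_)
  have h5 : volume (((Eᶜ ∩ closedBall u (K * r)) ×ˢ closedBall v (K * r) ∪
        closedBall u (K * r) ×ˢ (Fᶜ ∩ closedBall v (K * r))) ∪ N) ≤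
      ENNReal.ofReal (4 * η * K ^ 2 * r ^ 2) := by
    refine (measure_union_le _ _).trans ?_
    rw [hN0, add_zero]
    refine (measure_union_le _ _).trans ?_
    rw [Measure.volume_eq_prod, Measure.prod_prod, Measure.prod_prod, Real.volume_closedBall,
      Real.volume_closedBall]
    calc _ ≤ ENNReal.ofReal (η * (K * r)) * ENNReal.ofReal (2 * (K * r)) +
          ENNReal.ofReal (2 * (K * r)) * ENNReal.ofReal (η * (K * r)) := by gcongr
      _ = _ := by
          rw [← ENNReal.ofReal_mul (by positivity), ← ENNReal.ofReal_mul (by positivity),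
            ← ENNReal.ofReal_add (by positivity) (by positivity)]
          congr 1; ring
  calc C * _ ≤ ENNReal.ofReal c * ENNReal.ofReal (4 * η * K ^ 2 * r ^ 2) := by gcongr
    _ = _ := by
        rw [← ENNReal.ofReal_mul hc0.le]
        congr 1
        rw [hη]; field_simp

/-- List transfer: lists holding with density one at the vertices of a finite unit-distance graph
are realised by a proper list colouring of the graph. -/
theorem list_transfer {n : ℕ} {c : ℂ → Fin n} (hm : Measurable c)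
    (hc : ∀ᵐ z : ℂ, ∀ᵐ θ : ℝ, c (z + circleMap 0 1 θ) ≠ c z)
    {V : Type} [Fintype V] (P : V → ℂ) (S : V → Set (Fin n))
    (hS : ∀ v, TD2 {z | c z ∉ S v} (P v)) :
    ∃ κ : V → Fin n, (∀ v, κ v ∈ S v) ∧ ∀ v w, ‖P v - P w‖ = 1 → κ v ≠ κ w := by
  classical
  have hmeas : MeasurableSet {p : ℂ × ℝ | c (p.1 + circleMap 0 1 p.2) ≠ c p.1} := by
    have h1 : Measurable fun p : ℂ × ℝ => c (p.1 + circleMap 0 1 p.2) :=
      hm.comp (continuous_fst.add ((continuous_circleMap 0 1).comp continuous_snd)).measurable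
    exact (measurableSet_eq_fun h1 (hm.comp measurable_fst)).compl
  have hc' : ∀ᵐ θ : ℝ, ∀ᵐ z : ℂ, c (z + circleMap 0 1 θ) ≠ c z :=
    (Measure.ae_ae_comm (μ := volume) (ν := volume)
      (p := fun z θ => c (z + circleMap 0 1 θ) ≠ c z) hmeas).1 hc
  have hgen : ∀ᵐ ψ : ℝ, ∀ᵐ h : ℂ, ∀ v w, ‖P v - P w‖ = 1 →
      c (circleMap 0 1 ψ * P v + h) ≠ c (circleMap 0 1 ψ * P w + h) := by
    have : ∀ v w, ∀ᵐ ψ : ℝ, ∀ᵐ h : ℂ, ‖P v - P w‖ = 1 →
        c (circleMap 0 1 ψ * P v + h) ≠ c (circleMap 0 1 ψ * P w + h) := by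
      intro v w
      by_cases hvw : ‖P v - P w‖ = 1
      · filter_upwards [ae_shift hc' (Complex.arg (P v - P w))] with ψ hψ
        filter_upwards [ae_shiftC hψ (circleMap 0 1 ψ * P w)] with h hh _
        have he : circleMap 0 1 (ψ + Complex.arg (P v - P w)) = circleMap 0 1 ψ * (P v - P w) := by
          have h2 := Complex.norm_mul_exp_arg_mul_I (P v - P w)
          rw [hvw] at h2
          simp only [circleMap, Complex.ofReal_one, one_mul, zero_add] at h2 ⊢
          rw [Complex.ofReal_add, add_mul, Complex.exp_add, h2]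
        rw [he] at hh
        convert hh using 2
        ring
      · exact Eventually.of_forall fun _ => Eventually.of_forall fun _ h => absurd h hvw
    have h3 := (ae_all_iff.2 fun v => ae_all_iff.2 fun w => this v w)
    filter_upwards [h3] with ψ hψ
    exact ae_all_iff.2 fun v => ae_all_iff.2 fun w => hψ v w
  obtain ⟨R, hR⟩ : ∃ R : ℝ, 0 < R ∧ ∀ v, ‖P v‖ ≤ R := by
    refine ⟨∑ v, ‖P v‖ + 1, by positivity, fun v => ?_⟩
    have := Finset.single_le_sum (f := fun v => ‖P v‖) (fun _ _ => norm_nonneg _)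
      (Finset.mem_univ v)
    linarith
  set m : ℝ := Fintype.card V + 1 with hmdef
  have hm0 : 0 < m := by positivity
  have hall := (eventually_all (ι := V)).2 fun v => hS v (1 / (4 * m)) (by positivity)
  obtain ⟨r, hr1, hr0⟩ := (hall.and self_mem_nhdsWithin).exists
  have hr0' : 0 < r := hr0
  obtain ⟨ψ, hψ1, hψ2⟩ : ∃ ψ : ℝ, ψ ∈ Ioo 0 (r / (2 * R)) ∧ ∀ᵐ h : ℂ, ∀ v w, ‖P v - P w‖ = 1 →
      c (circleMap 0 1 ψ * P v + h) ≠ c (circleMap 0 1 ψ * P w + h) := by
    have hpos : volume (Ioo 0 (r / (2 * R))) ≠ 0 := by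
      rw [Real.volume_Ioo]
      have := hR.1
      simp only [sub_zero, ne_eq, ENNReal.ofReal_eq_zero, not_le]; positivity
    exact Measure.exists_mem_of_measure_ne_zero_of_ae hpos (ae_restrict_of_ae hgen)
  have hclose : ∀ v, ‖circleMap 0 1 ψ * P v - P v‖ ≤ r / 2 := by
    intro v
    have h1 := lip_e.dist_le_mul ψ 0
    have h2 : circleMap 0 1 0 = 1 := by simp [circleMap]
    rw [h2, dist_eq_norm, Real.dist_eq, sub_zero, abs_of_pos hψ1.1] at h1
    have h3 : circleMap 0 1 ψ * P v - P v = (circleMap 0 1 ψ - 1) * P v := by ring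
    rw [h3, norm_mul]
    have h4 : ψ ≤ r / (2 * R) := hψ1.2.le
    have h5 := hR.1
    calc _ ≤ (r / (2 * R)) * R := by
          gcongr
          · simpa using h1.trans (by simpa using h4)
          · exact hR.2 v
      _ = r / 2 := by field_simp
  set B : V → Set ℂ := fun v =>
    (fun h => circleMap 0 1 ψ * P v + h) ⁻¹' ({z | c z ∉ S v} ∩ closedBall (P v) r) with hB
  have hBv : ∀ v, volume (B v) ≤ ENNReal.ofReal (1 / (4 * m) * r ^ 2) := by
    intro v
    rw [hB]; simp only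
    rw [measure_preimage_add]
    exact hr1 v
  have hU : volume (⋃ v, B v) ≤ ENNReal.ofReal (r ^ 2 / 4) := by
    refine (measure_iUnion_fintype_le _ _).trans ?_
    refine (Finset.sum_le_sum fun v _ => hBv v).trans ?_
    rw [Finset.sum_const, Finset.card_univ, nsmul_eq_mul, ← ENNReal.ofReal_natCast,
      ← ENNReal.ofReal_mul (by positivity)]
    refine ENNReal.ofReal_le_ofReal ?_
    have : (Fintype.card V : ℝ) ≤ m := by rw [hmdef]; linarith
    calc (Fintype.card V : ℝ) * (1 / (4 * m) * r ^ 2) ≤ m * (1 / (4 * m) * r ^ 2) := by gcongr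
      _ = r ^ 2 / 4 := by field_simp
  have hne : volume (closedBall (0 : ℂ) (r / 2) \ ⋃ v, B v) ≠ 0 := by
    intro h0
    have h1 : volume (closedBall (0 : ℂ) (r / 2)) ≤ volume (⋃ v, B v) := by
      refine (measure_le_inter_add_sdiff _ _ (⋃ v, B v)).trans ?_
      rw [h0, add_zero]
      exact measure_mono inter_subset_right
    have h2 := h1.trans hU
    rw [Complex.volume_closedBall, ← ENNReal.ofReal_pow (by positivity),
      show ((NNReal.pi : NNReal) : ENNReal) = ENNReal.ofReal Real.pi from by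
        rw [← NNReal.coe_real_pi, ENNReal.ofReal_coe_nnreal],
      ← ENNReal.ofReal_mul (by positivity), ENNReal.ofReal_le_ofReal_iff (by positivity)] at h2
    have := Real.pi_gt_three
    nlinarith [sq_pos_of_pos hr0']
  obtain ⟨h, hh1, hh2⟩ := Measure.exists_mem_of_measure_ne_zero_of_ae hne (ae_restrict_of_ae hψ2)
  refine ⟨fun v => c (circleMap 0 1 ψ * P v + h), fun v => ?_, hh2⟩
  by_contra hn
  apply hh1.2
  refine mem_iUnion.2 ⟨v, hn, ?_⟩
  have h1 : ‖h‖ ≤ r / 2 := by simpa using hh1.1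
  rw [mem_closedBall, dist_eq_norm]
  calc ‖circleMap 0 1 ψ * P v + h - P v‖ = ‖(circleMap 0 1 ψ * P v - P v) + h‖ := by
        congr 1; ring
    _ ≤ r / 2 + r / 2 := (norm_add_le _ _).trans (add_le_add (hclose v) h1)
    _ = r := by ring


theorem e_add_pi (t : ℝ) : circleMap 0 1 (t + Real.pi) = -circleMap 0 1 t := by
  simp [circleMap, add_mul, Complex.exp_add]

theorem e_add (s t : ℝ) : circleMap 0 1 (s + t) = circleMap 0 1 s * circleMap 0 1 t := by
  simp [circleMap, add_mul, Complex.exp_add]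

theorem normSq_e_sub_one (t : ℝ) : ‖circleMap 0 1 t - 1‖ ^ 2 = 2 - 2 * Real.cos t := by
  rw [← Complex.normSq_eq_norm_sq, Complex.normSq_apply]
  simp [circleMap, Complex.exp_ofReal_mul_I_re, Complex.exp_ofReal_mul_I_im]
  nlinarith [Real.sin_sq_add_cos_sq t]

theorem cos_two_pi_div_three : Real.cos (2 * Real.pi / 3) = -1 / 2 := by
  have h : 2 * Real.pi / 3 = Real.pi - Real.pi / 3 := by ring
  rw [h, Real.cos_pi_sub, Real.cos_pi_div_three]; norm_num

theorem tri_dist (u t : ℝ) (ht : Real.cos t = -1 / 2) :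
    ‖(circleMap 0 1 (u + t) - circleMap 0 1 (u + t + rho)) -
      (circleMap 0 1 u - circleMap 0 1 (u + rho))‖ = 1 := by
  have h1 : (circleMap 0 1 (u + t) - circleMap 0 1 (u + t + rho)) -
      (circleMap 0 1 u - circleMap 0 1 (u + rho)) =
      -(circleMap 0 1 u * ((circleMap 0 1 t - 1) * (circleMap 0 1 rho - 1))) := by
    simp only [e_add]; ring
  have h2 : ‖circleMap 0 1 u‖ = 1 := by simp [norm_circleMap_zero]
  have h3 := normSq_e_sub_one t
  have h4 := normSq_e_sub_one rho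
  rw [ht] at h3
  rw [cos_rho] at h4
  rw [h1, norm_neg, norm_mul, h2, one_mul, norm_mul]
  have h5 : (‖circleMap 0 1 t - 1‖ * ‖circleMap 0 1 rho - 1‖) ^ 2 = 1 := by
    rw [mul_pow, h3, h4]; norm_num
  have h6 : 0 ≤ ‖circleMap 0 1 t - 1‖ * ‖circleMap 0 1 rho - 1‖ := by positivity
  nlinarith

theorem sin_rho_ne : Real.sin rho ≠ 0 := by
  intro h
  have := Real.sin_sq_add_cos_sq rho
  rw [h, cos_rho] at this
  norm_num at this

/-- (TT) the triangle trick. -/
theorem tt {n : ℕ} {c : ℂ → Fin n} (hm : Measurable c)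
    (hc : ∀ᵐ z : ℂ, ∀ᵐ θ : ℝ, c (z + circleMap 0 1 θ) ≠ c z) (x : ℂ) {E F : Set ℝ}
    (hE : MeasurableSet E) (hF : MeasurableSet F)
    (hE3 : ∀ᵐ u, u ∈ E → u + 2 * Real.pi / 3 ∈ E) (hF3 : ∀ᵐ u, u ∈ F → u + 2 * Real.pi / 3 ∈ F)
    (S : Finset (Fin n)) (hS : S.card ≤ 2)
    (h : ∀ᵐ α : ℝ, ∀ᵐ β : ℝ, α ∈ E → β ∈ F → c (x + circleMap 0 1 α - circleMap 0 1 β) ∈ S) :
    ∀ᵐ u, ¬ (u ∈ E ∧ u + rho ∈ F) := by
  classical
  set t : ℝ := 2 * Real.pi / 3 with ht
  set F' : Set ℝ := (fun β => β + Real.pi) ⁻¹' F with hF'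
  have hF'm : MeasurableSet F' := measurable_add_const _ hF
  have hA : MeasurableSet {z | c z ∉ (S : Set (Fin n))} := 
    hm (MeasurableSet.of_discrete (s := (S : Set (Fin n))ᶜ))
  have h' : ∀ᵐ α : ℝ, ∀ᵐ β : ℝ, α ∈ E → β ∈ F' →
      x + circleMap 0 1 α + circleMap 0 1 β ∉ {z | c z ∉ (S : Set (Fin n))} := by
    filter_upwards [h] with α hα
    filter_upwards [ae_shift hα Real.pi] with β hβ h1 h2
    have := hβ h1 h2
    rw [e_add_pi, sub_neg_eq_add] at this
    simpa using this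
  have key : ∀ᵐ u, u ∈ E → u + rho ∈ F →
      TD2 {z | c z ∉ (S : Set (Fin n))} (x + (circleMap 0 1 u - circleMap 0 1 (u + rho))) := by
    filter_upwards [ae_D1 hE.compl, ae_shift (ae_D1 hF'm.compl) (rho - Real.pi)] with u h1 h2 h3 h4
    have h5 := dens_sum hA hE hF'm x h' (h1 (by simpa using h3))
      (h2 (by simpa [hF', add_assoc] using h4)) (by
        have : u - (u + (rho - Real.pi)) = Real.pi - rho := by ring
        rw [this, Real.sin_pi_sub]; exact sin_rho_ne)
    have h6 : circleMap 0 1 (u + (rho - Real.pi)) = -circleMap 0 1 (u + rho) := by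
      have := e_add_pi (u + (rho - Real.pi))
      rw [show u + (rho - Real.pi) + Real.pi = u + rho by ring] at this
      rw [this, neg_neg]
    rw [h6] at h5
    convert h5 using 1
    ring
  filter_upwards [key, ae_shift key t, ae_shift (ae_shift key t) t, hE3, ae_shift hE3 t,
    ae_shift hF3 rho, ae_shift (ae_shift hF3 rho) t] with u k0 k1 k2 e0 e1 f0 f1
  rintro ⟨hu, hv⟩
  have hu1 := e0 hu
  have hu2 := e1 hu1
  have hv1 : u + t + rho ∈ F := by have := f0 hv; rwa [add_right_comm] at this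
  have hv2 : u + t + t + rho ∈ F := by have := f1 hv1; rwa [add_right_comm] at this
  let q : ℝ → ℂ := fun u => x + (circleMap 0 1 u - circleMap 0 1 (u + rho))
  obtain ⟨κ, hκ1, hκ2⟩ := list_transfer hm hc (V := Fin 3) ![q u, q (u + t), q (u + t + t)]
    (fun _ => (S : Set (Fin n))) (by
      intro v
      fin_cases v
      · exact k0 hu hv
      · exact k1 hu1 hv1
      · exact k2 hu2 hv2)
  have hct : Real.cos t = -1 / 2 := cos_two_pi_div_three
  have hct2 : Real.cos (t + t) = -1 / 2 := by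
    rw [← two_mul, Real.cos_two_mul, hct]; norm_num
  have d10 : κ 1 ≠ κ 0 := hκ2 1 0 (by
    have := tri_dist u t hct
    simpa [q] using this)
  have d21 : κ 2 ≠ κ 1 := hκ2 2 1 (by
    have := tri_dist (u + t) t hct
    simpa [q] using this)
  have d20 : κ 2 ≠ κ 0 := hκ2 2 0 (by
    have := tri_dist u (t + t) hct2
    rw [← add_assoc] at this
    simpa [q] using this)
  have hsub : ({κ 2, κ 1, κ 0} : Finset (Fin n)) ⊆ S := by
    intro i hi
    simp only [Finset.mem_insert, Finset.mem_singleton] at hi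
    rcases hi with rfl | rfl | rfl <;> exact hκ1 _
  have := Finset.card_le_card hsub
  rw [Finset.card_eq_three.2 ⟨_, _, _, d21, d20, d10, rfl⟩] at this
  omega

/-- (TT2) `E` invariant under `2π/3`; `x + (E - E)` and `x + (Eᶜ - Eᶜ)` are not both
2-list-coloured. -/
theorem tt2 {n : ℕ} {c : ℂ → Fin n} (hm : Measurable c)
    (hc : ∀ᵐ z : ℂ, ∀ᵐ θ : ℝ, c (z + circleMap 0 1 θ) ≠ c z) (x : ℂ) {E : Set ℝ}
    (hE : MeasurableSet E) (hE3 : ∀ᵐ u, u ∈ E ↔ u + 2 * Real.pi / 3 ∈ E)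
    (S₁ S₂ : Finset (Fin n)) (hS₁ : S₁.card ≤ 2) (hS₂ : S₂.card ≤ 2)
    (h₁ : ∀ᵐ α : ℝ, ∀ᵐ β : ℝ, α ∈ E → β ∈ E → c (x + circleMap 0 1 α - circleMap 0 1 β) ∈ S₁)
    (h₂ : ∀ᵐ α : ℝ, ∀ᵐ β : ℝ, α ∉ E → β ∉ E → c (x + circleMap 0 1 α - circleMap 0 1 β) ∈ S₂) :
    False := by
  have a1 := tt hm hc x hE hE (hE3.mono fun _ h => h.1) (hE3.mono fun _ h => h.1) S₁ hS₁ h₁
  have a2 := tt hm hc x hE.compl hE.compl (hE3.mono fun _ h hn hh => hn (h.2 hh))
    (hE3.mono fun _ h hn hh => hn (h.2 hh)) S₂ hS₂ h₂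
  refine not_flip hE ?_ ?_
  · filter_upwards [hE3, ae_shift hE3 (2 * Real.pi / 3),
      ae_shift (ae_shift hE3 (2 * Real.pi / 3)) (2 * Real.pi / 3)] with u b1 b2 b3
    rw [b1, b2, b3]
    congr! 1
    ring
  · filter_upwards [a1, a2] with u b1 b2
    simp only [mem_compl_iff] at b2
    tauto

/-- (TT3) `E` invariant under `2π/3` with `-E = Eᶜ`: `x + (E - E)` is not 2-list-coloured. -/
theorem tt3 {n : ℕ} {c : ℂ → Fin n} (hm : Measurable c)
    (hc : ∀ᵐ z : ℂ, ∀ᵐ θ : ℝ, c (z + circleMap 0 1 θ) ≠ c z) (x : ℂ) {E : Set ℝ}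
    (hE : MeasurableSet E) (hE3 : ∀ᵐ u, u ∈ E ↔ u + 2 * Real.pi / 3 ∈ E)
    (hEπ : ∀ᵐ u, u ∈ E ↔ u + Real.pi ∉ E) (S : Finset (Fin n)) (hS : S.card ≤ 2)
    (h : ∀ᵐ α : ℝ, ∀ᵐ β : ℝ, α ∈ E → β ∈ E → c (x + circleMap 0 1 α - circleMap 0 1 β) ∈ S) :
    False := by
  refine tt2 hm hc x hE hE3 S S hS hS h ?_
  have hmeas : MeasurableSet {p : ℝ × ℝ | p.1 ∈ E → p.2 ∈ E →
      c (x + circleMap 0 1 p.1 - circleMap 0 1 p.2) ∈ S} := by
    have h1 : Measurable fun p : ℝ × ℝ => c (x + circleMap 0 1 p.1 - circleMap 0 1 p.2) :=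
      hm.comp ((continuous_const.add ((continuous_circleMap 0 1).comp continuous_fst)).sub
        ((continuous_circleMap 0 1).comp continuous_snd)).measurable
    exact (measurable_fst hE).imp ((measurable_snd hE).imp
      (h1 (MeasurableSet.of_discrete (s := (S : Set (Fin n))))))
  have h' := (Measure.ae_ae_comm (μ := volume) (ν := volume)
    (p := fun α β => α ∈ E → β ∈ E → c (x + circleMap 0 1 α - circleMap 0 1 β) ∈ S) hmeas).1 h
  filter_upwards [ae_shift h' Real.pi, hEπ] with α hα a1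
  filter_upwards [ae_shift hα Real.pi, hEπ] with β hβ b1 a2 b2
  have := hβ (by tauto) (by tauto)
  rw [e_add_pi, e_add_pi] at this
  convert this using 2
  ring

end Crest.Agent.R40
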