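import Crest.Agent.R40.MBasic
import Crest.Agent.R40.TT
import Crest.Agent.R40.Conv

/-! Row 40: the end of the 4-cycle case (parity-change point gives a triangle). -/

set_option autoImplicit false

namespace Crest.Agent.R40.C4E
open MeasureTheory Set Filter Topology

theorem ev_shift {P : ℝ → Prop} {t : ℝ} (s : ℝ) (h : ∀ᶠ θ in nae t, P (θ + s)) :
    ∀ᶠ θ in nae (t + s), P θ := by
  rw [eventually_nae] at h ⊢
  obtain ⟨δ, hδ, h⟩ := h
  refine ⟨δ, hδ, ?_⟩
  filter_upwards [ae_shift h (-s)] with θ hθ hd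
  have h1 : dist (θ + -s) t < δ := by
    rw [Real.dist_eq] at hd ⊢
    have : θ + -s - t = θ - (t + s) := by ring
    rwa [this]
  simpa using hθ h1

theorem fr_shift {P : ℝ → Prop} {t : ℝ} (s : ℝ) (h : ∃ᶠ θ in nae t, P (θ + s)) :
    ∃ᶠ θ in nae (t + s), P θ := by
  intro hn
  apply h
  have h2 : ∀ᶠ θ in nae (t + s), ¬ P (θ + -s + s) := by simpa using hn
  have h3 := ev_shift (P := fun θ => ¬ P (θ + s)) (-s) h2
  simpa using h3

theorem loc_ae {A : Set ℂ} (hA : MeasurableSet A) (x : ℂ) {u v η : ℝ} (hη : 0 < η)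
    (hs : Real.sin (u - v) ≠ 0)
    (h : ∀ᵐ α : ℝ, ∀ᵐ β : ℝ, |α - u| < η → |β - v| < η → x + e α + e β ∉ A) :
    ∀ᶠ w in nae (x + e u + e v), w ∉ A := by
  obtain ⟨C, hC, hCv⟩ := exists_vol_image_le
  obtain ⟨K, hK, hinv⟩ := exists_local_inv x hs
  set Φ : ℝ × ℝ → ℂ := fun p => x + circleMap 0 1 p.1 + circleMap 0 1 p.2 with hΦ
  have hΦm : Measurable Φ :=
    ((continuous_const.add ((continuous_circleMap 0 1).comp continuous_fst)).add
      ((continuous_circleMap 0 1).comp continuous_snd)).measurable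
  set Z : Set (ℝ × ℝ) := {p | |p.1 - u| < η ∧ |p.2 - v| < η ∧ Φ p ∈ A} with hZ
  have hZm : MeasurableSet Z := by
    have m1 : MeasurableSet {p : ℝ × ℝ | |p.1 - u| < η} :=
      (isOpen_lt (by fun_prop) continuous_const).measurableSet
    have m2 : MeasurableSet {p : ℝ × ℝ | |p.2 - v| < η} :=
      (isOpen_lt (by fun_prop) continuous_const).measurableSet
    exact m1.inter (m2.inter (hΦm hA))
  have hZ0 : volume Z = 0 := by
    have : ∀ᵐ p : ℝ × ℝ, p ∉ Z := by
      rw [Measure.volume_eq_prod]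
      refine (Measure.ae_prod_iff_ae_ae hZm.compl).2 ?_
      filter_upwards [h] with α hα
      filter_upwards [hα] with β hβ hz
      exact hβ hz.1 hz.2.1 hz.2.2
    simpa [ae_iff] using this
  have hI : volume (Φ '' Z) = 0 := by
    have := hCv x Z
    rw [hZ0, mul_zero] at this
    exact le_antisymm this zero_le
  have hI' : ∀ᵐ w : ℂ, w ∉ Φ '' Z := measure_eq_zero_iff_ae_notMem.1 hI
  have hnear : ∀ᶠ z in 𝓝 (x + e u + e v), dist z (x + e u + e v) < η / K :=
    Metric.ball_mem_nhds _ (div_pos hη hK)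
  filter_upwards [eventually_nae_of_nhds hinv, eventually_nae_of_nhds hnear,
    eventually_nae_of_ae hI'] with w h1 h2 h3 hw
  obtain ⟨p, hp, hd⟩ := h1
  have hlt : dist p (u, v) < η := by
    refine lt_of_le_of_lt hd ?_
    rw [lt_div_iff₀ hK] at h2
    linarith
  rw [Prod.dist_eq, max_lt_iff, Real.dist_eq, Real.dist_eq] at hlt
  exact h3 ⟨p, ⟨hlt.1, hlt.2, by rw [show Φ p = w from hp]; exact hw⟩, hp⟩

theorem dist_e (a b : ℝ) : dist (e a) (e b) ≤ |a - b| := by
  simpa [Real.dist_eq] using lip_e.dist_le_mul a b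

/-- an absent colour is avoided -/
theorem avoid_of_absent {c : ℂ → Fin 5} {x : ℂ} {t : ℝ} {f : Fin 5}
    (h : ∀ᶠ w in nae (x + e t), c w ≠ f) :
    ∃ δ : ℝ, 0 < δ ∧ Avoid c x f (Ioo (t - δ) (t + δ)) := by
  rw [eventually_nae] at h
  obtain ⟨δ, hδ, h⟩ := h
  refine ⟨δ / 2, by positivity, fun R => ?_⟩
  refine tendsto_const_nhds.congr' ?_
  have hnear : ∀ᶠ y in 𝓝 x, dist y x < δ / 2 := Metric.ball_mem_nhds _ (by positivity)
  filter_upwards [eventually_nae_of_nhds hnear, eventually_nae_of_ae (ae_circle_of_ae h)]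
    with y h1 h2
  symm
  refine measure_mono_null (fun θ hθ => ?_) (ae_iff.1 h2)
  intro hh
  refine hh ?_ hθ.2.2
  have h3 : |θ - t| < δ / 2 := abs_lt.2 ⟨by linarith [hθ.1.1], by linarith [hθ.1.2]⟩
  have h4 := dist_add_add_le y (e θ) x (e t)
  have h5 := dist_e θ t
  linarith

/-- the fifth colour is present near `x + e t` -/
theorem pres5 (hK : KEY) (h1 : AV1) {c : ℂ → Fin 5} (hc : Good c) {x : ℂ} {t : ℝ} {f : Fin 5}
    {S : Finset (Fin 5)} (hS : NS c x S)
    (H2 : ∃ᶠ θ in nae t, ∀ i, Free c i (x + e θ) → i = f) :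
    ¬ ∀ᶠ w in nae (x + e t), c w ≠ f := by
  classical
  intro h
  obtain ⟨δ, hδ, hav⟩ := avoid_of_absent h
  have hk := hK c hc x S (fun i => if i = f then Ioo (t - δ) (t + δ)
      else {θ | ¬ Free c i (x + e θ)}) hS (fun i => ?_) (fun i _ => ?_)
  · apply H2
    have hn : ∀ᶠ θ in 𝓝 t, θ ∈ Ioo (t - δ) (t + δ) :=
      Ioo_mem_nhds (by linarith) (by linarith)
    filter_upwards [eventually_nae_of_nhds hn, eventually_nae_of_ae hk] with θ h2 h3 h4
    obtain ⟨i, -, hi⟩ := h3
    by_cases hif : i = f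
    · simp only [hif, if_true] at hi
      exact hi h2
    · simp only [hif, if_false, mem_setOf_eq, not_not] at hi
      exact hif (h4 i hi)
  · by_cases hif : i = f
    · simp only [hif, if_true]; exact measurableSet_Ioo
    · simp only [hif, if_false]
      exact ((continuous_const.add continuous_e).measurable (measurableSet_free hc.1 i)).compl
  · by_cases hif : i = f
    · simp only [hif, if_true]; exact hav
    · simp only [hif, if_false]; exact h1 c hc x i

theorem e_split (t : ℝ) : e (t + Real.pi / 3) + e (t - Real.pi / 3) = e t := by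
  have h1 : e (t - Real.pi / 3) = e t * e (-(Real.pi / 3)) := by
    rw [sub_eq_add_neg]; exact e_add _ _
  have h2 : e (t + Real.pi / 3) = e t * e (Real.pi / 3) := e_add _ _
  have h3 : e (Real.pi / 3) + e (-(Real.pi / 3)) = 1 := by
    apply Complex.ext
    · simp only [circleMap, Complex.ofReal_one, one_mul, zero_add, Complex.add_re,
        Complex.exp_ofReal_mul_I_re, Real.cos_neg, Real.cos_pi_div_three, Complex.one_re]
      norm_num
    · simp only [circleMap, Complex.ofReal_one, one_mul, zero_add, Complex.add_im,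
        Complex.exp_ofReal_mul_I_im, Real.sin_neg, Complex.one_im]
      ring
  rw [h1, h2, ← mul_add, h3, mul_one]

/-- an edge between the fifth colour and the pair `a, a'` at `x + e t` -/
theorem edge_y (hK : KEY) (h1 : AV1) (hSl : SLICE) {c : ℂ → Fin 5} (hc : Good c) {x : ℂ} {t : ℝ}
    {a a' b b' f : Fin 5} (hall : ∀ i, i = a ∨ i = a' ∨ i = b ∨ i = b' ∨ i = f)
    (hfa : f ≠ a) (hfa' : f ≠ a') {S : Finset (Fin 5)} (hS : NS c x S)
    (H2 : ∃ᶠ θ in nae t, ∀ i, Free c i (x + e θ) → i = f)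
    (H3 : ∀ᶠ α in nae (t + Real.pi / 3),
      Free c f (x + e α) ∨ (Free c b (x + e α) ∧ Free c b' (x + e α)))
    (H4 : ∃ᶠ β in nae (t - Real.pi / 3), Free c f (x + e β)) :
    NS c (x + e t) {f, a} ∨ NS c (x + e t) {f, a'} := by
  classical
  by_contra hcon
  push Not at hcon
  apply pres5 hK h1 hc hS H2
  have hne : x + e t ≠ x := by
    intro h
    have : e t = 0 := by simpa using h
    have h2 : ‖e t‖ = 1 := by simp
    rw [this] at h2; simp at h2
  have hlt : ‖x + e t - x‖ < 2 := by simp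
  obtain ⟨δ, hδ, hsl⟩ := hSl c hc x (x + e t) {f} {a, a'} hne hlt
    (by simp [hfa, hfa']) (by
      intro i hi j hj
      simp only [Finset.mem_singleton, Finset.mem_insert] at hi hj
      rcases hj with rfl | rfl
      · rw [hi]; exact hcon.1
      · rw [hi]; exact hcon.2)
  rw [eventually_nae] at H3
  obtain ⟨δ₃, hδ₃, H3⟩ := H3
  set η : ℝ := min (δ / 2) δ₃ with hη
  have hη0 : 0 < η := lt_min (by positivity) hδ₃
  have hη1 : η ≤ δ / 2 := min_le_left _ _
  have hη2 : η ≤ δ₃ := min_le_right _ _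
  -- sweeping by the circles centred at `x + e β`
  have hsw : ∀ᵐ α : ℝ, ∀ᵐ β : ℝ, Free c f (x + e β) → c (x + e α + e β) ≠ f := by
    have hm : MeasurableSet {p : ℝ × ℝ | Free c f (x + e p.2) → c (x + e p.1 + e p.2) ≠ f} := by
      have m1 : MeasurableSet {p : ℝ × ℝ | Free c f (x + e p.2)} :=
        ((continuous_const.add (continuous_e.comp continuous_snd)).measurable
          (measurableSet_free hc.1 f))
      have m2 : MeasurableSet {p : ℝ × ℝ | c (x + e p.1 + e p.2) = f} :=
        (hc.1.comp ((continuous_const.add (continuous_e.comp continuous_fst)).add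
          (continuous_e.comp continuous_snd)).measurable) (measurableSet_singleton f)
      have : {p : ℝ × ℝ | Free c f (x + e p.2) → c (x + e p.1 + e p.2) ≠ f} =
          {p : ℝ × ℝ | Free c f (x + e p.2)}ᶜ ∪ {p : ℝ × ℝ | c (x + e p.1 + e p.2) = f}ᶜ := by
        ext p; simp only [mem_setOf_eq, mem_union, mem_compl_iff]; tauto
      rw [this]; exact m1.compl.union m2.compl
    refine (Measure.ae_ae_comm hm).2 (Eventually.of_forall fun β => ?_)
    by_cases hb : Free c f (x + e β)
    · filter_upwards [hb] with α hα _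
      rwa [add_right_comm]
    · exact Eventually.of_forall fun α h => absurd h hb
  have hsin : Real.sin ((t + Real.pi / 3) - (t - Real.pi / 3)) ≠ 0 := by
    have : (t + Real.pi / 3) - (t - Real.pi / 3) = 2 * Real.pi / 3 := by ring
    rw [this]
    exact (Real.sin_pos_of_pos_of_lt_pi (by positivity) (by linarith [Real.pi_pos])).ne'
  have key := loc_ae (A := {z | c z = f}) (hc.1 (measurableSet_singleton f)) x hη0 hsin ?_
  · rw [add_assoc, e_split] at key
    exact key
  filter_upwards [hsl, H3, hsw] with α hα h3 h4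
  by_cases hαn : |α - (t + Real.pi / 3)| < η
  swap
  · exact Eventually.of_forall fun β h => absurd h hαn
  rcases h3 (by rw [Real.dist_eq]; linarith) with h3 | h3
  · filter_upwards [h3] with β hβ _ _
    exact hβ
  · have hball : ∀ β ∈ Ioo (t - Real.pi / 3 - η) (t - Real.pi / 3 + η),
        x + e α + e β ∈ Metric.ball (x + e t) δ := by
      intro β hβ
      have h5 : |β - (t - Real.pi / 3)| < η :=
        abs_lt.2 ⟨by linarith [hβ.1], by linarith [hβ.2]⟩
      rw [Metric.mem_ball, ← e_split t, add_assoc, dist_add_left]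
      have h6 := dist_add_add_le (e α) (e β) (e (t + Real.pi / 3)) (e (t - Real.pi / 3))
      have h7 := dist_e α (t + Real.pi / 3)
      have h8 := dist_e β (t - Real.pi / 3)
      linarith
    have hcol : ∀ᵐ β : ℝ, β ∈ Ioo (t - Real.pi / 3 - η) (t - Real.pi / 3 + η) →
        c (x + e α + e β) ∈ ({f} : Finset (Fin 5)) ∨
          c (x + e α + e β) ∈ ({a, a'} : Finset (Fin 5)) := by
      filter_upwards [h3.1, h3.2] with β hb hb' _
      simp only [Finset.mem_singleton, Finset.mem_insert]
      rcases hall (c (x + e α + e β)) with h | h | h | h | h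
      · exact Or.inr (Or.inl h)
      · exact Or.inr (Or.inr h)
      · exact absurd h hb
      · exact absurd h hb'
      · exact Or.inl h
    rcases hα _ _ hball hcol with h5 | h5
    · exfalso
      apply H4
      have hn : ∀ᶠ β in 𝓝 (t - Real.pi / 3),
          β ∈ Ioo (t - Real.pi / 3 - η) (t - Real.pi / 3 + η) :=
        Ioo_mem_nhds (by linarith) (by linarith)
      filter_upwards [eventually_nae_of_nhds hn, eventually_nae_of_ae h5,
        eventually_nae_of_ae h4] with β h6 h7 h8 h9
      exact h8 h9 (by simpa using h7 h6)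
    · filter_upwards [h5] with β hβ _ h6 h7
      have h8 := hβ ⟨by linarith [(abs_lt.1 h6).1], by linarith [(abs_lt.1 h6).2]⟩
      have h9 : c (x + e α + e β) = f := h7
      rw [h9] at h8
      simp only [Finset.mem_insert, Finset.mem_singleton] at h8
      rcases h8 with h | h
      · exact hfa h
      · exact hfa' h

/-- transfer of the edge back to `x` -/
theorem back (hV : VRULE) (hN : NSL) {c : ℂ → Fin 5} (hc : Good c) {x : ℂ} {t : ℝ}
    {a a' b b' f : Fin 5} (hall : ∀ i, i = a ∨ i = a' ∨ i = b ∨ i = b' ∨ i = f)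
    (hA : NS c (x + e t) {a, a'}) (hE : NS c (x + e t) {f, a})
    (H5 : ∃ᶠ θ in nae (t + Real.pi), Free c b (x + e θ) ∧ Free c b' (x + e θ)) :
    NS c x {f, a'} := by
  classical
  have hT : ∀ x' ∈ ({x} : Finset ℂ), ‖x' - (x + e t)‖ = 1 := by
    intro x' hx'
    rw [Finset.mem_singleton.1 hx']; simp
  have v1 := hV c hc (x + e t) _ {x} hT hA
  have v2 := hV c hc (x + e t) _ {x} hT hE
  have h := hN c hc (x + e t) {f, a'} (t + Real.pi) ?_
  · have he : x + e t + e (t + Real.pi) = x := by
      rw [show e (t + Real.pi) = -e t from e_add_pi t]; ring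
    rwa [he] at h
  refine (H5.and_eventually ((eventually_nae_of_ae v1).and (eventually_nae_of_ae v2))).mono ?_
  rintro θ ⟨⟨hb, hb'⟩, ⟨i, hi, hVi⟩, ⟨j, hj, hVj⟩⟩ k hk
  simp only [Finset.mem_insert, Finset.mem_singleton, not_or] at hi hj hk
  have hi2 := hVi.2.2.2 x (Finset.mem_singleton_self x)
  have hj2 := hVj.2.2.2 x (Finset.mem_singleton_self x)
  rcases hk with rfl | rfl
  · rcases hall i with h | h | h | h | h
    · exact absurd h hi.1
    · exact absurd h hi.2
    · exact absurd (h ▸ hb) hi2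
    · exact absurd (h ▸ hb') hi2
    · exact h ▸ hVi.1
  · rcases hall j with h | h | h | h | h
    · exact absurd h hj.2
    · exact h ▸ hVj.1
    · exact absurd (h ▸ hb) hj2
    · exact absurd (h ▸ hb') hj2
    · exact absurd h hj.1

theorem edge5 (hK : KEY) (h1 : AV1) (hSl : SLICE) (hV : VRULE) (hN : NSL)
    {c : ℂ → Fin 5} (hc : Good c) {x : ℂ} {t : ℝ}
    {a a' b b' f : Fin 5} (hall : ∀ i, i = a ∨ i = a' ∨ i = b ∨ i = b' ∨ i = f)
    (hfa : f ≠ a) (hfa' : f ≠ a') {S : Finset (Fin 5)} (hS : NS c x S)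
    (H1 : ∃ᶠ θ in nae t, Free c a (x + e θ) ∧ Free c a' (x + e θ))
    (H2 : ∃ᶠ θ in nae t, ∀ i, Free c i (x + e θ) → i = f)
    (H3 : ∀ᶠ α in nae (t + Real.pi / 3),
      Free c f (x + e α) ∨ (Free c b (x + e α) ∧ Free c b' (x + e α)))
    (H4 : ∃ᶠ β in nae (t - Real.pi / 3), Free c f (x + e β))
    (H5 : ∃ᶠ θ in nae (t + Real.pi), Free c b (x + e θ) ∧ Free c b' (x + e θ)) :
    NS c x {f, a} ∨ NS c x {f, a'} := by
  classical
  have hA : NS c (x + e t) {a, a'} := hN c hc x _ t (H1.mono fun θ h i hi => by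
    simp only [Finset.mem_insert, Finset.mem_singleton] at hi
    rcases hi with rfl | rfl
    · exact h.1
    · exact h.2)
  rcases edge_y hK h1 hSl hc hall hfa hfa' hS H2 H3 H4 with h | h
  · exact Or.inr (back hV hN hc hall hA h H5)
  · refine Or.inl (back hV hN hc (a := a') (a' := a) (fun i => ?_) ?_ h H5)
    · rcases hall i with h | h | h <;> simp [h]
    · rwa [Finset.pair_comm]

/-- type `A5A5A5` (pair `a, a'` on the even vertices, only `f` on the odd ones) -/
def TP (c : ℂ → Fin 5) (x : ℂ) (a a' f : Fin 5) (θ : ℝ) : Prop := ∀ k : ℤ,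
  (Free c a (x + e (θ + 2 * k * (Real.pi / 3))) ∧ Free c a' (x + e (θ + 2 * k * (Real.pi / 3)))) ∧
    ∀ i, Free c i (x + e (θ + (2 * k + 1) * (Real.pi / 3))) ↔ i = f

theorem tri_any (h3 : TRI0) {c : ℂ → Fin 5} (hc : Good c) {x : ℂ} {i j k : Fin 5}
    (hij : i ≠ j) (hjk : j ≠ k) (hki : k ≠ i)
    (h1 : NS c x {i, j}) (h2 : NS c x {j, k}) (h4 : NS c x {k, i}) : False := by
  have : ∀ i j k : Fin 5, i ≠ j → j ≠ k → k ≠ i →
      ∃ π : Equiv.Perm (Fin 5), π 0 = i ∧ π 1 = j ∧ π 2 = k := by
    intro i j k hij hjk hki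
    obtain ⟨π, hπ⟩ := Equiv.Perm.exists_extending_pair (f := ![0, 1, 2]) (g := ![i, j, k])
      (by decide) (by
        intro p q hpq
        fin_cases p <;> fin_cases q <;> simp_all [eq_comm])
    exact ⟨π, hπ 0, hπ 1, hπ 2⟩
  obtain ⟨π, rfl, rfl, rfl⟩ := this i j k hij hjk hki
  exact h3 _ (hc.perm π.symm) x (NS_perm_pair π h1) (NS_perm_pair π h2) (NS_perm_pair π h4)

/-- The parity-change point of the 4-cycle case is impossible.  Near `t` only the types
`A5A5A5` (`TP 0 2 4 θ`) and `5B5B5B` (`TP 1 3 4 (θ + π/3)`) occur, and both do. -/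
theorem c4end (h3 : TRI0) (hK : KEY) (h1 : AV1) (hSl : SLICE) (hV : VRULE) (hN : NSL)
    {c : ℂ → Fin 5} (hc : Good c) {x : ℂ} (h01 : NS c x {0, 1}) (h12 : NS c x {1, 2})
    (h23 : NS c x {2, 3}) (h30 : NS c x {3, 0}) {t : ℝ}
    (ha : ∃ᶠ θ in nae t, TP c x 0 2 4 θ)
    (hb : ∃ᶠ θ in nae t, TP c x 1 3 4 (θ + Real.pi / 3))
    (hcov : ∀ᶠ θ in nae t, TP c x 0 2 4 θ ∨ TP c x 1 3 4 (θ + Real.pi / 3)) : False := by
  have e1 : NS c x {4, 0} ∨ NS c x {4, 2} := by
    refine edge5 hK h1 hSl hV hN hc (t := t) (b := 1) (b' := 3) (by decide) (by decide)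
      (by decide) h01 (ha.mono fun θ h => ?_) (hb.mono fun θ h i hi => ?_)
      (ev_shift _ (hcov.mono fun θ h => ?_)) ?_ (fr_shift _ (hb.mono fun θ h => ?_))
    · simpa using (h 0).1
    · refine ((h (-1)).2 i).1 ?_
      convert hi using 3
      push_cast; ring
    · rcases h with h | h
      · left
        have := ((h 0).2 4).2 rfl
        simpa using this
      · right
        simpa using (h 0).1
    · rw [sub_eq_add_neg]
      refine fr_shift _ (ha.mono fun θ h => ?_)
      have := ((h (-1)).2 4).2 rfl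
      convert this using 3
      push_cast; ring
    · have := (h 1).1
      convert this using 4 <;> (push_cast; ring)
  have e2 : NS c x {4, 1} ∨ NS c x {4, 3} := by
    refine edge5 hK h1 hSl hV hN hc (t := t + Real.pi / 3) (b := 0) (b' := 2) (by decide)
      (by decide) (by decide) h01 (fr_shift _ (hb.mono fun θ h => ?_))
      (fr_shift _ (ha.mono fun θ h i hi => ?_)) ?_ ?_ ?_
    · simpa using (h 0).1
    · refine ((h 0).2 i).1 ?_
      simpa using hi
    · rw [add_assoc]
      refine ev_shift _ (hcov.mono fun θ h => ?_)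
      rcases h with h | h
      · right
        have := (h 1).1
        convert this using 4 <;> (push_cast; ring)
      · left
        have := ((h 0).2 4).2 rfl
        convert this using 3
        push_cast; ring
    · rw [add_sub_cancel_right]
      refine hb.mono fun θ h => ?_
      have := ((h (-1)).2 4).2 rfl
      convert this using 3
      push_cast; ring
    · rw [add_assoc]
      refine fr_shift _ (ha.mono fun θ h => ?_)
      have := (h 2).1
      convert this using 4 <;> (push_cast; ring)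
  have s : ∀ {i j : Fin 5}, NS c x {i, j} → NS c x {j, i} := fun h => by
    rwa [Finset.pair_comm]
  rcases e1 with e1 | e1 <;> rcases e2 with e2 | e2
  · exact tri_any h3 hc (by decide) (by decide) (by decide) h01 (s e2) e1
  · exact tri_any h3 hc (by decide) (by decide) (by decide) h30 (s e1) e2
  · exact tri_any h3 hc (by decide) (by decide) (by decide) h12 (s e1) e2
  · exact tri_any h3 hc (by decide) (by decide) (by decide) h23 (s e2) e1

end Crest.Agent.R40.C4E
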