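import Crest.Agent.R40.DC4p
import Crest.Agent.R40.C4End

/-! Row 40: the 4-cycle case `CF0`. -/

set_option autoImplicit false

namespace Crest.Agent.R40
open MeasureTheory Set Filter Topology Real

namespace C4q
open C4p

theorem pair_cases2 : ∀ a0 a1 a2 a3 a4 a5 : Fin 3, inP a0 a1 a2 a3 a4 a5 →
    ∀ b0 b1 b2 b3 b4 b5 : Fin 3, inP b0 b1 b2 b3 b4 b5 →
    ((alt 0 a0 a1 a2 a3 a4 a5 ∨ alt 0 b0 b1 b2 b3 b4 b5) ∧
        (alt 1 a0 a1 a2 a3 a4 a5 ∨ alt 1 b0 b1 b2 b3 b4 b5)) →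
    phi a0 a1 a2 a3 a4 a5 = phi b0 b1 b2 b3 b4 b5 ∨
      (((a0, a1, a2, a3, a4, a5) = (0, 2, 0, 2, 0, 2) ∧
          (b0, b1, b2, b3, b4, b5) = (2, 1, 2, 1, 2, 1)) ∨
        ((b0, b1, b2, b3, b4, b5) = (0, 2, 0, 2, 0, 2) ∧
          (a0, a1, a2, a3, a4, a5) = (2, 1, 2, 1, 2, 1))) ∨
      (((a0, a1, a2, a3, a4, a5) = (2, 0, 2, 0, 2, 0) ∧
          (b0, b1, b2, b3, b4, b5) = (1, 2, 1, 2, 1, 2)) ∨
        ((b0, b1, b2, b3, b4, b5) = (2, 0, 2, 0, 2, 0) ∧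
          (a0, a1, a2, a3, a4, a5) = (1, 2, 1, 2, 1, 2))) := by
  intro a0 a1 a2 a3 a4 a5 _ b0 b1 b2 b3 b4 b5 _ h
  unfold alt at h
  rcases h with ⟨(h | h) | (h | h), (h' | h') | (h' | h')⟩ <;>
    obtain ⟨p0, p1, p2, p3, p4, p5⟩ := h <;> obtain ⟨q0, q1, q2, q3, q4, q5⟩ := h' <;>
    first
      | (exfalso; rw [p0] at q0; exact absurd q0 (by decide))
      | (exfalso; rw [p1] at q1; exact absurd q1 (by decide))
      | (subst p0 p1 p2 p3 p4 p5 q0 q1 q2 q3 q4 q5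
         first
          | exact Or.inl (by decide)
          | exact Or.inr (Or.inl (Or.inl ⟨rfl, rfl⟩))
          | exact Or.inr (Or.inl (Or.inr ⟨rfl, rfl⟩))
          | exact Or.inr (Or.inr (Or.inl ⟨rfl, rfl⟩))
          | exact Or.inr (Or.inr (Or.inr ⟨rfl, rfl⟩)))

set_option synthInstance.maxSize 4000 in
set_option synthInstance.maxHeartbeats 400000 in
theorem third : ∀ b0 b1 b2 b3 b4 b5 : Fin 3, inP b0 b1 b2 b3 b4 b5 →
    cmp 0 2 0 2 0 2 b0 b1 b2 b3 b4 b5 → cmp 2 1 2 1 2 1 b0 b1 b2 b3 b4 b5 →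
    (b0, b1, b2, b3, b4, b5) = (0, 2, 0, 2, 0, 2) ∨
      (b0, b1, b2, b3, b4, b5) = (2, 1, 2, 1, 2, 1) := by
  simp only [Prod.mk.injEq]
  decide +kernel

def AltZ (cl : ℝ → Fin 3) (k : Fin 3) (θ : ℝ) : Prop :=
  ∀ j : ℤ, cl (θ + 2 * j * (π / 3)) = k ∧ cl (θ + (2 * j + 1) * (π / 3)) = 2

theorem c4q (hC : CONNL) (cl : ℝ → Fin 3) (hper : ∀ θ, cl (θ + 2 * π) = cl θ)
    (hae : ∀ᵐ θ : ℝ, cl (θ + π / 3) ≠ cl θ ∧ ¬ (cl θ = 0 ∧ cl (θ + π) = 1))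
    (hNP : ∀ (θ₀ : ℝ) (k : Fin 3), k ≠ 2 → (∃ᶠ θ in nae θ₀, cl θ = k) →
      (∃ᶠ θ in nae (θ₀ + π / 3), cl θ = k) → False) :
    ∃ t : ℝ, (∃ᶠ θ in nae t, AltZ cl 0 θ) ∧ (∃ᶠ θ in nae t, AltZ cl 1 (θ + π / 3)) ∧
      ∀ᶠ θ in nae t, AltZ cl 0 θ ∨ AltZ cl 1 (θ + π / 3) := by
  have hP : Function.Periodic cl (2 * π) := hper
  have hpat : ∀ θ, pat cl (θ + π / 3) = (cl (θ + π / 3), cl (θ + 2 * (π / 3)),
      cl (θ + 3 * (π / 3)), cl (θ + 4 * (π / 3)), cl (θ + 5 * (π / 3)), cl θ) := by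
    intro θ
    simp only [pat]
    rw [show θ + π / 3 + π / 3 = θ + 2 * (π / 3) by ring,
      show θ + π / 3 + 2 * (π / 3) = θ + 3 * (π / 3) by ring,
      show θ + π / 3 + 3 * (π / 3) = θ + 4 * (π / 3) by ring,
      show θ + π / 3 + 4 * (π / 3) = θ + 5 * (π / 3) by ring,
      show θ + π / 3 + 5 * (π / 3) = θ + 2 * π by ring, hper]
  have hshift : ∀ θ (a b : Fin 3), pat cl θ = (a, b, a, b, a, b) →
      pat cl (θ + π / 3) = (b, a, b, a, b, a) := by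
    intro θ a b h
    rw [hpat]
    simp only [pat, Prod.mk.injEq] at h ⊢
    tauto
  have hInP : ∀ᵐ θ : ℝ, InP (pat cl θ) := by
    filter_upwards [hae, ae_sh hae (π / 3), ae_sh hae (2 * (π / 3)), ae_sh hae (3 * (π / 3)),
      ae_sh hae (4 * (π / 3)), ae_sh hae (5 * (π / 3))] with θ h0 h1 h2 h3 h4 h5
    rw [show θ + π = θ + 3 * (π / 3) by ring] at h0
    rw [show θ + π / 3 + π / 3 = θ + 2 * (π / 3) by ring,
      show θ + π / 3 + π = θ + 4 * (π / 3) by ring] at h1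
    rw [show θ + 2 * (π / 3) + π / 3 = θ + 3 * (π / 3) by ring,
      show θ + 2 * (π / 3) + π = θ + 5 * (π / 3) by ring] at h2
    rw [show θ + 3 * (π / 3) + π / 3 = θ + 4 * (π / 3) by ring,
      show θ + 3 * (π / 3) + π = θ + 2 * π by ring, hper] at h3
    rw [show θ + 4 * (π / 3) + π / 3 = θ + 5 * (π / 3) by ring,
      show θ + 4 * (π / 3) + π = θ + π / 3 + 2 * π by ring, hper] at h4
    rw [show θ + 5 * (π / 3) + π / 3 = θ + 2 * π by ring,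
      show θ + 5 * (π / 3) + π = θ + 2 * (π / 3) + 2 * π by ring, hper, hper] at h5
    exact ⟨h0.1, h1.1, h2.1, h3.1, h4.1, h5.1, h0.2, h1.2, h2.2, h3.2, h4.2, h5.2⟩
  have heven : ∀ θ (k : Fin 3), pat cl θ = (k, 2, k, 2, k, 2) → AltZ cl k θ := by
    intro θ k h j
    simp only [pat, Prod.mk.injEq] at h
    obtain ⟨a0, a1, a2, a3, a4, a5⟩ := h
    obtain ⟨q, hq⟩ : ∃ q : ℤ, j = 3 * q ∨ j = 3 * q + 1 ∨ j = 3 * q + 2 := ⟨j / 3, by omega⟩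
    rcases hq with rfl | rfl | rfl
    · rw [show θ + 2 * ((3 * q : ℤ) : ℝ) * (π / 3) = θ + q * (2 * π) by push_cast; ring,
        show θ + (2 * ((3 * q : ℤ) : ℝ) + 1) * (π / 3) = θ + π / 3 + q * (2 * π) by
          push_cast; ring, hP.int_mul q, hP.int_mul q]
      exact ⟨a0, a1⟩
    · rw [show θ + 2 * ((3 * q + 1 : ℤ) : ℝ) * (π / 3) = θ + 2 * (π / 3) + q * (2 * π) by
          push_cast; ring,
        show θ + (2 * ((3 * q + 1 : ℤ) : ℝ) + 1) * (π / 3) = θ + 3 * (π / 3) + q * (2 * π) by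
          push_cast; ring, hP.int_mul q, hP.int_mul q]
      exact ⟨a2, a3⟩
    · rw [show θ + 2 * ((3 * q + 2 : ℤ) : ℝ) * (π / 3) = θ + 4 * (π / 3) + q * (2 * π) by
          push_cast; ring,
        show θ + (2 * ((3 * q + 2 : ℤ) : ℝ) + 1) * (π / 3) = θ + 5 * (π / 3) + q * (2 * π) by
          push_cast; ring, hP.int_mul q, hP.int_mul q]
      exact ⟨a4, a5⟩
  have hok : ∀ (θ₀ a b : ℝ) (u v : Fin 3), b = a + π / 3 → (∃ᶠ θ in nae θ₀, cl (θ + a) = u) →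
      (∃ᶠ θ in nae θ₀, cl (θ + b) = v) → ok u v := by
    intro θ₀ a b u v hb h1 h2 huv
    by_contra hu
    subst huv
    refine hNP (θ₀ + a) u hu (freq_sh (p := fun θ => cl θ = u) h1) ?_
    rw [show θ₀ + a + π / 3 = θ₀ + b by rw [hb]; ring]
    exact freq_sh (p := fun θ => cl θ = u) h2
  have hcmp : ∀ (θ₀ : ℝ) (τ τ' : X6), (∃ᶠ θ in nae θ₀, pat cl θ = τ) →
      (∃ᶠ θ in nae θ₀, pat cl θ = τ') →
      cmp τ.1 τ.2.1 τ.2.2.1 τ.2.2.2.1 τ.2.2.2.2.1 τ.2.2.2.2.2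
        τ'.1 τ'.2.1 τ'.2.2.1 τ'.2.2.2.1 τ'.2.2.2.2.1 τ'.2.2.2.2.2 := by
    intro θ₀ τ τ' h h'
    refine ⟨hok θ₀ 0 (π / 3) _ _ (by ring) (h.mono fun θ hθ => by rw [← hθ, add_zero]; rfl)
        (h'.mono fun θ hθ => by rw [← hθ]; rfl),
      hok θ₀ (π / 3) (2 * (π / 3)) _ _ (by ring) (h.mono fun θ hθ => by rw [← hθ]; rfl)
        (h'.mono fun θ hθ => by rw [← hθ]; rfl),
      hok θ₀ (2 * (π / 3)) (3 * (π / 3)) _ _ (by ring) (h.mono fun θ hθ => by rw [← hθ]; rfl)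
        (h'.mono fun θ hθ => by rw [← hθ]; rfl),
      hok θ₀ (3 * (π / 3)) (4 * (π / 3)) _ _ (by ring) (h.mono fun θ hθ => by rw [← hθ]; rfl)
        (h'.mono fun θ hθ => by rw [← hθ]; rfl),
      hok θ₀ (4 * (π / 3)) (5 * (π / 3)) _ _ (by ring) (h.mono fun θ hθ => by rw [← hθ]; rfl)
        (h'.mono fun θ hθ => by rw [← hθ]; rfl),
      hok θ₀ (5 * (π / 3)) (2 * π) _ _ (by ring) (h.mono fun θ hθ => by rw [← hθ]; rfl)
        (h'.mono fun θ hθ => by rw [← hθ, hper]; rfl)⟩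
  have hex : ∃ t : ℝ, (∃ᶠ θ in nae t, pat cl θ = (0, 2, 0, 2, 0, 2)) ∧
      (∃ᶠ θ in nae t, pat cl θ = (2, 1, 2, 1, 2, 1)) := by
    by_contra hno
    have hno' : ∀ t : ℝ, (∃ᶠ θ in nae t, pat cl θ = (0, 2, 0, 2, 0, 2)) →
        (∃ᶠ θ in nae t, pat cl θ = (2, 1, 2, 1, 2, 1)) → False := fun t h1 h2 => hno ⟨t, h1, h2⟩
    have hno2 : ∀ t : ℝ, (∃ᶠ θ in nae t, pat cl θ = (2, 0, 2, 0, 2, 0)) →
        (∃ᶠ θ in nae t, pat cl θ = (1, 2, 1, 2, 1, 2)) → False := fun t h1 h2 =>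
      hno' (t + π / 3)
        (freq_sh (p := fun θ => pat cl θ = (0, 2, 0, 2, 0, 2)) (h1.mono fun θ h => hshift θ _ _ h))
        (freq_sh (p := fun θ => pat cl θ = (2, 1, 2, 1, 2, 1)) (h2.mono fun θ h => hshift θ _ _ h))
    obtain ⟨y, hy⟩ := hC X6 ℕ (pat cl) Phi (by
      intro θ₀ τ τ' h h'
      obtain ⟨θ₁, e1, hp1⟩ := (h.and_eventually (eventually_nae_of_ae hInP)).exists
      obtain ⟨θ₂, e2, hp2⟩ := (h'.and_eventually (eventually_nae_of_ae hInP)).exists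
      rw [e1] at hp1
      rw [e2] at hp2
      obtain ⟨a0, a1, a2, a3, a4, a5⟩ := τ
      obtain ⟨b0, b1, b2, b3, b4, b5⟩ := τ'
      rcases pair_cases _ _ _ _ _ _ hp1 _ _ _ _ _ _ hp2 (hcmp θ₀ _ _ h h') (hcmp θ₀ _ _ h' h) with
        hh | hh
      · exact hh
      rcases pair_cases2 _ _ _ _ _ _ hp1 _ _ _ _ _ _ hp2 hh with
        hh | (⟨p, q⟩ | ⟨p, q⟩) | (⟨p, q⟩ | ⟨p, q⟩)
      · exact hh
      · exact (hno' θ₀ (p ▸ h) (q ▸ h')).elim
      · exact (hno' θ₀ (p ▸ h') (q ▸ h)).elim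
      · exact (hno2 θ₀ (p ▸ h) (q ▸ h')).elim
      · exact (hno2 θ₀ (p ▸ h') (q ▸ h)).elim)
    obtain ⟨θ, h1, h2, h3⟩ := (hy.and ((ae_sh hy (π / 3)).and hInP)).exists
    rw [hpat, ← h1] at h2
    exact shift_ne _ _ _ _ _ _ h3 h2
  obtain ⟨t, h1, h2⟩ := hex
  refine ⟨t, h1.mono fun θ h => heven θ 0 h, h2.mono fun θ h => heven _ 1 (hshift θ _ _ h), ?_⟩
  have hall : ∀ τ : X6, ∀ᶠ θ in nae t, pat cl θ = τ →
      pat cl θ = (0, 2, 0, 2, 0, 2) ∨ pat cl θ = (2, 1, 2, 1, 2, 1) := by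
    intro τ
    by_cases hf : ∃ᶠ θ in nae t, pat cl θ = τ
    · obtain ⟨θ₁, e1, hp1⟩ := (hf.and_eventually (eventually_nae_of_ae hInP)).exists
      rw [e1] at hp1
      obtain ⟨b0, b1, b2, b3, b4, b5⟩ := τ
      have := third _ _ _ _ _ _ hp1 (hcmp t _ _ h1 hf) (hcmp t _ _ h2 hf)
      exact Eventually.of_forall fun θ hθ => by rw [hθ]; exact this
    · rw [Filter.not_frequently] at hf
      exact hf.mono fun θ h1 h2 => absurd h2 h1
  filter_upwards [Filter.eventually_all.2 hall] with θ hθ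
  rcases hθ _ rfl with h | h
  · exact Or.inl (heven θ 0 h)
  · exact Or.inr (heven _ 1 (hshift θ _ _ h))

open Classical in
/-- class of a direction -/
noncomputable def cls (c : ℂ → Fin 5) (x : ℂ) (θ : ℝ) : Fin 3 :=
  if Free c 0 (x + e θ) ∧ Free c 2 (x + e θ) then 0
  else if Free c 1 (x + e θ) ∧ Free c 3 (x + e θ) then 1 else 2

theorem cls_zero {c : ℂ → Fin 5} {x : ℂ} {θ : ℝ} :
    cls c x θ = 0 ↔ Free c 0 (x + e θ) ∧ Free c 2 (x + e θ) := by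
  unfold cls; split_ifs with h1 h2 <;> simp [*]

theorem cls_one {c : ℂ → Fin 5} {x : ℂ} {θ : ℝ} (h : cls c x θ = 1) :
    Free c 1 (x + e θ) ∧ Free c 3 (x + e θ) := by
  unfold cls at h; split_ifs at h with h1 h2 <;> simp_all

theorem cls_two {c : ℂ → Fin 5} {x : ℂ} {θ : ℝ} :
    cls c x θ = 2 ↔ ¬ (Free c 0 (x + e θ) ∧ Free c 2 (x + e θ)) ∧
      ¬ (Free c 1 (x + e θ) ∧ Free c 3 (x + e θ)) := by
  unfold cls; split_ifs with h1 h2 <;> simp [*]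

/-- the pointwise rules -/
def R (c : ℂ → Fin 5) (x : ℂ) (θ : ℝ) : Prop :=
  (∀ i j k : Fin 5, i ≠ j → i ≠ k → j ≠ k →
    ¬ (Free c i (x + e θ) ∧ Free c j (x + e θ) ∧ Free c k (x + e θ))) ∧
  ((V c x ∅ θ 0 ∧ V c x ∅ θ 2) ∨ (V c x ∅ θ 1 ∧ V c x ∅ θ 3) ∨ V c x ∅ θ 4) ∧
  ∀ m : Fin 5, ¬ ∀ i, i ≠ m → Free c i (x + e θ) ∨ Free c i (x + e (θ + π))

theorem R.zero {c : ℂ → Fin 5} {x : ℂ} {θ : ℝ} (h : R c x θ) (h0 : cls c x θ = 0) :
    V c x ∅ θ 0 ∧ V c x ∅ θ 2 := by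
  have h1 := cls_zero.1 h0
  rcases h.2.1 with h2 | h2 | h2
  · exact h2
  · exact absurd ⟨h1.1, h1.2, h2.1.1⟩ (h.1 0 2 1 (by decide) (by decide) (by decide))
  · exact absurd ⟨h1.1, h1.2, h2.1⟩ (h.1 0 2 4 (by decide) (by decide) (by decide))

theorem R.one {c : ℂ → Fin 5} {x : ℂ} {θ : ℝ} (h : R c x θ) (h0 : cls c x θ = 1) :
    V c x ∅ θ 1 ∧ V c x ∅ θ 3 := by
  have h1 := cls_one h0
  rcases h.2.1 with h2 | h2 | h2
  · exact absurd ⟨h1.1, h1.2, h2.1.1⟩ (h.1 1 3 0 (by decide) (by decide) (by decide))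
  · exact h2
  · exact absurd ⟨h1.1, h1.2, h2.1⟩ (h.1 1 3 4 (by decide) (by decide) (by decide))

theorem R.two {c : ℂ → Fin 5} {x : ℂ} {θ : ℝ} (h : R c x θ) (h0 : cls c x θ = 2) :
    V c x ∅ θ 4 := by
  have h1 := cls_two.1 h0
  rcases h.2.1 with h2 | h2 | h2
  · exact absurd ⟨h2.1.1, h2.2.1⟩ h1.1
  · exact absurd ⟨h2.1.1, h2.2.1⟩ h1.2
  · exact h2

theorem four_rule : ∀ v : Fin 5 → Bool, (∃ i, i ≠ 0 ∧ i ≠ 1 ∧ v i = true) →
    (∃ i, i ≠ 1 ∧ i ≠ 2 ∧ v i = true) → (∃ i, i ≠ 2 ∧ i ≠ 3 ∧ v i = true) →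
    (∃ i, i ≠ 3 ∧ i ≠ 0 ∧ v i = true) →
    (v 0 = true ∧ v 2 = true) ∨ (v 1 = true ∧ v 3 = true) ∨ v 4 = true := by
  decide

theorem tp_of {c : ℂ → Fin 5} {x : ℂ} {θ : ℝ} {k : Fin 3} {a a' b b' : Fin 5}
    (hall : ∀ i : Fin 5, i = a ∨ i = a' ∨ i = b ∨ i = b' ∨ i = 4)
    (hk : ∀ φ, R c x φ → cls c x φ = k → V c x ∅ φ a ∧ V c x ∅ φ a')
    (hR : ∀ n : ℤ, R c x (θ + n * (π / 3))) (h : AltZ (cls c x) k θ) :
    C4E.TP c x a a' 4 θ := by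
  intro j
  have r0 : R c x (θ + 2 * j * (π / 3)) := by
    have := hR (2 * j); push_cast at this; exact this
  have r1 : R c x (θ + (2 * j + 1) * (π / 3)) := by
    have := hR (2 * j + 1); push_cast at this; exact this
  have r2 : R c x (θ + 2 * ((j + 2 : ℤ) : ℝ) * (π / 3)) := by
    have := hR (2 * (j + 2)); push_cast at this ⊢; exact this
  have v0 := hk _ r0 (h j).1
  have v1 := r1.two (h j).2
  have v2 := hk _ r2 (h (j + 2)).1
  have e1 : θ + 2 * j * (π / 3) + π / 3 = θ + (2 * j + 1) * (π / 3) := by ring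
  have e2 : θ + 2 * ((j + 2 : ℤ) : ℝ) * (π / 3) = θ + (2 * j + 1) * (π / 3) + π := by
    push_cast; ring
  rw [e2] at v2
  refine ⟨⟨v0.1.1, v0.2.1⟩, fun i => ⟨fun hi => ?_, fun hi => hi ▸ v1.1⟩⟩
  rcases hall i with rfl | rfl | rfl | rfl | rfl
  · exact absurd (e1 ▸ hi) v0.1.2.1
  · exact absurd (e1 ▸ hi) v0.2.2.1
  · refine (r1.2.2 b' fun l hl => ?_).elim
    rcases hall l with rfl | rfl | rfl | rfl | rfl
    exacts [Or.inr v2.1.1, Or.inr v2.2.1, Or.inl hi, absurd rfl hl, Or.inl v1.1]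
  · refine (r1.2.2 b fun l hl => ?_).elim
    rcases hall l with rfl | rfl | rfl | rfl | rfl
    exacts [Or.inr v2.1.1, Or.inr v2.2.1, absurd rfl hl, Or.inl hi, Or.inl v1.1]
  · rfl

end C4q

open C4q C4p in
theorem cf0 (h3 : TRI0) (hT : TRIP) (hL : LTWO) (hC : CONE) (hNP : NP) (hCn : CONNL) (hK : KEY)
    (h1 : AV1) (hA : AVAPI) (hSl : SLICE) (hV : VRULE) (hN : NSL) : CF0 := by
  classical
  intro c hc x h01 h12 h23 h30
  have hins : ∀ (m i j : Fin 5), NS c x {i, j} → ({m, i, j} : Finset (Fin 5)).card = 3 →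
      ¬ NS c x (insert m {i, j}) := fun m i j _ hcard => hT c hc x _ hcard
  have hcone : ∀ᵐ θ : ℝ, ∀ m : Fin 5,
      ¬ ∀ i, i ≠ m → Free c i (x + e θ) ∨ Free c i (x + e (θ + π)) := by
    refine ae_all_iff.2 fun m => ?_
    by_contra hn
    have h := (hC c hc x m hn).2
    by_cases hm : m = 0 ∨ m = 1
    · exact hins m 2 3 h23 (by rcases hm with rfl | rfl <;> decide) (h _ h23)
    · exact hins m 0 1 h01 (by clear h hn; revert m; decide) (h _ h01)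
  have hR : ∀ᵐ θ : ℝ, R c x θ := by
    filter_upwards [hL c hc x, hcone, hV c hc x _ ∅ (by simp) h01, hV c hc x _ ∅ (by simp) h12,
      hV c hc x _ ∅ (by simp) h23, hV c hc x _ ∅ (by simp) h30] with θ a b
      ⟨i1, p1, q1⟩ ⟨i2, p2, q2⟩ ⟨i3, p3, q3⟩ ⟨i4, p4, q4⟩
    refine ⟨a, ?_, b⟩
    simp only [Finset.mem_insert, Finset.mem_singleton, not_or] at p1 p2 p3 p4
    simpa using four_rule (fun i => decide (V c x ∅ θ i)) ⟨i1, p1.1, p1.2, by simpa using q1⟩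
      ⟨i2, p2.1, p2.2, by simpa using q2⟩ ⟨i3, p3.1, p3.2, by simpa using q3⟩
      ⟨i4, p4.1, p4.2, by simpa using q4⟩
  have hRZ : ∀ᵐ θ : ℝ, ∀ n : ℤ, R c x (θ + n * (π / 3)) :=
    ae_all_iff.2 fun n => ae_sh hR _
  have hper : ∀ θ, cls c x (θ + 2 * π) = cls c x θ := fun θ => by
    unfold cls; rw [e_periodic θ]
  have h3c : ∀ k : Fin 3, k = 0 ∨ k = 1 ∨ k = 2 := by decide
  have hadj : ∀ᵐ θ : ℝ, cls c x (θ + π / 3) ≠ cls c x θ := by
    filter_upwards [hR, ae_sh hR (π / 3)] with θ r r' h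
    rcases h3c (cls c x θ) with h0 | h0 | h0
    · exact (r.zero h0).1.2.1 (cls_zero.1 (h.trans h0)).1
    · exact (r.one h0).1.2.1 (cls_one (h.trans h0)).1
    · exact (r.two h0).2.1 (r'.two (h.trans h0)).1
  have hae : ∀ᵐ θ : ℝ, cls c x (θ + π / 3) ≠ cls c x θ ∧
      ¬ (cls c x θ = 0 ∧ cls c x (θ + π) = 1) := by
    filter_upwards [hadj, hR] with θ h r
    refine ⟨h, fun ⟨a, b⟩ => r.2.2 4 fun i hi => ?_⟩
    have a' := cls_zero.1 a
    have b' := cls_one b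
    have : i = 0 ∨ i = 1 ∨ i = 2 ∨ i = 3 := by revert i; decide
    rcases this with rfl | rfl | rfl | rfl
    exacts [Or.inl a'.1, Or.inr b'.1, Or.inl a'.2, Or.inr b'.2]
  -- a colour that is never free joins every edge
  have hdead : ∀ (m i j : Fin 5), NS c x {i, j} → ({m, i, j} : Finset (Fin 5)).card = 3 →
      (∀ᵐ θ : ℝ, ¬ Free c m (x + e θ)) → False := by
    intro m i j hij hcard h
    obtain ⟨a1, -, -, -, a5, a6⟩ := hA c hc x m
    exact hins m i j hij hcard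
      (a6 (a5.1 (a1 _ _ (h1 c hc x m) (h.mono fun θ hθ _ => hθ))) _ hij)
  -- if one class is missing the antipode of a class `2` direction has the other class
  have hanti : ∀ k k' : Fin 3, (∀ l : Fin 3, l ≠ k' → l = k ∨ l = 2) →
      (∀ᵐ θ : ℝ, cls c x θ ≠ k') →
      ∀ᵐ θ : ℝ, cls c x θ = k ∨ (cls c x θ = 2 ∧ cls c x (θ + π) = k) := by
    intro k k' hk h
    filter_upwards [h, ae_sh h (π / 3), ae_sh h (π / 3 + π / 3), ae_sh h π, hadj,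
      ae_sh hadj (π / 3), ae_sh hadj (π / 3 + π / 3)] with θ n0 n1 n2 n3 d0 d1 d2
    rw [show θ + π / 3 + π / 3 = θ + (π / 3 + π / 3) by ring] at d1
    rw [show θ + (π / 3 + π / 3) + π / 3 = θ + π by ring] at d2
    rcases hk _ n0 with a0 | a0
    · exact Or.inl a0
    refine Or.inr ⟨a0, ?_⟩
    rcases hk _ n3 with a3 | a3
    · exact a3
    rcases hk _ n1 with a1 | a1
    · rcases hk _ n2 with a2 | a2
      · exact absurd (a2.trans a1.symm) d1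
      · exact absurd (a3.trans a2.symm) d2
    · exact absurd (a1.trans a0.symm) d0
  have hJB : volume {θ : ℝ | Free c 1 (x + e θ) ∧ Free c 3 (x + e θ)} ≠ 0 := by
    intro h0
    have hn : ∀ᵐ θ : ℝ, cls c x θ ≠ 1 := by
      filter_upwards [measure_eq_zero_iff_ae_notMem.1 h0] with θ h h'
      exact h (cls_one h')
    refine hdead 1 2 3 h23 (by decide) ?_
    filter_upwards [hanti 0 1 (by decide) hn, hR] with θ h r hf
    rcases h with h | ⟨h, h'⟩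
    · have := cls_zero.1 h
      exact r.1 0 2 1 (by decide) (by decide) (by decide) ⟨this.1, this.2, hf⟩
    · have a := cls_zero.1 h'
      refine r.2.2 3 fun i hi => ?_
      have : i = 0 ∨ i = 1 ∨ i = 2 ∨ i = 4 := by revert i; decide
      rcases this with rfl | rfl | rfl | rfl
      exacts [Or.inr a.1, Or.inl hf, Or.inr a.2, Or.inl (r.two h).1]
  have hJA : volume {θ : ℝ | Free c 0 (x + e θ) ∧ Free c 2 (x + e θ)} ≠ 0 := by
    intro h0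
    have hn : ∀ᵐ θ : ℝ, cls c x θ ≠ 0 := by
      filter_upwards [measure_eq_zero_iff_ae_notMem.1 h0] with θ h h'
      exact h (cls_zero.1 h')
    refine hdead 0 1 2 h12 (by decide) ?_
    filter_upwards [hanti 1 0 (by decide) hn, hR] with θ h r hf
    rcases h with h | ⟨h, h'⟩
    · have := cls_one h
      exact r.1 1 3 0 (by decide) (by decide) (by decide) ⟨this.1, this.2, hf⟩
    · have a := cls_one h'
      refine r.2.2 2 fun i hi => ?_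
      have : i = 0 ∨ i = 1 ∨ i = 3 ∨ i = 4 := by revert i; decide
      rcases this with rfl | rfl | rfl | rfl
      exacts [Or.inl hf, Or.inr a.1, Or.inr a.2, Or.inl (r.two h).1]
  obtain ⟨t, ha, hb, hcov⟩ := c4q hCn (cls c x) hper hae (by
    intro θ₀ k hk f1 f2
    rcases h3c k with rfl | rfl | rfl
    · exact hNP c hc x 0 2 1 3 θ₀ (by decide) hJB (f1.mono fun θ h => cls_zero.1 h)
        (f2.mono fun θ h => cls_zero.1 h)
    · exact hNP c hc x 1 3 0 2 θ₀ (by decide) hJA (f1.mono fun θ h => cls_one h)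
        (f2.mono fun θ h => cls_one h)
    · exact hk rfl)
  have tA : ∀ᶠ θ in nae t, AltZ (cls c x) 0 θ → C4E.TP c x 0 2 4 θ :=
    (eventually_nae_of_ae hRZ).mono fun θ r h =>
      tp_of (b := 1) (b' := 3) (by decide) (fun φ r h => r.zero h) r h
  have tB : ∀ᶠ θ in nae t, AltZ (cls c x) 1 (θ + π / 3) → C4E.TP c x 1 3 4 (θ + π / 3) :=
    (eventually_nae_of_ae (ae_sh hRZ (π / 3))).mono fun θ r h =>
      tp_of (b := 0) (b' := 2) (by decide) (fun φ r h => r.one h) r h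
  refine C4E.c4end h3 hK h1 hSl hV hN hc h01 h12 h23 h30 (t := t)
    ((ha.and_eventually tA).mono fun θ h => h.2 h.1)
    ((hb.and_eventually tB).mono fun θ h => h.2 h.1) ?_
  filter_upwards [hcov, tA, tB] with θ h a b
  exact h.imp a b

end Crest.Agent.R40
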