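import Mathlib

/-! Row 40: gluing local `ZMod 2` potentials on the plane. -/

set_option autoImplicit false

open Filter Topology

namespace Crest.Agent.R40

/-- Local potentials `ψ x : ι → ZMod 2` on nonempty sets `K x` of colours, such that near each
`x` the sets `K x'` are contained in `K x` and `ψ x - ψ x'` is constant on `K x'`, can be
normalised by a global `k` so that they agree locally. -/
theorem cocycle_glue {X : Type*} [TopologicalSpace X] [SimplyConnectedSpace X]
    [LocallyPathConnectedSpace X] {ι : Type*} (K : X → Set ι) (hK : ∀ x, (K x).Nonempty)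
    (ψ : X → ι → ZMod 2)
    (h : ∀ x, ∀ᶠ x' in 𝓝 x, K x' ⊆ K x ∧ ∃ d, ∀ i ∈ K x', ψ x i = ψ x' i + d) :
    ∃ k : X → ZMod 2, ∀ x, ∀ᶠ x' in 𝓝 x, ∀ i ∈ K x', ψ x i + k x = ψ x' i + k x' := by
  classical
  choose a ha using hK
  let U : X → Set X := fun x => interior {x' | K x' ⊆ K x ∧ ∃ d, ∀ i ∈ K x', ψ x i = ψ x' i + d}
  have hU : ∀ x, x ∈ U x := fun x => mem_interior_iff_mem_nhds.2 (h x)
  have hd : ∀ x y z, z ∈ U x → z ∈ U y → ∀ i ∈ K z, ψ x i - ψ y i = ψ x (a z) - ψ y (a z) := by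
    intro x y z hx hy i hi
    obtain ⟨-, d, hd⟩ := interior_subset hx
    obtain ⟨-, d', hd'⟩ := interior_subset hy
    rw [hd i hi, hd' i hi, hd _ (ha z), hd' _ (ha z)]
    ring
  let _ : TopologicalSpace (ZMod 2) := ⊥
  have : DiscreteTopology (ZMod 2) := ⟨rfl⟩
  let Z : FiberBundleCore X X (ZMod 2) :=
    { baseSet := U
      isOpen_baseSet := fun _ => isOpen_interior
      indexAt := id
      mem_baseSet_at := hU
      coordChange := fun x y z v => v + (ψ x (a z) - ψ y (a z))
      coordChange_self := fun x z _ v => by simp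
      continuousOn_coordChange := fun x y p hp => by
        have h1 : ∀ᶠ q : X × ZMod 2 in 𝓝 p,
            q.2 + (ψ x (a q.1) - ψ y (a q.1)) = p.2 + (ψ x (a p.1) - ψ y (a p.1)) := by
          have e1 : ∀ᶠ q : X × ZMod 2 in 𝓝 p, q.2 = p.2 :=
            continuous_snd.continuousAt.eventually
              ((isOpen_discrete {p.2}).mem_nhds rfl)
          have e2 : ∀ᶠ q : X × ZMod 2 in 𝓝 p, K q.1 ⊆ K p.1 :=
            continuous_fst.continuousAt.eventually ((h p.1).mono fun _ hz => hz.1)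
          filter_upwards [e1, e2] with q h1 h2
          rw [h1, hd x y p.1 hp.1.1 hp.1.2 _ (h2 (ha _))]
        exact (continuousAt_const.congr (h1.mono fun _ hq => hq.symm)).continuousWithinAt
      coordChange_comp := fun x y z w _ v => by ring }
  have hcov : IsCoveringMap Z.proj :=
    IsFiberBundle.isCoveringMap fun x => ⟨Z.localTriv x, hU x⟩
  obtain ⟨x₀⟩ : Nonempty X := inferInstance
  obtain ⟨F, ⟨-, hF⟩, -⟩ := hcov.existsUnique_continuousMap_lifts (ContinuousMap.id X) x₀
    ⟨x₀, (0 : ZMod 2)⟩ rfl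
  have hF' : ∀ x, (F x).1 = x := fun x => congrFun hF x
  refine ⟨fun x => (F x).2, fun x => ?_⟩
  have h1 : ContinuousAt (fun z => (Z.localTriv x (F z)).2) x := by
    refine continuous_snd.continuousAt.comp ?_
    refine ContinuousAt.comp (g := Z.localTriv x) ?_ F.continuous.continuousAt
    refine (Z.localTriv x).continuousAt ?_
    rw [Z.mem_localTriv_source, hF']
    exact hU x
  have h2 : ∀ z, (Z.localTriv x (F z)).2 = (show ZMod 2 from (F z).2) + (ψ z (a z) - ψ x (a z)) := by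
    intro z
    rw [Z.localTriv_apply]
    simp only [Z, id, hF']
  have h3 := h1.eventually ((isOpen_discrete {(Z.localTriv x (F x)).2}).mem_nhds rfl)
  filter_upwards [h3, isOpen_interior.mem_nhds (hU x)] with z hz hzU i hi
  simp only [h2, sub_self, add_zero] at hz
  rw [← hz, ← hd z x z (hU z) hzU i hi]
  ring

theorem cocycle_glue_complex {ι : Type*} (K : ℂ → Set ι) (hK : ∀ x, (K x).Nonempty)
    (ψ : ℂ → ι → ZMod 2)
    (h : ∀ x, ∀ᶠ x' in 𝓝 x, K x' ⊆ K x ∧ ∃ d, ∀ i ∈ K x', ψ x i = ψ x' i + d) :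
    ∃ k : ℂ → ZMod 2, ∀ x, ∀ᶠ x' in 𝓝 x, ∀ i ∈ K x', ψ x i + k x = ψ x' i + k x' :=
  cocycle_glue K hK ψ h

end Crest.Agent.R40
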