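import Crest.Agent.R40.Conv
import Crest.Agent.R40.Sweep

/-! Row 40: null images of families of circles and the two cone lemmas. -/

set_option autoImplicit false

open Filter Topology MeasureTheory Set Real

namespace Crest.Agent.R40

theorem circ_eq (θ : ℝ) : circleMap 0 1 θ = (Real.cos θ : ℂ) + (Real.sin θ : ℂ) * Complex.I := by
  simp [circleMap, Complex.exp_mul_I]

theorem circ_add (a b : ℝ) : circleMap 0 1 (a + b) = circleMap 0 1 a * circleMap 0 1 b := by
  simp [circleMap, add_mul, Complex.exp_add]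

theorem norm_circ (a : ℝ) : ‖circleMap 0 1 a‖ = 1 := by simp

theorem measurable_circ : Measurable (circleMap 0 1) := (continuous_circleMap 0 1).measurable

theorem exists_circ {z : ℂ} (hz : ‖z‖ = 1) : ∃ θ, z = circleMap 0 1 θ := by
  refine ⟨Complex.arg z, ?_⟩
  have := Complex.norm_mul_exp_arg_mul_I z
  rw [hz] at this
  simpa [circleMap] using this.symm

/-- (N) If the unit circles centred at `x + e φ`, `φ ∈ J`, avoid `A` almost everywhere, then
almost every point of `A` lies on none of them. -/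
theorem null_image (A : Set ℂ) (hA : MeasurableSet A) (J : Set ℝ) (hJ : MeasurableSet J) (x : ℂ)
    (h : ∀ φ ∈ J, ∀ᵐ θ : ℝ, x + circleMap 0 1 φ + circleMap 0 1 θ ∉ A) :
    ∀ᵐ w : ℂ, w ∈ A → ∀ φ ∈ J, ‖w - x - circleMap 0 1 φ‖ ≠ 1 := by
  let F : ℝ × ℝ → ℂ := fun p => x + circleMap 0 1 p.1 + circleMap 0 1 p.2
  have hF : Measurable F :=
    (measurable_const.add (measurable_circ.comp measurable_fst)).add
      (measurable_circ.comp measurable_snd)
  let Z : Set (ℝ × ℝ) := {p | p.1 ∈ J ∧ F p ∈ A}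
  have hZm : MeasurableSet Z := (measurable_fst hJ).inter (hF hA)
  have hZ : volume Z = 0 := by
    rw [Measure.volume_eq_prod, Measure.measure_prod_null hZm]
    refine Eventually.of_forall fun φ => ?_
    by_cases hφ : φ ∈ J
    · have := ae_iff.1 (h φ hφ)
      refine measure_mono_null (fun θ hθ => ?_) this
      simpa [F] using hθ.2
    · have : Prod.mk φ ⁻¹' Z = ∅ := by
        ext θ; simp [Z, hφ]
      simp [this]
  let Φ : ℝ × ℝ → ℝ × ℝ := fun p =>
    (x.re + Real.cos p.1 + Real.cos p.2, x.im + Real.sin p.1 + Real.sin p.2)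
  have hΦ : DifferentiableOn ℝ Φ Z := by
    refine Differentiable.differentiableOn ?_
    simp only [Φ]
    fun_prop
  have h1 := addHaar_image_eq_zero_of_differentiableOn_of_addHaar_eq_zero volume hΦ hZ
  have h2 := Complex.volume_preserving_equiv_real_prod.quasiMeasurePreserving.preimage_null h1
  rw [ae_iff]
  refine measure_mono_null (fun w hw => ?_) h2
  simp only [mem_ofPred_eq, not_forall, not_not] at hw
  obtain ⟨hwA, φ, hφ, hw⟩ := hw
  obtain ⟨θ, hθ⟩ := exists_circ hw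
  have hw' : w = F (φ, θ) := by simp only [F]; rw [← hθ]; ring
  refine ⟨(φ, θ), ⟨hφ, hw' ▸ hwA⟩, ?_⟩
  rw [hw']
  simp [Φ, F, circ_eq, Complex.measurableEquivRealProd_apply, Complex.cos_ofReal_re,
    Complex.sin_ofReal_re]

/-- Polar coordinates pull null sets back to null sets. -/
theorem ae_polar {P : ℂ → Prop} (hP : ∀ᵐ z, P z) (x : ℂ) :
    ∀ᵐ p : ℝ × ℝ, P (x + (p.1 : ℂ) * circleMap 0 1 p.2) := by
  let Φ : ℝ × ℝ → ℝ × ℝ := fun p => (x.re + p.1 * Real.cos p.2, x.im + p.1 * Real.sin p.2)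
  let Φ' : ℝ × ℝ → (ℝ × ℝ) →L[ℝ] (ℝ × ℝ) := fun p =>
    ((p.1 • ((-Real.sin p.2) • ContinuousLinearMap.snd ℝ ℝ ℝ) +
      (Real.cos p.2) • ContinuousLinearMap.fst ℝ ℝ ℝ).prod
      (p.1 • ((Real.cos p.2) • ContinuousLinearMap.snd ℝ ℝ ℝ) +
      (Real.sin p.2) • ContinuousLinearMap.fst ℝ ℝ ℝ))
  have hΦ : ∀ p, HasStrictFDerivAt Φ (Φ' p) p := by
    intro p
    have h2 : HasStrictFDerivAt (fun q : ℝ × ℝ => Real.cos q.2)
        ((-Real.sin p.2) • ContinuousLinearMap.snd ℝ ℝ ℝ) p :=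
      (Real.hasStrictDerivAt_cos p.2).comp_hasStrictFDerivAt p hasStrictFDerivAt_snd
    have h4 : HasStrictFDerivAt (fun q : ℝ × ℝ => Real.sin q.2)
        ((Real.cos p.2) • ContinuousLinearMap.snd ℝ ℝ ℝ) p :=
      (Real.hasStrictDerivAt_sin p.2).comp_hasStrictFDerivAt p hasStrictFDerivAt_snd
    have h1 : HasStrictFDerivAt (fun q : ℝ × ℝ => q.1) (ContinuousLinearMap.fst ℝ ℝ ℝ) p :=
      hasStrictFDerivAt_fst
    exact ((h1.mul h2).const_add x.re).prodMk ((h1.mul h4).const_add x.im)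
  have hdet : ∀ p, (Φ' p).det = p.1 := by
    intro p
    rw [ContinuousLinearMap.det, ← LinearMap.det_toMatrix (Module.Basis.finTwoProd ℝ),
      Matrix.det_fin_two]
    simp [Φ', LinearMap.toMatrix_apply]
    linear_combination p.1 * Real.sin_sq_add_cos_sq p.2
  have hm : Measurable fun p => (Φ' p).det := by
    simp_rw [hdet]; fun_prop
  let N' : Set (ℝ × ℝ) := Complex.measurableEquivRealProd.symm ⁻¹' {z | ¬ P z}
  have hN' : volume N' = 0 :=
    Complex.volume_preserving_equiv_real_prod.symm.quasiMeasurePreserving.preimage_null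
      (ae_iff.1 hP)
  have h1 := null_preimage_of_det volume Φ Φ' hΦ hm N' hN'
  have h2 : volume {p : ℝ × ℝ | p.1 = 0} = 0 := by
    have : {p : ℝ × ℝ | p.1 = 0} = ({0} : Set ℝ) ×ˢ (univ : Set ℝ) := by ext p; simp
    rw [this, Measure.volume_eq_prod, Measure.prod_prod]
    simp
  rw [ae_iff]
  refine measure_mono_null (fun p hp => ?_) (measure_union_null h1 h2)
  by_cases hp0 : p.1 = 0
  · exact Or.inr hp0
  · left
    refine ⟨by rw [hdet]; exact hp0, ?_⟩
    show ¬ P (Complex.measurableEquivRealProd.symm (Φ p))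
    have hp' : ¬ P (x + (p.1 : ℂ) * circleMap 0 1 p.2) := hp
    convert hp' using 2
    apply Complex.ext <;>
      simp [Φ, circleMap, Complex.exp_ofReal_mul_I_re, Complex.exp_ofReal_mul_I_im]

theorem ae_ae_polar {P : ℂ → Prop} (hP : ∀ᵐ z, P z) (x : ℂ) :
    ∀ᵐ t : ℝ, ∀ᵐ α : ℝ, P (x + (t : ℂ) * circleMap 0 1 α) := by
  have := ae_polar hP x
  rw [Measure.volume_eq_prod] at this
  exact Measure.ae_ae_of_ae_prod this

theorem ae_ae_polar' {P : ℂ → Prop} (hP : ∀ᵐ z, P z) (x : ℂ) :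
    ∀ᵐ α : ℝ, ∀ᵐ t : ℝ, P (x + (t : ℂ) * circleMap 0 1 α) := by
  have := ae_polar hP x
  rw [Measure.volume_eq_prod] at this
  have h2 := (Measure.measurePreserving_swap (μ := (volume : Measure ℝ))
    (ν := (volume : Measure ℝ))).quasiMeasurePreserving.ae this
  exact Measure.ae_ae_of_ae_prod h2

/-- The two unit circles through `0` and `t e β`. -/
theorem norm_sub_circ {t ψ : ℝ} (β : ℝ) (h : Real.cos ψ = t / 2) :
    ‖(t : ℂ) * circleMap 0 1 β - circleMap 0 1 (β + ψ)‖ = 1 := by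
  rw [circ_add, mul_comm (t : ℂ), ← mul_sub, norm_mul, norm_circ, one_mul, circ_eq]
  have : ‖(t : ℂ) - ((Real.cos ψ : ℂ) + (Real.sin ψ : ℂ) * Complex.I)‖ ^ 2 = 1 := by
    rw [Complex.sq_norm, Complex.normSq_apply]
    simp only [Complex.sub_re, Complex.ofReal_re, Complex.add_re, Complex.mul_re, Complex.I_re,
      mul_zero, Complex.ofReal_im, Complex.I_im, mul_one, sub_self, add_zero, Complex.sub_im,
      Complex.add_im, Complex.mul_im, zero_add, zero_sub]
    have := Real.sin_sq_add_cos_sq ψ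
    have ht : t = 2 * Real.cos ψ := by linarith
    rw [ht]; nlinarith
  exact (pow_eq_one_iff_of_nonneg (norm_nonneg _) two_ne_zero).1 this

/-- (CONE 1) Near `x`, the set `A` is rare in the directions tangent to the circles that
avoid it. -/
theorem cone1 (A : Set ℂ) (hA : MeasurableSet A) (J : Set ℝ) (hJ : MeasurableSet J) (x : ℂ)
    (h : ∀ φ ∈ J, ∀ᵐ θ : ℝ, x + circleMap 0 1 φ + circleMap 0 1 θ ∉ A)
    (S : Set ℝ) (hS : MeasurableSet S) (hS' : volume S ≠ ⊤) (ε : ENNReal) (hε : 0 < ε) :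
    ∃ ρ > 0, ∀ᵐ t : ℝ, |t| < ρ → volume {α ∈ S | (α + π / 2 ∈ J ∨ α - π / 2 ∈ J) ∧
      x + (t : ℂ) * circleMap 0 1 α ∈ A} ≤ ε := by
  have hc : Tendsto (fun t : ℝ => Real.arccos (t / 2)) (𝓝 0) (𝓝 (π / 2)) := by
    have : Continuous fun t : ℝ => Real.arccos (t / 2) := by fun_prop
    simpa using this.tendsto 0
  have h1 := sweep (l := 𝓝 (0 : ℝ)) (φ := fun t α => α + (Real.arccos (t / 2) - π / 2))
    hS hS' (C := 1) (Eventually.of_forall fun _ => by fun_prop)
    (Eventually.of_forall fun _ s _ t _ => by simp)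
    (fun α _ => by simpa using (hc.sub_const (π / 2)).const_add α)
    (J := (fun α => α + π / 2) ⁻¹' J) (measurable_add_const _ hJ)
  have h2 := sweep (l := 𝓝 (0 : ℝ)) (φ := fun t α => α - (Real.arccos (t / 2) - π / 2))
    hS hS' (C := 1) (Eventually.of_forall fun _ => by fun_prop)
    (Eventually.of_forall fun _ s _ t _ => by simp)
    (fun α _ => by simpa using (hc.sub_const (π / 2)).const_sub α)
    (J := (fun α => α - π / 2) ⁻¹' J) (measurable_sub_const _ hJ)
  have hε2 := ENNReal.half_pos hε.ne'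
  have h3 := ((ENNReal.tendsto_nhds_zero.1 h1 _ hε2).and
    (ENNReal.tendsto_nhds_zero.1 h2 _ hε2)).and (Metric.ball_mem_nhds (0 : ℝ) two_pos)
  obtain ⟨ρ, hρ, hρ'⟩ := Metric.eventually_nhds_iff.1 h3
  refine ⟨ρ, hρ, ?_⟩
  filter_upwards [ae_ae_polar (null_image A hA J hJ x h) x] with t ht htρ
  obtain ⟨⟨a1, a2⟩, a3⟩ := hρ' (y := t) (by simpa using htρ)
  have a4 : |t| < 2 := by simpa using a3
  have hcos : Real.cos (Real.arccos (t / 2)) = t / 2 :=
    Real.cos_arccos (by linarith [(abs_lt.1 a4).1]) (by linarith [(abs_lt.1 a4).2])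
  refine le_trans (measure_mono_ae ?_) ((measure_union_le _ _).trans
    ((add_le_add a1 a2).trans (ENNReal.add_halves ε).le))
  filter_upwards [ht] with α hα
  rintro ⟨hαS, hαJ, hαA⟩
  have hα' := hα hαA
  rcases hαJ with hαJ | hαJ
  · left
    refine ⟨hαS, hαJ, fun hm => hα' _ hm ?_⟩
    have := norm_sub_circ α hcos
    beta_reduce
    rw [add_sub_cancel_left, show α + (Real.arccos (t / 2) - π / 2) + π / 2
      = α + Real.arccos (t / 2) by ring]
    exact this
  · right
    refine ⟨hαS, hαJ, fun hm => hα' _ hm ?_⟩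
    have := norm_sub_circ (ψ := -Real.arccos (t / 2)) α (by rw [Real.cos_neg, hcos])
    beta_reduce
    rw [add_sub_cancel_left, show α - (Real.arccos (t / 2) - π / 2) - π / 2
      = α + -Real.arccos (t / 2) by ring]
    exact this

theorem abs_arctan_sub_le (a b : ℝ) : |Real.arctan a - Real.arctan b| ≤ |a - b| := by
  have := Convex.norm_image_sub_le_of_norm_hasDerivWithin_le (f := Real.arctan)
    (f' := fun x => 1 / (1 + x ^ 2)) (s := univ) (C := 1) (x := b) (y := a)
    (fun x _ => (Real.hasDerivAt_arctan x).hasDerivWithinAt)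
    (fun x _ => by
      rw [Real.norm_eq_abs, abs_of_nonneg (by positivity), div_le_one (by positivity)]
      nlinarith [sq_nonneg x]) convex_univ (mem_univ _) (mem_univ _)
  simpa using this

theorem abs_arcsin_sub_le {a b : ℝ} (ha : |a| ≤ 1 / 2) (hb : |b| ≤ 1 / 2) :
    |Real.arcsin a - Real.arcsin b| ≤ 2 * |a - b| := by
  have := Convex.norm_image_sub_le_of_norm_hasDerivWithin_le (f := Real.arcsin)
    (f' := fun x => 1 / √(1 - x ^ 2)) (s := Icc (-(1 / 2)) (1 / 2)) (C := 2) (x := b) (y := a)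
    (fun x hx => (Real.hasDerivAt_arcsin (by linarith [hx.1]) (by linarith [hx.2])).hasDerivWithinAt)
    (fun x hx => by
      have h1 : 1 / 2 ≤ √(1 - x ^ 2) := Real.le_sqrt_of_sq_le (by nlinarith [hx.1, hx.2])
      rw [Real.norm_eq_abs, abs_of_nonneg (by positivity), div_le_iff₀ (by linarith)]
      linarith) (convex_Icc _ _) (abs_le.1 hb) (abs_le.1 ha)
  simpa using this

theorem vol_periodic {B : Set ℝ} (hB : MeasurableSet B) (hp : ∀ θ, θ + 2 * π ∈ B ↔ θ ∈ B)
    (a b : ℝ) : volume (B ∩ Ioc a (a + 2 * π)) = volume (B ∩ Ioc b (b + 2 * π)) := by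
  refine (isAddFundamentalDomain_Ioc two_pi_pos a).measure_set_eq
    (isAddFundamentalDomain_Ioc two_pi_pos b) hB fun g => ?_
  obtain ⟨g, n, rfl⟩ := g
  have hper : Function.Periodic (fun θ => θ ∈ B) (2 * π) := fun θ => propext (hp θ)
  ext θ
  have := hper.zsmul n θ
  simp only [mem_preimage]
  change n • (2 * π) + θ ∈ B ↔ _
  rw [add_comm]
  exact Iff.of_eq this

/-- A Lipschitz map that covers `[p, q]` pulls `B` back to a set of comparable measure. -/
theorem vol_le_of_lip {Θ : ℝ → ℝ} {a b p q : ℝ} (hab : a ≤ b)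
    (hL : ∀ s ∈ Icc a b, ∀ s' ∈ Icc a b, |Θ s - Θ s'| ≤ 2 * |s - s'|)
    (hp : Θ b ≤ p) (hq : q ≤ Θ a) (B : Set ℝ) :
    volume (B ∩ Icc p q) ≤ 2 * volume (Icc a b ∩ Θ ⁻¹' B) := by
  have hl : LipschitzOnWith 2 Θ (Icc a b) :=
    LipschitzOnWith.of_dist_le_mul fun s hs s' hs' => by
      simpa [Real.dist_eq] using hL s hs s' hs'
  have h1 := (hl.mono (inter_subset_left (t := Θ ⁻¹' B))).hausdorffMeasure_image_le
    (d := 1) zero_le_one
  rw [hausdorffMeasure_real] at h1
  refine le_trans (measure_mono ?_) (by simpa using h1)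
  rintro θ ⟨hθB, hθ⟩
  obtain ⟨s, hs, rfl⟩ := intermediate_value_Icc' hab hl.continuousOn
    ⟨hp.trans hθ.1, hθ.2.trans hq⟩
  exact ⟨s, ⟨hs, hθB⟩, rfl⟩

theorem add_I_eq (s : ℝ) : (s : ℂ) + Complex.I =
    (‖(s : ℂ) + Complex.I‖ : ℝ) * circleMap 0 1 (π / 2 - Real.arctan s) := by
  have hn : ‖(s : ℂ) + Complex.I‖ = √(1 + s ^ 2) := by
    rw [Complex.norm_eq_sqrt_sq_add_sq]; simp [add_comm]
  have h0 : √(1 + s ^ 2) ≠ 0 := by positivity
  rw [hn, circ_eq, Real.cos_pi_div_two_sub, Real.sin_pi_div_two_sub, Real.sin_arctan,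
    Real.cos_arctan]
  have h0' : ((√(1 + s ^ 2) : ℝ) : ℂ) ≠ 0 := by exact_mod_cast h0
  push_cast
  field_simp

/-- One line: a line at distance `|m|` from `y` meets many circles centred on `y + e B`. -/
theorem line_bound {B : Set ℝ} (hB : MeasurableSet B) (hp : ∀ θ, θ + 2 * π ∈ B ↔ θ ∈ B)
    {ε : ℝ} (hε : 0 < ε) (hε1 : ε ≤ 1) (hBε : ENNReal.ofReal (16 * ε) ≤ volume (B ∩ Ioc 0 (2 * π)))
    (α m : ℝ) (hm : |m| * (1 + Real.tan (π / 2 - ε)) ≤ ε) :
    ENNReal.ofReal ε ≤ volume {s : ℝ | |s| ≤ Real.tan (π / 2 - ε) ∧ ∃ θ ∈ B,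
      ‖circleMap 0 1 α * (m * (s + Complex.I)) - circleMap 0 1 θ‖ = 1} := by
  set S := Real.tan (π / 2 - ε) with hS
  have hpi := Real.pi_gt_three
  have hS0 : 0 ≤ S := Real.tan_nonneg_of_nonneg_of_le_pi_div_two (by linarith) (by linarith)
  have haS : Real.arctan S = π / 2 - ε := Real.arctan_tan (by linarith) (by linarith)
  let κ : ℝ → ℝ := fun s => m * ‖(s : ℂ) + Complex.I‖ / 2
  have hκ : ∀ s ∈ Icc (-S) S, |κ s| ≤ ε / 2 := by
    intro s hs
    have h1 : ‖(s : ℂ) + Complex.I‖ ≤ 1 + S := by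
      refine (norm_add_le _ _).trans ?_
      have := abs_le.2 hs
      simp only [Complex.norm_real, Real.norm_eq_abs, Complex.norm_I]
      linarith
    simp only [κ, abs_div, abs_mul, abs_norm, abs_two]
    have := mul_le_mul_of_nonneg_left h1 (abs_nonneg m)
    linarith
  have hm1 : |m| ≤ 1 := by nlinarith [abs_nonneg m]
  have hκL : ∀ s s', |κ s - κ s'| ≤ |s - s'| / 2 := by
    intro s s'
    have h1 := abs_norm_sub_norm_le ((s : ℂ) + Complex.I) ((s' : ℂ) + Complex.I)
    rw [add_sub_add_right_eq_sub, ← Complex.ofReal_sub, Complex.norm_real, Real.norm_eq_abs] at h1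
    have : κ s - κ s' = m * (‖(s : ℂ) + Complex.I‖ - ‖(s' : ℂ) + Complex.I‖) / 2 := by
      simp only [κ]; ring
    rw [this, abs_div, abs_mul, abs_two]
    have := mul_le_mul hm1 h1 (abs_nonneg _) zero_le_one
    linarith
  have has : ∀ s ∈ Icc (-S) S, |Real.arcsin (κ s)| ≤ ε := by
    intro s hs
    have := abs_arcsin_sub_le (a := κ s) (b := 0) ((hκ s hs).trans (by linarith)) (by simp)
    simp only [Real.arcsin_zero, sub_zero] at this
    linarith [hκ s hs]
  have hasL : ∀ s ∈ Icc (-S) S, ∀ s' ∈ Icc (-S) S,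
      |Real.arcsin (κ s) - Real.arcsin (κ s')| ≤ |s - s'| := by
    intro s hs s' hs'
    have := abs_arcsin_sub_le ((hκ s hs).trans (by linarith)) ((hκ s' hs').trans (by linarith))
    linarith [hκL s s']
  let Θ1 : ℝ → ℝ := fun s => α - Real.arctan s + Real.arcsin (κ s)
  let Θ2 : ℝ → ℝ := fun s => α + π - Real.arctan s - Real.arcsin (κ s)
  have hSS : -S ≤ S := by linarith
  have hl : -S ∈ Icc (-S) S := left_mem_Icc.2 hSS
  have hr : S ∈ Icc (-S) S := right_mem_Icc.2 hSS
  have v1 := vol_le_of_lip (Θ := Θ1) (p := α - π / 2 + 2 * ε) (q := α + π / 2 - 2 * ε) hSS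
    (fun s hs s' hs' => by
      have a1 := abs_le.1 (abs_arctan_sub_le s s')
      have a2 := abs_le.1 (hasL s hs s' hs')
      simp only [Θ1]
      rw [abs_le]; constructor <;> linarith)
    (by simp only [Θ1, haS]; linarith [(abs_le.1 (has S hr)).2])
    (by simp only [Θ1, Real.arctan_neg, haS]; linarith [(abs_le.1 (has _ hl)).1]) B
  have v2 := vol_le_of_lip (Θ := Θ2) (p := α + π / 2 + 2 * ε) (q := α + 3 * π / 2 - 2 * ε) hSS
    (fun s hs s' hs' => by
      have a1 := abs_le.1 (abs_arctan_sub_le s s')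
      have a2 := abs_le.1 (hasL s hs s' hs')
      simp only [Θ2]
      rw [abs_le]; constructor <;> linarith)
    (by simp only [Θ2, haS]; linarith [(abs_le.1 (has S hr)).1])
    (by simp only [Θ2, Real.arctan_neg, haS]; linarith [(abs_le.1 (has _ hl)).2]) B
  set T := {s : ℝ | |s| ≤ S ∧ ∃ θ ∈ B,
      ‖circleMap 0 1 α * (m * (s + Complex.I)) - circleMap 0 1 θ‖ = 1} with hT
  have hgeo : ∀ s ∈ Icc (-S) S, ∀ ψ, Real.cos ψ = κ s →
      ‖circleMap 0 1 α * (m * (s + Complex.I)) -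
        circleMap 0 1 (α + (π / 2 - Real.arctan s) + ψ)‖ = 1 := by
    intro s _ ψ hψ
    have := norm_sub_circ (t := m * ‖(s : ℂ) + Complex.I‖) (α + (π / 2 - Real.arctan s)) hψ
    have e1 : circleMap 0 1 α * (m * (s + Complex.I)) =
        ((m * ‖(s : ℂ) + Complex.I‖ : ℝ) : ℂ) * circleMap 0 1 (α + (π / 2 - Real.arctan s)) := by
      rw [circ_add]
      conv_lhs => rw [add_I_eq s]
      push_cast
      ring
    rw [e1]
    exact this
  have hsin : ∀ s ∈ Icc (-S) S, Real.sin (Real.arcsin (κ s)) = κ s := fun s hs =>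
    Real.sin_arcsin (by linarith [(abs_le.1 (hκ s hs)).1]) (by linarith [(abs_le.1 (hκ s hs)).2])
  have t1 : Icc (-S) S ∩ Θ1 ⁻¹' B ⊆ T := by
    rintro s ⟨hs, hsB⟩
    refine ⟨abs_le.2 hs, _, hsB, ?_⟩
    have := hgeo s hs (Real.arcsin (κ s) - π / 2) (by rw [Real.cos_sub_pi_div_two, hsin s hs])
    rw [show Θ1 s = α + (π / 2 - Real.arctan s) + (Real.arcsin (κ s) - π / 2) by
      simp only [Θ1]; ring]
    exact this
  have t2 : Icc (-S) S ∩ Θ2 ⁻¹' B ⊆ T := by
    rintro s ⟨hs, hsB⟩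
    refine ⟨abs_le.2 hs, _, hsB, ?_⟩
    have := hgeo s hs (π / 2 - Real.arcsin (κ s)) (by rw [Real.cos_pi_div_two_sub, hsin s hs])
    rw [show Θ2 s = α + (π / 2 - Real.arctan s) + (π / 2 - Real.arcsin (κ s)) by
      simp only [Θ2]; ring]
    exact this
  have hper := vol_periodic hB hp 0 (α - π / 2)
  rw [zero_add] at hper
  have hcov : B ∩ Ioc (α - π / 2) (α - π / 2 + 2 * π) ⊆
      (B ∩ Icc (α - π / 2 + 2 * ε) (α + π / 2 - 2 * ε) ∪
        B ∩ Icc (α + π / 2 + 2 * ε) (α + 3 * π / 2 - 2 * ε)) ∪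
      (Icc (α - π / 2) (α - π / 2 + 2 * ε) ∪ (Icc (α + π / 2 - 2 * ε) (α + π / 2 + 2 * ε) ∪
        Icc (α + 3 * π / 2 - 2 * ε) (α + 3 * π / 2))) := by
    rintro θ ⟨hθB, h1, h2⟩
    simp only [mem_union, mem_inter_iff, mem_Icc, hθB, true_and]
    by_cases c1 : θ ≤ α - π / 2 + 2 * ε
    · exact Or.inr (Or.inl ⟨h1.le, c1⟩)
    by_cases c2 : θ ≤ α + π / 2 - 2 * ε
    · exact Or.inl (Or.inl ⟨by linarith, c2⟩)
    by_cases c3 : θ ≤ α + π / 2 + 2 * ε
    · exact Or.inr (Or.inr (Or.inl ⟨by linarith, c3⟩))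
    by_cases c4 : θ ≤ α + 3 * π / 2 - 2 * ε
    · exact Or.inl (Or.inr ⟨by linarith, c4⟩)
    · exact Or.inr (Or.inr (Or.inr ⟨by linarith, by linarith⟩))
  have hgap : volume (Icc (α - π / 2) (α - π / 2 + 2 * ε) ∪
      (Icc (α + π / 2 - 2 * ε) (α + π / 2 + 2 * ε) ∪
        Icc (α + 3 * π / 2 - 2 * ε) (α + 3 * π / 2))) ≤ ENNReal.ofReal (8 * ε) := by
    refine (measure_union_le _ _).trans ((add_le_add le_rfl (measure_union_le _ _)).trans ?_)
    rw [Real.volume_Icc, Real.volume_Icc, Real.volume_Icc,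
      ← ENNReal.ofReal_add (by linarith) (by linarith),
      ← ENNReal.ofReal_add (by linarith) (by linarith)]
    exact ENNReal.ofReal_le_ofReal (by linarith)
  have hall : ENNReal.ofReal (16 * ε) ≤ 2 * volume T + 2 * volume T + ENNReal.ofReal (8 * ε) := by
    rw [hper] at hBε
    refine hBε.trans ((measure_mono hcov).trans ((measure_union_le _ _).trans
      (add_le_add ((measure_union_le _ _).trans (add_le_add ?_ ?_)) hgap)))
    · exact v1.trans (mul_le_mul_right (measure_mono t1) 2)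
    · exact v2.trans (mul_le_mul_right (measure_mono t2) 2)
  by_contra hc
  push Not at hc
  have h2 : 2 * volume T ≤ ENNReal.ofReal (2 * ε) := by
    rw [ENNReal.ofReal_mul zero_le_two, ENNReal.ofReal_ofNat]
    exact mul_le_mul_right hc.le 2
  have h3 := hall.trans (add_le_add (add_le_add h2 h2) le_rfl)
  rw [← ENNReal.ofReal_add (by linarith) (by linarith),
    ← ENNReal.ofReal_add (by linarith) (by linarith),
    ENNReal.ofReal_le_ofReal_iff (by linarith)] at h3
  linarith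

theorem measurableSet_unseen_arc {A : Set ℂ} (hA : MeasurableSet A) (y : ℂ) :
    MeasurableSet {θ : ℝ | ∀ᵐ φ : ℝ, y + circleMap 0 1 θ + circleMap 0 1 φ ∉ A} := by
  have hF : Measurable fun p : ℝ × ℝ => y + circleMap 0 1 p.1 + circleMap 0 1 p.2 :=
    (measurable_const.add (measurable_circ.comp measurable_fst)).add
      (measurable_circ.comp measurable_snd)
  have h1 := measurable_measure_prodMk_left (ν := (volume : Measure ℝ)) (hF hA)
  have h2 := h1 (measurableSet_singleton 0)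
  convert h2 using 1
  ext θ
  simp only [mem_ofPred_eq, ae_iff, not_not, mem_preimage, mem_singleton_iff]
  rfl

/-- Directions nearly parallel to a given one are rare inside a short interval. -/
theorem vol_small_sin (a γ η : ℝ) :
    volume {α ∈ Icc a (a + 1) | |Real.sin (α - γ)| < η} ≤ ENNReal.ofReal (4 * η) := by
  refine (Real.volume_le_diam _).trans (Metric.ediam_le fun α hα β hβ => ?_)
  rw [edist_dist, Real.dist_eq]
  refine ENNReal.ofReal_le_ofReal ?_
  have hpi := Real.pi_gt_three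
  have hpi' := Real.pi_le_four
  have h1 : |Real.sin (α - β)| ≤ 2 * η := by
    rw [show α - β = (α - γ) - (β - γ) by ring, Real.sin_sub]
    refine (abs_sub _ _).trans ?_
    rw [abs_mul, abs_mul]
    have := mul_le_mul hα.2.le (Real.abs_cos_le_one (β - γ)) (abs_nonneg _)
      ((abs_nonneg _).trans hα.2.le)
    have := mul_le_mul (Real.abs_cos_le_one (α - γ)) hβ.2.le (abs_nonneg _) zero_le_one
    linarith
  have h2 : |α - β| ≤ 1 := by
    rw [abs_le]; constructor <;> linarith [hα.1.1, hα.1.2, hβ.1.1, hβ.1.2]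
  have h3 := Real.mul_le_sin (abs_nonneg (α - β)) (by linarith)
  have h4 : Real.sin |α - β| ≤ |Real.sin (α - β)| := by
    rcases abs_choice (α - β) with h | h <;> rw [h]
    · exact le_abs_self _
    · rw [Real.sin_neg]; exact neg_le_abs _
  have h5 : 1 / 2 ≤ 2 / π := by rw [div_le_div_iff₀ two_pos Real.pi_pos]; linarith
  nlinarith [abs_nonneg (α - β)]

/-- (CONE 2), core form with `D` inside a short interval. -/
theorem cone2_core (A : Set ℂ) (hA : MeasurableSet A) (D : Set ℝ) (hD : MeasurableSet D)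
    (a : ℝ) (hDa : D ⊆ Icc a (a + 1)) (hD0 : volume D ≠ 0) (x : ℂ)
    (h : ∀ ε : ENNReal, 0 < ε → ∃ ρ > 0, ∀ᵐ t : ℝ, |t| < ρ →
      volume {α ∈ D | x + (t : ℂ) * circleMap 0 1 α ∉ A} ≤ ε)
    (ε : ℝ) (hε : 0 < ε) (hε1 : ε ≤ 1) :
    ∃ ρ > 0, ∀ y : ℂ, y ≠ x → dist y x < ρ → volume ({θ : ℝ | ∀ᵐ φ : ℝ,
      y + circleMap 0 1 θ + circleMap 0 1 φ ∉ A} ∩ Ioc 0 (2 * π)) < ENNReal.ofReal (16 * ε) := by
  have hDfin : volume D ≠ ⊤ := ne_top_of_le_ne_top (by simp) (measure_mono hDa)
  set d := (volume D).toReal with hd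
  have hd0 : 0 < d := ENNReal.toReal_pos hD0 hDfin
  have hDd : volume D = ENNReal.ofReal d := (ENNReal.ofReal_toReal hDfin).symm
  set S := Real.tan (π / 2 - ε) with hS
  have hpi := Real.pi_gt_three
  have hS0 : 0 ≤ S := Real.tan_nonneg_of_nonneg_of_le_pi_div_two (by linarith) (by linarith)
  set η := d / 8 with hη
  have hη0 : 0 < η := by positivity
  set ε1 := ε * η * d / (8 * (1 + S)) with hε1d
  have hε10 : 0 < ε1 := by positivity
  obtain ⟨ρ, hρ, hρ'⟩ := h (ENNReal.ofReal ε1) (by simpa using hε10)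
  refine ⟨min ρ ε / (1 + S), by positivity, fun y hy hyρ => ?_⟩
  by_contra hc
  push Not at hc
  set B := {θ : ℝ | ∀ᵐ φ : ℝ, y + circleMap 0 1 θ + circleMap 0 1 φ ∉ A} with hB
  have hBm : MeasurableSet B := measurableSet_unseen_arc hA y
  have hBp : ∀ θ, θ + 2 * π ∈ B ↔ θ ∈ B := fun θ => by
    simp only [hB, mem_ofPred_eq, periodic_circleMap 0 1 θ]
  set r := ‖y - x‖ with hr
  have hr0 : 0 < r := norm_pos_iff.2 (sub_ne_zero.2 hy)
  have hrS : r * (1 + S) < min ρ ε := by
    rw [dist_eq_norm, lt_div_iff₀ (by positivity)] at hyρ; exact hyρ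
  obtain ⟨γ, hγ⟩ : ∃ γ, y - x = (r : ℂ) * circleMap 0 1 γ := by
    refine ⟨Complex.arg (y - x), ?_⟩
    have := (Complex.norm_mul_exp_arg_mul_I (y - x)).symm
    rw [circleMap, zero_add, Complex.ofReal_one, one_mul]
    exact this
  set R := r * (1 + S) with hR
  have hR0 : 0 < R := by positivity
  let D' := D \ {α | |Real.sin (α - γ)| < η}
  have hD'm : MeasurableSet D' := hD.diff (measurableSet_lt (by fun_prop) measurable_const)
  have hD' : ENNReal.ofReal (d / 2) ≤ volume D' := by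
    have h1 : D ⊆ D' ∪ {α ∈ Icc a (a + 1) | |Real.sin (α - γ)| < η} := by
      intro α hα
      by_cases h' : |Real.sin (α - γ)| < η
      · exact Or.inr ⟨hDa hα, h'⟩
      · exact Or.inl ⟨hα, h'⟩
    have h2 := (measure_mono h1).trans ((measure_union_le _ _).trans
      (add_le_add le_rfl (vol_small_sin a γ η)))
    rw [hDd, show d = d / 2 + 4 * η by rw [hη]; ring, ENNReal.ofReal_add (by positivity)
      (by positivity)] at h2
    exact (ENNReal.add_le_add_iff_right ENNReal.ofReal_ne_top).1 h2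
  let E : Set (ℝ × ℝ) := {p | p.1 ∈ D' ∧ p.2 ∈ Icc (-R) R ∧
    x + (p.2 : ℂ) * circleMap 0 1 p.1 ∉ A}
  have hEm : MeasurableSet E := by
    refine (measurable_fst hD'm).inter ((measurable_snd measurableSet_Icc).inter ?_)
    have hF : Measurable fun p : ℝ × ℝ => x + (p.2 : ℂ) * circleMap 0 1 p.1 :=
      measurable_const.add ((Complex.measurable_ofReal.comp measurable_snd).mul
        (measurable_circ.comp measurable_fst))
    exact hF hA.compl
  -- upper bound
  have hup : (volume.prod volume) E ≤ ENNReal.ofReal ε1 * ENNReal.ofReal (2 * R) := by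
    rw [Measure.prod_apply_symm hEm]
    calc ∫⁻ t, volume ((fun α => (α, t)) ⁻¹' E)
        ≤ ∫⁻ t, (Icc (-R) R).indicator (fun _ => ENNReal.ofReal ε1) t := by
          refine lintegral_mono_ae ?_
          filter_upwards [hρ'] with t ht
          by_cases htR : t ∈ Icc (-R) R
          · rw [indicator_of_mem htR]
            refine le_trans (measure_mono ?_)
              (ht ((abs_le.2 htR).trans_lt (hrS.trans_le (min_le_left _ _))))
            exact fun α hα => ⟨hα.1.1, hα.2.2⟩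
          · have : (fun α => (α, t)) ⁻¹' E = ∅ := by
              ext α; simp only [mem_preimage, mem_empty_iff_false, iff_false]
              exact fun h' => htR h'.2.1
            simp [this]
      _ = _ := by
          rw [lintegral_indicator_const measurableSet_Icc, Real.volume_Icc]
          congr 2; ring
  -- lower bound
  have hlow : ENNReal.ofReal (ε * η * r) * volume D' ≤ (volume.prod volume) E := by
    rw [Measure.prod_apply hEm, ← lintegral_indicator_const hD'm]
    refine lintegral_mono_ae ?_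
    filter_upwards [ae_ae_polar' (null_image A hA B hBm y fun φ hφ => hφ) x] with α hα
    by_cases hαD : α ∈ D'
    swap
    · simp [hαD]
    rw [indicator_of_mem hαD]
    set m := r * Real.sin (α - γ) with hm
    set v := r * Real.cos (α - γ) with hv
    have hm1 : |m| ≤ r := by
      rw [hm, abs_mul, abs_of_pos hr0]
      exact mul_le_of_le_one_right hr0.le (Real.abs_sin_le_one _)
    have hv1 : |v| ≤ r := by
      rw [hv, abs_mul, abs_of_pos hr0]
      exact mul_le_of_le_one_right hr0.le (Real.abs_cos_le_one _)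
    have hm2 : η * r ≤ |m| := by
      rw [hm, abs_mul, abs_of_pos hr0, mul_comm]
      exact mul_le_mul_of_nonneg_left (not_lt.1 hαD.2) hr0.le
    have hm0 : 0 < |m| := lt_of_lt_of_le (by positivity) hm2
    have hline := line_bound hBm hBp hε hε1 hc α m (by
      have := mul_le_mul_of_nonneg_right hm1 (show 0 ≤ 1 + S by positivity)
      have := min_le_right ρ ε
      rw [← hS]; linarith)
    rw [← hS] at hline
    set T' := {t : ℝ | t ∈ Icc (-R) R ∧ ∃ θ ∈ B,
      ‖x + (t : ℂ) * circleMap 0 1 α - y - circleMap 0 1 θ‖ = 1} with hT'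
    have h1 : volume T' ≤ volume (Prod.mk α ⁻¹' E) := by
      refine measure_mono_ae ?_
      filter_upwards [hα] with t ht
      rintro ⟨htR, θ, hθ, hθ'⟩
      exact ⟨hαD, htR, fun hA' => ht hA' θ hθ hθ'⟩
    have h2 := vol_preimage_le (φ := fun s => v + m * s) (S := univ)
      (C := Real.toNNReal |m|⁻¹) (fun s _ t _ => by
        rw [show v + m * s - (v + m * t) = m * (s - t) by ring, abs_mul m,
          Real.coe_toNNReal _ (by positivity), ← mul_assoc, inv_mul_cancel₀ hm0.ne', one_mul]) T'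
    have h3 : {s : ℝ | |s| ≤ S ∧ ∃ θ ∈ B,
        ‖circleMap 0 1 α * (m * (s + Complex.I)) - circleMap 0 1 θ‖ = 1} ⊆
        univ ∩ (fun s => v + m * s) ⁻¹' T' := by
      rintro s ⟨hs, θ, hθ, hθ'⟩
      refine ⟨mem_univ _, abs_le.1 ?_, θ, hθ, ?_⟩
      · refine (abs_add_le _ _).trans ?_
        have := mul_le_mul hm1 hs (abs_nonneg _) hr0.le
        rw [abs_mul m s, hR]; linarith
      · have e1 : x + ((v + m * s : ℝ) : ℂ) * circleMap 0 1 α - y =
            circleMap 0 1 α * (m * (s + Complex.I)) := by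
          have e2 : circleMap 0 1 γ = circleMap 0 1 α * circleMap 0 1 (-(α - γ)) := by
            rw [← circ_add]; congr 1; ring
          have e3 : y = x + (r : ℂ) * circleMap 0 1 γ := by rw [← hγ]; ring
          rw [e3, e2, circ_eq (-(α - γ)), Real.cos_neg, Real.sin_neg, hm, hv]
          push_cast
          ring
        beta_reduce
        rw [e1]; exact hθ'
    have h4 := hline.trans ((measure_mono h3).trans (h2.trans (mul_le_mul_right h1 _)))
    have h5 : ENNReal.ofReal (ε * η * r) ≤ ENNReal.ofReal |m| * ENNReal.ofReal ε := by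
      rw [← ENNReal.ofReal_mul hm0.le]
      exact ENNReal.ofReal_le_ofReal (by nlinarith)
    refine h5.trans ((mul_le_mul_right h4 _).trans (le_of_eq ?_))
    rw [← mul_assoc]
    change ENNReal.ofReal |m| * ENNReal.ofReal |m|⁻¹ * _ = _
    rw [← ENNReal.ofReal_mul hm0.le, mul_inv_cancel₀ hm0.ne', ENNReal.ofReal_one, one_mul]
  have hfin := ((mul_le_mul_right hD' _).trans hlow).trans hup
  rw [← ENNReal.ofReal_mul (by positivity), ← ENNReal.ofReal_mul (by positivity),
    ENNReal.ofReal_le_ofReal_iff (by positivity)] at hfin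
  have e4 : ε1 * (2 * R) = ε * η * d * r / 4 := by
    rw [hε1d, hR]; field_simp; ring
  rw [e4] at hfin
  have : 0 < ε * η * d * r := by positivity
  nlinarith

/-- (CONE 2) If `A` fills the lines through `x` in a set `D` of directions of positive measure,
then few unit circles through a point `y ≠ x` near `x` avoid `A`. -/
theorem cone2 (A : Set ℂ) (hA : MeasurableSet A) (D : Set ℝ) (hD : MeasurableSet D)
    (hD0 : volume D ≠ 0) (x : ℂ)
    (h : ∀ ε : ENNReal, 0 < ε → ∃ ρ > 0, ∀ᵐ t : ℝ, |t| < ρ →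
      volume {α ∈ D | x + (t : ℂ) * circleMap 0 1 α ∉ A} ≤ ε)
    (ε : ℝ) (hε : 0 < ε) :
    ∃ ρ > 0, ∀ y : ℂ, y ≠ x → dist y x < ρ → volume ({θ : ℝ | ∀ᵐ φ : ℝ,
      y + circleMap 0 1 θ + circleMap 0 1 φ ∉ A} ∩ Ioc 0 (2 * π)) < ENNReal.ofReal ε := by
  obtain ⟨n, hn⟩ : ∃ n : ℤ, volume (D ∩ Icc (n : ℝ) (n + 1)) ≠ 0 := by
    by_contra hc
    push Not at hc
    apply hD0
    refine measure_mono_null (fun α hα => ?_) (measure_iUnion_null hc)
    exact mem_iUnion.2 ⟨⌊α⌋, hα, Int.floor_le α, (Int.lt_floor_add_one α).le⟩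
  obtain ⟨ρ, hρ, hρ'⟩ := cone2_core A hA (D ∩ Icc (n : ℝ) (n + 1)) (hD.inter measurableSet_Icc) n
    inter_subset_right hn x (fun δ hδ => by
      obtain ⟨ρ, hρ, hρ'⟩ := h δ hδ
      refine ⟨ρ, hρ, ?_⟩
      filter_upwards [hρ'] with t ht htρ
      refine le_trans (measure_mono ?_) (ht htρ)
      exact fun α hα => ⟨hα.1.1, hα.2⟩)
    (min 1 (ε / 16)) (by positivity) (min_le_left _ _)
  refine ⟨ρ, hρ, fun y hy hyρ => (hρ' y hy hyρ).trans_le (ENNReal.ofReal_le_ofReal ?_)⟩
  have := min_le_right 1 (ε / 16)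
  linarith

end Crest.Agent.R40
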