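import Mathlib

/-! Row 40, measurable part: definitions and task statements. -/

set_option autoImplicit false

namespace Crest.Agent.R40
open MeasureTheory Set Filter Topology

/-- unit vector of argument `θ` -/
noncomputable abbrev e (θ : ℝ) : ℂ := circleMap 0 1 θ

/-- one period of angles -/
abbrev Per : Set ℝ := Set.Ioc 0 (2 * Real.pi)

/-- measurable colouring, proper almost everywhere -/
def Good (c : ℂ → Fin 5) : Prop :=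
  Measurable c ∧ ∀ᵐ p : ℂ × ℝ, c (p.1 + e p.2) ≠ c p.1

/-- indicator of a colour class -/
noncomputable def ind (c : ℂ → Fin 5) (i : Fin 5) (z : ℂ) : ℝ := if c z = i then 1 else 0

/-- proportion of colour `i` on the unit circle centred at `y` -/
noncomputable def G (c : ℂ → Fin 5) (i : Fin 5) (y : ℂ) : ℝ :=
  (1 / (2 * Real.pi)) * ∫ φ in (0 : ℝ)..(2 * Real.pi), ind c i (y + e φ)

/-- the unit circle centred at `y` misses colour `i` (a.e.); `i ∈ L_x(θ)` is `Free c i (x + e θ)` -/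
def Free (c : ℂ → Fin 5) (i : Fin 5) (y : ℂ) : Prop := ∀ᵐ φ : ℝ, c (y + e φ) ≠ i

/-- "generic points near `x`": neighbourhoods modulo null sets (used on `ℂ` and on `ℝ`) -/
noncomputable def nae {X : Type*} [TopologicalSpace X] [MeasureSpace X] (x : X) : Filter X :=
  𝓝 x ⊓ ae volume

/-- `S ∈ N(x)` -/
def NS (c : ℂ → Fin 5) (x : ℂ) (S : Finset (Fin 5)) : Prop :=
  ∀ ε : ℝ, 0 < ε → ∃ᶠ y in nae x, ∀ i ∈ S, G c i y < ε

/-- colour `i` is essentially present near `x` -/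
def Pres (c : ℂ → Fin 5) (x : ℂ) (i : Fin 5) : Prop := ∃ᶠ y in nae x, c y = i

/-- for generic `y → x` the circle about `y` avoids colour `i` on the set `A` of angles -/
def Avoid (c : ℂ → Fin 5) (x : ℂ) (i : Fin 5) (A : Set ℝ) : Prop := ∀ R : ℝ,
  Tendsto (fun y => volume {θ : ℝ | θ ∈ A ∧ |θ| ≤ R ∧ c (y + e θ) = i}) (nae x) (𝓝 0)

/-! ### Basic layer -/

/-- measurability and the link `G` / `Free` / arc measure -/
def BASIC : Prop := ∀ c : ℂ → Fin 5, Good c →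
  (∀ i, Measurable (G c i)) ∧ (∀ i, MeasurableSet {y | Free c i y}) ∧
  (∀ i y, 0 ≤ G c i y ∧ G c i y ≤ 1) ∧ (∀ i y, Free c i y ↔ G c i y = 0) ∧
  (∀ i y, volume {θ : ℝ | θ ∈ Per ∧ c (y + e θ) = i} = ENNReal.ofReal (2 * Real.pi * G c i y)) ∧
  (∀ᵐ z : ℂ, Free c (c z) z)

/-- circles centred on the unit circle about `x` sweep -/
def SW : Prop := ∀ c : ℂ → Fin 5, Good c → ∀ x : ℂ,
  ∀ᵐ z : ℂ, ∀ α : ℝ, ‖z - (x + e α)‖ = 1 → ¬ Free c (c z) (x + e α)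

/-- rule R1 -/
def AV1 : Prop := ∀ c : ℂ → Fin 5, Good c → ∀ x i, Avoid c x i {θ | ¬ Free c i (x + e θ)}

/-- rule R2 (both signs) -/
def AV2 : Prop := ∀ c : ℂ → Fin 5, Good c → ∀ x i,
  Avoid c x i {θ | Free c i (x + e (θ + Real.pi / 3))} ∧
  Avoid c x i {θ | Free c i (x + e (θ - Real.pi / 3))}

/-- rule R3 -/
def AV3 : Prop := ∀ c : ℂ → Fin 5, Good c → ∀ x x' i, ‖x' - x‖ = 1 →
  Avoid c x i {θ | Free c i (x' + e θ)}

/-- a set of angles on which every colour outside `S ∈ N(x)` is avoided is null -/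
def KEY : Prop := ∀ c : ℂ → Fin 5, Good c → ∀ x S (A : Fin 5 → Set ℝ), NS c x S →
  (∀ i, MeasurableSet (A i)) → (∀ i, i ∉ S → Avoid c x i (A i)) →
  ∀ᵐ θ : ℝ, ∃ i, i ∉ S ∧ θ ∉ A i

/-- API of `Avoid`: monotone (mod null sets), countable unions, local-to-global,
link with `G → 0`, and insertion into `N` -/
def AVAPI : Prop := ∀ c : ℂ → Fin 5, Good c → ∀ x i,
  (∀ A B : Set ℝ, Avoid c x i B → (∀ᵐ θ : ℝ, θ ∈ A → θ ∈ B) → Avoid c x i A) ∧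
  (∀ A : ℕ → Set ℝ, (∀ n, MeasurableSet (A n)) → (∀ n, Avoid c x i (A n)) →
    Avoid c x i (⋃ n, A n)) ∧
  (∀ A B : Set ℝ, Avoid c x i A → Avoid c x i B → Avoid c x i (A ∪ B)) ∧
  (∀ A : Set ℝ, MeasurableSet A →
    (∀ᵐ b : ℝ, b ∈ A → ∃ ε : ℝ, 0 < ε ∧ Avoid c x i (A ∩ Ioo (b - ε) (b + ε))) → Avoid c x i A) ∧
  (Avoid c x i univ ↔ Tendsto (G c i) (nae x) (𝓝 0)) ∧
  (Tendsto (G c i) (nae x) (𝓝 0) → ∀ S, NS c x S → NS c x (insert i S))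

/-- general sweeping rule along a continuous branch `A` -/
def RULE : Prop := ∀ c : ℂ → Fin 5, Good c → ∀ (x z : ℂ) (b₀ : ℝ) (A : ℝ → ℝ) (i : Fin 5),
  ContinuousAt A b₀ → (∀ᶠ b in 𝓝 b₀, ‖z + e b - x - e (A b)‖ = 1) →
  ((z + e b₀ - x - e (A b₀)) * (starRingEnd ℂ) (e (A b₀))).im ≠ 0 →
  ((z + e b₀ - x - e (A b₀)) * (starRingEnd ℂ) (e b₀)).im ≠ 0 →
  ∃ ε : ℝ, 0 < ε ∧ Avoid c z i {b | b ∈ Ioo (b₀ - ε) (b₀ + ε) ∧ Free c i (x + e (A b))}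

/-- `i ∈ V_x(θ)` relative to a finite set `T` of unit neighbours of `x` -/
def V (c : ℂ → Fin 5) (x : ℂ) (T : Finset ℂ) (θ : ℝ) (i : Fin 5) : Prop :=
  Free c i (x + e θ) ∧ ¬ Free c i (x + e (θ + Real.pi / 3)) ∧
    ¬ Free c i (x + e (θ - Real.pi / 3)) ∧ ∀ x' ∈ T, ¬ Free c i (x' + e θ)

/-- `S ∈ N(x)` forces `V_x(θ) ⊄ S` a.e. -/
def VRULE : Prop := ∀ c : ℂ → Fin 5, Good c → ∀ x S (T : Finset ℂ), (∀ x' ∈ T, ‖x' - x‖ = 1) →
  NS c x S → ∀ᵐ θ : ℝ, ∃ i, i ∉ S ∧ V c x T θ i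

/-- essential closure of `{L_x ⊇ S}` consists of points with `S ∈ N` -/
def NSL : Prop := ∀ c : ℂ → Fin 5, Good c → ∀ x S (θ₀ : ℝ),
  (∃ᶠ θ in nae θ₀, ∀ i ∈ S, Free c i (x + e θ)) → NS c (x + e θ₀) S

/-- colours near `x` in direction `α` avoid `L_x(α ± π/2)` -/
def FAN : Prop := ∀ c : ℂ → Fin 5, Good c → ∀ x i,
  Tendsto (fun t : ℝ => volume {α : ℝ | α ∈ Per ∧
    (Free c i (x + e (α + Real.pi / 2)) ∨ Free c i (x + e (α - Real.pi / 2))) ∧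
    c (x + t * e α) = i}) (nae 0) (𝓝 0)

/-- a monochromatic two-sided fan of colour `m` at `x` kills `G_m` near `x` -/
def CONE0 : Prop := ∀ c : ℂ → Fin 5, Good c → ∀ x m (D : Set ℝ), MeasurableSet D →
  volume (D ∩ Per) ≠ 0 →
  Tendsto (fun t : ℝ => volume {α : ℝ | α ∈ Per ∧ α ∈ D ∧ c (x + t * e α) ≠ m}) (nae 0) (𝓝 0) →
  Tendsto (G c m) (nae x) (𝓝 0)

/-- CONE: if antipodal `L`'s cover all colours but `m` on a non-null set, `m` joins every `S ∈ N(x)` -/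
def CONE : Prop := ∀ c : ℂ → Fin 5, Good c → ∀ x m,
  ¬ (∀ᵐ θ : ℝ, ¬ ∀ i, i ≠ m → Free c i (x + e θ) ∨ Free c i (x + e (θ + Real.pi))) →
  Tendsto (G c m) (nae x) (𝓝 0) ∧ ∀ S, NS c x S → NS c x (insert m S)

/-! ### Smoothness of `G` -/

/-- scale-uniform edge lemma (E) -/
def EDGE : Prop := ∀ ε κ : ℝ, 0 < ε → 0 < κ → ∃ δ : ℝ, 0 < δ ∧ ∀ c : ℂ → Fin 5, Good c →
  ∀ (z : ℂ) (r : ℝ) (X Y : Finset (Fin 5)), 0 < r → r ≤ 1 → Disjoint X Y →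
    volume {y | y ∈ Metric.ball z r ∧ c y ∉ X ∧ c y ∉ Y} ≤ ENNReal.ofReal (δ * r ^ 2) →
    ENNReal.ofReal (κ * r ^ 2) ≤ volume {y | y ∈ Metric.ball z r ∧ c y ∈ X} →
    ENNReal.ofReal (κ * r ^ 2) ≤ volume {y | y ∈ Metric.ball z r ∧ c y ∈ Y} →
    ∃ i ∈ X, ∃ j ∈ Y, volume {y | y ∈ Metric.ball z r ∧ G c i y < ε ∧ G c j y < ε} ≠ 0

/-- `‖τ_h G - G‖² = o(|h|)` on bounded sets -/
def OH : Prop := ∀ c : ℂ → Fin 5, Good c → ∀ i (R ε : ℝ), 0 < ε → ∃ h₀ : ℝ, 0 < h₀ ∧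
  ∀ h : ℂ, ‖h‖ ≤ h₀ → ∫ y in Metric.ball (0 : ℂ) R, (G c i (y + h) - G c i y) ^ 2 ≤ ε * ‖h‖

/-- no jump across a cut without `N(z)`-edge, on a.e. unit circle -/
def SLICE0 : Prop := ∀ c : ℂ → Fin 5, Good c → ∀ (z : ℂ) (X Y : Finset (Fin 5)), Disjoint X Y →
  (∀ i ∈ X, ∀ j ∈ Y, ¬ NS c z {i, j}) → ∃ δ : ℝ, 0 < δ ∧ ∀ᵐ y : ℂ, ∀ β₁ β₂ : ℝ,
    (∀ β ∈ Ioo β₁ β₂, y + e β ∈ Metric.ball z δ) →
    (∀ᵐ β : ℝ, β ∈ Ioo β₁ β₂ → c (y + e β) ∈ X ∨ c (y + e β) ∈ Y) →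
    (∀ᵐ β : ℝ, β ∈ Ioo β₁ β₂ → c (y + e β) ∈ X) ∨ (∀ᵐ β : ℝ, β ∈ Ioo β₁ β₂ → c (y + e β) ∈ Y)

/-- the same on a.e. unit circle through a fixed point `x` -/
def SLICE : Prop := ∀ c : ℂ → Fin 5, Good c → ∀ (x z : ℂ) (X Y : Finset (Fin 5)),
  z ≠ x → ‖z - x‖ < 2 → Disjoint X Y →
  (∀ i ∈ X, ∀ j ∈ Y, ¬ NS c z {i, j}) → ∃ δ : ℝ, 0 < δ ∧ ∀ᵐ α : ℝ, ∀ β₁ β₂ : ℝ,
    (∀ β ∈ Ioo β₁ β₂, x + e α + e β ∈ Metric.ball z δ) →
    (∀ᵐ β : ℝ, β ∈ Ioo β₁ β₂ → c (x + e α + e β) ∈ X ∨ c (x + e α + e β) ∈ Y) →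
    (∀ᵐ β : ℝ, β ∈ Ioo β₁ β₂ → c (x + e α + e β) ∈ X) ∨
      (∀ᵐ β : ℝ, β ∈ Ioo β₁ β₂ → c (x + e α + e β) ∈ Y)

/-- present colours are connected in `N(z)` -/
def CONN : Prop := ∀ c : ℂ → Fin 5, Good c → ∀ (z : ℂ) (χ : Fin 5 → ZMod 2),
  (∀ i j, Pres c z i → Pres c z j → i ≠ j → NS c z {i, j} → χ i = χ j) →
  ∀ i j, Pres c z i → Pres c z j → χ i = χ j

/-! ### Cycles and Part II -/

def TRI0 : Prop := ∀ c : ℂ → Fin 5, Good c → ∀ x,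
  NS c x {0, 1} → NS c x {1, 2} → NS c x {2, 0} → False

def CF0 : Prop := ∀ c : ℂ → Fin 5, Good c → ∀ x,
  NS c x {0, 1} → NS c x {1, 2} → NS c x {2, 3} → NS c x {3, 0} → False

def CV0 : Prop := ∀ c : ℂ → Fin 5, Good c → ∀ x,
  NS c x {0, 1} → NS c x {1, 2} → NS c x {2, 3} → NS c x {3, 4} → NS c x {4, 0} → False

/-- a graph on `Fin 5` without 3-, 4-, 5-cycles -/
def Acyc (Γ : Fin 5 → Fin 5 → Prop) : Prop := ∀ π : Equiv.Perm (Fin 5),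
  ¬ (Γ (π 0) (π 1) ∧ Γ (π 1) (π 2) ∧ Γ (π 2) (π 0)) ∧
  ¬ (Γ (π 0) (π 1) ∧ Γ (π 1) (π 2) ∧ Γ (π 2) (π 3) ∧ Γ (π 3) (π 0)) ∧
  ¬ (Γ (π 0) (π 1) ∧ Γ (π 1) (π 2) ∧ Γ (π 2) (π 3) ∧ Γ (π 3) (π 4) ∧ Γ (π 4) (π 0))

/-- side functions of a forest -/
def EX : Prop := ∀ Γ : Fin 5 → Fin 5 → Prop, (∀ i j, Γ i j → Γ j i) → Acyc Γ →
  ∀ a b : Fin 5, ∃ ψ : Fin 5 → ZMod 2, ∀ i j, i ≠ j → Γ i j →
    ψ i + ψ j = if (i = a ∧ j = b) ∨ (i = b ∧ j = a) then 1 else 0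

/-- two non-null sets in an open unit disc are both seen from a non-null set of circles -/
def MEET : Prop := ∀ (o : ℂ) (A B : Set ℂ), MeasurableSet A → MeasurableSet B →
  A ⊆ Metric.ball o 1 → B ⊆ Metric.ball o 1 → volume A ≠ 0 → volume B ≠ 0 →
  volume {w : ℂ | volume {θ : ℝ | w + e θ ∈ A} ≠ 0 ∧ volume {θ : ℝ | w + e θ ∈ B} ≠ 0} ≠ 0

/-- Part II -/
def PART2 : Prop := ∀ c : ℂ → Fin 5, Good c → (∀ x, Acyc fun i j => NS c x {i, j}) → False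

/-- the measurable theorem -/
def MEAS : Prop := ∀ c : ℂ → Fin 5, Good c → False

/-! ### Small API -/

theorem eventually_nae {X : Type*} [PseudoMetricSpace X] [MeasureSpace X] {x : X} {p : X → Prop} :
    (∀ᶠ y in nae x, p y) ↔ ∃ δ : ℝ, 0 < δ ∧ ∀ᵐ y : X, dist y x < δ → p y := by
  unfold nae
  rw [Filter.eventually_inf]
  constructor
  · rintro ⟨s, hs, t, ht, h⟩
    obtain ⟨δ, hδ, hb⟩ := Metric.mem_nhds_iff.1 hs
    refine ⟨δ, hδ, ?_⟩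
    filter_upwards [ht] with y hy hd
    exact h y ⟨hb hd, hy⟩
  · rintro ⟨δ, hδ, h⟩
    exact ⟨Metric.ball x δ, Metric.ball_mem_nhds x hδ, _, h, fun y hy => hy.2 hy.1⟩

theorem frequently_nae {X : Type*} [PseudoMetricSpace X] [MeasureSpace X] {x : X} {p : X → Prop} :
    (∃ᶠ y in nae x, p y) ↔ ∀ δ : ℝ, 0 < δ → volume {y | dist y x < δ ∧ p y} ≠ 0 := by
  unfold Filter.Frequently
  rw [eventually_nae]
  push Not
  refine forall_congr' fun δ => forall_congr' fun _ => ?_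
  rw [Filter.Frequently, not_iff_not, ae_iff]
  simp

theorem eventually_nae_of_ae {X : Type*} [TopologicalSpace X] [MeasureSpace X] {x : X}
    {p : X → Prop} (h : ∀ᵐ y : X, p y) : ∀ᶠ y in nae x, p y :=
  Filter.Eventually.filter_mono inf_le_right h

theorem eventually_nae_of_nhds {X : Type*} [TopologicalSpace X] [MeasureSpace X] {x : X}
    {p : X → Prop} (h : ∀ᶠ y in 𝓝 x, p y) : ∀ᶠ y in nae x, p y :=
  Filter.Eventually.filter_mono inf_le_left h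

theorem eventually_eventually_nae {X : Type*} [TopologicalSpace X] [MeasureSpace X] {x : X}
    {p : X → Prop} (h : ∀ᶠ y in nae x, p y) : ∀ᶠ x' in 𝓝 x, ∀ᶠ y in nae x', p y := by
  unfold nae at h ⊢
  rw [Filter.eventually_inf] at h
  obtain ⟨s, hs, t, ht, h⟩ := h
  filter_upwards [eventually_mem_nhds_iff.2 hs] with x' hx'
  rw [Filter.eventually_inf]
  exact ⟨s, hx', t, ht, h⟩

theorem nae_neBot {X : Type*} [PseudoMetricSpace X] [MeasureSpace X]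
    [(volume : Measure X).IsOpenPosMeasure] (x : X) : (nae x).NeBot := by
  rw [← Filter.frequently_true_iff_neBot, frequently_nae]
  intro δ hδ
  have : {y | dist y x < δ ∧ True} = Metric.ball x δ := by ext y; simp
  rw [this]
  exact (Metric.measure_ball_pos _ x hδ).ne'

theorem NS.mono {c : ℂ → Fin 5} {x : ℂ} {S S' : Finset (Fin 5)} (h : NS c x S) (hS : S' ⊆ S) :
    NS c x S' := fun ε hε => (h ε hε).mono fun _ hy i hi => hy i (hS hi)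

/-- upper semicontinuity of `N` -/
theorem not_NS_eventually {c : ℂ → Fin 5} {x : ℂ} {S : Finset (Fin 5)} (h : ¬ NS c x S) :
    ∀ᶠ x' in 𝓝 x, ¬ NS c x' S := by
  unfold NS at h ⊢
  push Not at h
  obtain ⟨ε, hε, h⟩ := h
  filter_upwards [eventually_eventually_nae h] with x' hx' hN
  exact hN ε hε (hx'.mono fun y hy hh => by
    obtain ⟨i, hi, hle⟩ := hy
    exact absurd (hh i hi) (not_lt.2 hle))

theorem not_Pres_eventually {c : ℂ → Fin 5} {x : ℂ} {i : Fin 5} (h : ¬ Pres c x i) :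
    ∀ᶠ x' in 𝓝 x, ¬ Pres c x' i := by
  unfold Pres at h ⊢
  rw [Filter.not_frequently] at h
  filter_upwards [eventually_eventually_nae h] with x' hx'
  rwa [Filter.not_frequently]

theorem Good.perm {c : ℂ → Fin 5} (hc : Good c) (π : Equiv.Perm (Fin 5)) :
    Good (fun z => π (c z)) :=
  ⟨(measurable_from_top (f := π)).comp hc.1, hc.2.mono fun _ hp h => hp (π.injective h)⟩

theorem G_perm (c : ℂ → Fin 5) (π : Equiv.Perm (Fin 5)) (i : Fin 5) :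
    G (fun z => π.symm (c z)) i = G c (π i) := by
  funext y
  simp only [G, ind, Equiv.symm_apply_eq]

theorem Free_perm (c : ℂ → Fin 5) (π : Equiv.Perm (Fin 5)) (i : Fin 5) (y : ℂ) :
    Free (fun z => π.symm (c z)) i y ↔ Free c (π i) y := by
  simp only [Free, ne_eq, Equiv.symm_apply_eq]

theorem NS_perm {c : ℂ → Fin 5} (π : Equiv.Perm (Fin 5)) {x : ℂ} {S : Finset (Fin 5)}
    (h : NS c x (S.image π)) : NS (fun z => π.symm (c z)) x S := fun ε hε =>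
  (h ε hε).mono fun _ hy i hi => by
    rw [G_perm]; exact hy _ (Finset.mem_image_of_mem _ hi)

theorem NS_perm_pair {c : ℂ → Fin 5} (π : Equiv.Perm (Fin 5)) {x : ℂ} {i j : Fin 5}
    (h : NS c x {π i, π j}) : NS (fun z => π.symm (c z)) x {i, j} :=
  NS_perm π (by simpa using h)

/-- final assembly of the measurable part -/
theorem meas_of (h3 : TRI0) (h4 : CF0) (h5 : CV0) (h2 : PART2) : MEAS := by
  intro c hc
  refine h2 c hc fun x π => ⟨?_, ?_, ?_⟩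
  · rintro ⟨a, b, d⟩
    exact h3 _ (hc.perm π.symm) x (NS_perm_pair π a) (NS_perm_pair π b) (NS_perm_pair π d)
  · rintro ⟨a, b, d, f⟩
    exact h4 _ (hc.perm π.symm) x (NS_perm_pair π a) (NS_perm_pair π b) (NS_perm_pair π d)
      (NS_perm_pair π f)
  · rintro ⟨a, b, d, f, g⟩
    exact h5 _ (hc.perm π.symm) x (NS_perm_pair π a) (NS_perm_pair π b) (NS_perm_pair π d)
      (NS_perm_pair π f) (NS_perm_pair π g)

end Crest.Agent.R40
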