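import Mathlib
import Crest.Agent.R40.MDefs
import Crest.Agent.R40.Avoid

/-! Row 40: the rules AV1, AV2, AV3. -/

set_option autoImplicit false

open MeasureTheory Filter Topology Set

namespace Crest.Agent.R40

theorem measurableSet_class {c : ℂ → Fin 5} (hc : Good c) (i : Fin 5) :
    MeasurableSet {z | c z = i} := hc.1 (measurableSet_singleton i)

/-- from the definition-free form to `Avoid` -/
theorem avoid_of_null {c : ℂ → Fin 5} {x : ℂ} {i : Fin 5} {E : Set ℝ}
    (h : ∀ R : ℝ, ∃ N : Set ℂ, volume N = 0 ∧ Tendsto (fun y : ℂ => volume {θ ∈ Icc (-R) R |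
      θ ∈ E ∧ y + e θ ∈ {z | c z = i} ∧ y + e θ ∉ N}) (𝓝 x) (𝓝 0)) : Avoid c x i E := by
  intro R
  obtain ⟨N, hN, hT⟩ := h R
  refine tendsto_of_tendsto_of_tendsto_of_le_of_le' tendsto_const_nhds (hT.mono_left inf_le_left)
    (Eventually.of_forall fun _ => zero_le) ?_
  filter_upwards [eventually_nae_of_ae (x := x) (ae_circle_notMem N hN)] with y hy
  refine measure_mono_ae ?_
  filter_upwards [hy] with θ hθ hmem
  exact ⟨abs_le.1 hmem.2.1, hmem.1, hmem.2.2, hθ⟩

theorem av1 (hB : BASIC) : AV1 := by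
  intro c hc x i R
  have hT := avoid_R1 (measurableSet_class hc i) x (S := Icc (-R) R) measurableSet_Icc
    measure_Icc_lt_top.ne
  refine tendsto_of_tendsto_of_tendsto_of_le_of_le' tendsto_const_nhds (hT.mono_left inf_le_left)
    (Eventually.of_forall fun _ => zero_le) ?_
  filter_upwards [eventually_nae_of_ae (x := x) (ae_circle_of_ae (hB c hc).2.2.2.2.2)] with y hy
  refine measure_mono_ae ?_
  filter_upwards [hy] with θ hθ hmem
  refine ⟨abs_le.1 hmem.2.1, ?_, hmem.1⟩
  have h1 : c (y + e θ) = i := hmem.2.2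
  have h2 : Free c (c (y + e θ)) (y + e θ) := hθ
  rw [h1] at h2
  exact h2

theorem av2' : AV2 := fun _ hc x i =>
  ⟨avoid_of_null fun _ => avoid_R2_add (measurableSet_class hc i) x isCompact_Icc,
    avoid_of_null fun _ => avoid_R2_sub (measurableSet_class hc i) x isCompact_Icc⟩

theorem av3' : AV3 := fun _ hc x x' i hx =>
  avoid_of_null fun _ => avoid_R3 (measurableSet_class hc i) x x'
    (by rw [norm_sub_rev]; exact hx) isCompact_Icc

theorem av2 (_ : BASIC) (_ : SW) : AV2 := av2'

theorem av3 (_ : BASIC) (_ : SW) : AV3 := av3'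

end Crest.Agent.R40
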