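import Crest.Agent.R40.MDefs

set_option autoImplicit false

namespace Crest.Agent.R40
open MeasureTheory Set Filter Topology

namespace AvApi

variable {c : ℂ → Fin 5} {x : ℂ} {i : Fin 5}

theorem mono {A B : Set ℝ} (hB : Avoid c x i B) (h : ∀ᵐ θ : ℝ, θ ∈ A → θ ∈ B) :
    Avoid c x i A := by
  intro R
  refine tendsto_of_tendsto_of_tendsto_of_le_of_le tendsto_const_nhds (hB R)
    (fun _ => zero_le) fun y => ?_
  refine measure_mono_ae ?_
  filter_upwards [h] with θ hθ hh
  exact ⟨hθ hh.1, hh.2⟩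

theorem empty : Avoid c x i ∅ := by
  intro R
  simpa using tendsto_const_nhds

theorem union {A B : Set ℝ} (hA : Avoid c x i A) (hB : Avoid c x i B) :
    Avoid c x i (A ∪ B) := by
  intro R
  have h := (hA R).add (hB R)
  rw [add_zero] at h
  refine tendsto_of_tendsto_of_tendsto_of_le_of_le tendsto_const_nhds h
    (fun _ => zero_le) fun y => ?_
  refine le_trans (measure_mono ?_) (measure_union_le _ _)
  rintro θ ⟨hθ | hθ, h2⟩
  · exact Or.inl ⟨hθ, h2⟩
  · exact Or.inr ⟨hθ, h2⟩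

theorem accum {A : ℕ → Set ℝ} (hA : ∀ n, Avoid c x i (A n)) (N : ℕ) :
    Avoid c x i (⋃ n ∈ Finset.range N, A n) := by
  induction N with
  | zero => simpa using empty
  | succ N ih =>
    rw [Finset.range_add_one, Finset.set_biUnion_insert]
    exact union (hA N) ih

theorem iUnion {A : ℕ → Set ℝ} (hm : ∀ n, MeasurableSet (A n)) (hA : ∀ n, Avoid c x i (A n)) :
    Avoid c x i (⋃ n, A n) := by
  intro R
  set B : ℕ → Set ℝ := fun N => ((⋃ n, A n) ∩ Icc (-R) R) \ ⋃ n ∈ Finset.range N, A n with hB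
  have hBm : ∀ N, NullMeasurableSet (B N) volume := fun N =>
    (((MeasurableSet.iUnion hm).inter measurableSet_Icc).diff
      (Finset.measurableSet_biUnion _ fun n _ => hm n)).nullMeasurableSet
  have hanti : Antitone B := by
    intro N M hNM θ hθ
    refine ⟨hθ.1, fun h => hθ.2 ?_⟩
    simp only [mem_iUnion, Finset.mem_range] at h ⊢
    obtain ⟨n, hn, h⟩ := h
    exact ⟨n, lt_of_lt_of_le hn hNM, h⟩
  have hfin : ∃ N, volume (B N) ≠ ⊤ := ⟨0, ne_top_of_le_ne_top
    (measure_Icc_lt_top (μ := volume) (a := -R) (b := R)).ne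
    (measure_mono fun θ hθ => hθ.1.2)⟩
  have hlim := tendsto_measure_iInter_atTop (μ := volume) hBm hanti hfin
  have hemp : ⋂ N, B N = ∅ := by
    ext θ
    simp only [mem_iInter, mem_empty_iff_false, iff_false]
    intro h
    obtain ⟨n, hn⟩ := mem_iUnion.1 (h 0).1.1
    refine (h (n + 1)).2 ?_
    simp only [mem_iUnion, Finset.mem_range]
    exact ⟨n, Nat.lt_succ_self n, hn⟩
  rw [hemp, measure_empty] at hlim
  rw [ENNReal.tendsto_nhds_zero]
  intro ε hε
  have hε2 : 0 < ε / 2 := ENNReal.half_pos hε.ne'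
  obtain ⟨N, hN⟩ := ((ENNReal.tendsto_nhds_zero.1 hlim) _ hε2).exists
  filter_upwards [(ENNReal.tendsto_nhds_zero.1 (accum hA N R)) _ hε2] with y hy
  calc volume {θ : ℝ | θ ∈ ⋃ n, A n ∧ |θ| ≤ R ∧ c (y + e θ) = i}
      ≤ volume (B N ∪ {θ : ℝ | θ ∈ ⋃ n ∈ Finset.range N, A n ∧ |θ| ≤ R ∧ c (y + e θ) = i}) := by
        refine measure_mono fun θ hθ => ?_
        by_cases h : θ ∈ ⋃ n ∈ Finset.range N, A n
        · exact Or.inr ⟨h, hθ.2⟩
        · exact Or.inl ⟨⟨hθ.1, abs_le.1 hθ.2.1⟩, h⟩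
    _ ≤ ε / 2 + ε / 2 := (measure_union_le _ _).trans (add_le_add hN hy)
    _ = ε := ENNReal.add_halves ε

theorem of_local {A : Set ℝ} (hm : MeasurableSet A)
    (h : ∀ᵐ b : ℝ, b ∈ A → ∃ ε : ℝ, 0 < ε ∧ Avoid c x i (A ∩ Ioo (b - ε) (b + ε))) :
    Avoid c x i A := by
  classical
  obtain ⟨f, hf⟩ := exists_surjective_nat (ℚ × ℚ)
  let B : ℕ → Set ℝ := fun n =>
    if Avoid c x i (A ∩ Ioo ((f n).1 : ℝ) (f n).2) then A ∩ Ioo ((f n).1 : ℝ) (f n).2 else ∅
  have hBm : ∀ n, MeasurableSet (B n) := fun n => by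
    simp only [B]; split_ifs
    · exact hm.inter measurableSet_Ioo
    · exact MeasurableSet.empty
  have hB : ∀ n, Avoid c x i (B n) := fun n => by
    simp only [B]; split_ifs with h
    · exact h
    · exact empty
  refine mono (iUnion hBm hB) ?_
  filter_upwards [h] with b hb hbA
  obtain ⟨ε, hε, hav⟩ := hb hbA
  obtain ⟨p, hp1, hp2⟩ := exists_rat_btwn (show b - ε < b by linarith)
  obtain ⟨q, hq1, hq2⟩ := exists_rat_btwn (show b < b + ε by linarith)
  obtain ⟨n, hn⟩ := hf (p, q)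
  have hav' : Avoid c x i (A ∩ Ioo ((f n).1 : ℝ) (f n).2) := by
    rw [hn]
    exact mono hav (Eventually.of_forall fun θ hθ =>
      ⟨hθ.1, lt_trans hp1 hθ.2.1, lt_trans hθ.2.2 hq2⟩)
  refine mem_iUnion.2 ⟨n, ?_⟩
  simp only [B, if_pos hav']
  rw [hn]
  exact ⟨hbA, hp2, hq1⟩

theorem vol_shift (y : ℂ) (n : ℤ) :
    volume {θ : ℝ | θ - n * (2 * Real.pi) ∈ Per ∧ c (y + e θ) = i}
      = volume {θ : ℝ | θ ∈ Per ∧ c (y + e θ) = i} := by
  rw [← measure_preimage_add_right volume (n * (2 * Real.pi))]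
  congr 1
  ext θ
  have : e (θ + n * (2 * Real.pi)) = e θ := (periodic_circleMap 0 1).int_mul n θ
  simp only [mem_preimage, mem_setOf_eq, this, add_sub_cancel_right]

theorem vol_le (y : ℂ) (R : ℝ) : ∃ k : ℕ, ∀ y : ℂ,
    volume {θ : ℝ | θ ∈ (univ : Set ℝ) ∧ |θ| ≤ R ∧ c (y + e θ) = i}
      ≤ k * volume {θ : ℝ | θ ∈ Per ∧ c (y + e θ) = i} := by
  obtain ⟨m, hm⟩ := exists_nat_ge (|R| + 1)
  refine ⟨(Finset.Icc (-(m : ℤ)) m).card, fun y => ?_⟩
  have hpi : 1 ≤ 2 * Real.pi := by linarith [Real.pi_gt_three]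
  calc volume {θ : ℝ | θ ∈ (univ : Set ℝ) ∧ |θ| ≤ R ∧ c (y + e θ) = i}
      ≤ volume (⋃ n ∈ Finset.Icc (-(m : ℤ)) m,
          {θ : ℝ | θ - n * (2 * Real.pi) ∈ Per ∧ c (y + e θ) = i}) := by
        refine measure_mono fun θ hθ => ?_
        obtain ⟨-, h1, h2⟩ := hθ
        simp only [mem_iUnion]
        have hp : 0 < 2 * Real.pi := by linarith
        set n := toIocDiv hp 0 θ with hn
        have hmem := sub_toIocDiv_zsmul_mem_Ioc hp 0 θ
        rw [← hn, zsmul_eq_mul, zero_add] at hmem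
        have hR : |θ| ≤ |R| := h1.trans (le_abs_self R)
        have hθ := abs_le.1 hR
        refine ⟨n, ?_, hmem, h2⟩
        rw [Finset.mem_Icc]
        constructor
        · have : (-(m : ℝ)) ≤ n := by
            by_contra hc
            push Not at hc
            have : (n + 1 : ℝ) * (2 * Real.pi) ≤ -|R| - 0 := by
              nlinarith [abs_nonneg R]
            have h3 : (n : ℝ) + 1 < -|R| := by linarith
            nlinarith [hmem.2, abs_nonneg R]
          exact_mod_cast this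
        · have : (n : ℝ) ≤ m := by
            by_contra hc
            push Not at hc
            nlinarith [hmem.1, abs_nonneg R]
          exact_mod_cast this
    _ ≤ ∑ n ∈ Finset.Icc (-(m : ℤ)) m,
          volume {θ : ℝ | θ - n * (2 * Real.pi) ∈ Per ∧ c (y + e θ) = i} :=
        measure_biUnion_finset_le _ _
    _ = _ := by simp only [vol_shift, Finset.sum_const, nsmul_eq_mul]

end AvApi

open AvApi in
theorem avapi (hB : BASIC) : AVAPI := by
  intro c hc x i
  obtain ⟨-, -, hG, -, hvol, -⟩ := hB c hc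
  refine ⟨fun A B h1 h2 => mono h1 h2, fun A h1 h2 => AvApi.iUnion h1 h2,
    fun A B h1 h2 => union h1 h2, fun A h1 h2 => of_local h1 h2, ⟨fun h => ?_, fun h R => ?_⟩,
    fun h S hS ε hε => ?_⟩
  · have hp : 0 < 2 * Real.pi := by linarith [Real.pi_pos]
    have h1 : Tendsto (fun y => ENNReal.ofReal (2 * Real.pi * G c i y)) (nae x) (𝓝 0) := by
      refine tendsto_of_tendsto_of_tendsto_of_le_of_le tendsto_const_nhds (h (2 * Real.pi))
        (fun _ => zero_le) fun y => ?_
      rw [← hvol i y]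
      refine measure_mono fun θ hθ => ⟨trivial, ?_, hθ.2⟩
      rw [abs_of_pos hθ.1.1]; exact hθ.1.2
    have h2 := (ENNReal.tendsto_toReal ENNReal.zero_ne_top).comp h1
    have h3 := h2.const_mul (1 / (2 * Real.pi))
    simp only [ENNReal.toReal_zero, mul_zero] at h3
    refine h3.congr fun y => ?_
    simp only [Function.comp]
    rw [ENNReal.toReal_ofReal (mul_nonneg hp.le (hG i y).1)]
    field_simp
  · obtain ⟨k, hk⟩ := vol_le (c := c) (i := i) x R
    have h1 : Tendsto (fun y => ENNReal.ofReal (k * (2 * Real.pi * G c i y))) (nae x) (𝓝 0) := by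
      have := ENNReal.tendsto_ofReal (((h.const_mul (2 * Real.pi))).const_mul (k : ℝ))
      simpa using this
    refine tendsto_of_tendsto_of_tendsto_of_le_of_le tendsto_const_nhds h1
      (fun _ => zero_le) fun y => ?_
    refine (hk y).trans (le_of_eq ?_)
    rw [hvol i y, ENNReal.ofReal_mul (Nat.cast_nonneg k), ENNReal.ofReal_natCast]
  · have h1 : ∀ᶠ y in nae x, G c i y < ε := h.eventually (gt_mem_nhds hε)
    refine ((hS ε hε).and_eventually h1).mono fun y hy j hj => ?_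
    rcases Finset.mem_insert.1 hj with rfl | hj
    · exact hy.2
    · exact hy.1 j hj

end Crest.Agent.R40
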