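import Crest.Agent.R40.MDefs

set_option autoImplicit false

namespace Crest.Agent.R40
open MeasureTheory Set Filter Topology

theorem continuous_e : Continuous e := continuous_circleMap 0 1

theorem e_periodic : Function.Periodic e (2 * Real.pi) := periodic_circleMap 0 1

theorem measurable_ind {c : ℂ → Fin 5} (hc : Measurable c) (i : Fin 5) :
    Measurable (ind c i) := by
  unfold ind
  exact Measurable.ite (hc (measurableSet_singleton i)) measurable_const measurable_const

/-- an a.e. statement on one period of a periodic property holds a.e. on the line -/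
theorem ae_of_ae_Per {p : ℝ → Prop} (hp : ∀ θ, p (θ + 2 * Real.pi) ↔ p θ)
    (h : ∀ᵐ θ : ℝ, θ ∈ Per → p θ) : ∀ᵐ θ : ℝ, p θ := by
  have hper : Function.Periodic p (2 * Real.pi) := fun θ => propext (hp θ)
  have h2 : ∀ n : ℤ, ∀ᵐ θ : ℝ, θ - n * (2 * Real.pi) ∈ Per → p θ := by
    intro n
    have := (measurePreserving_sub_right volume ((n : ℝ) * (2 * Real.pi))).quasiMeasurePreserving.ae h
    filter_upwards [this] with θ hθ hm
    have h3 := hθ hm
    rwa [hper.sub_int_mul_eq n] at h3
  rw [← ae_all_iff] at h2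
  filter_upwards [h2] with θ hθ
  have hpos : (0 : ℝ) < 2 * Real.pi := by positivity
  obtain ⟨n, hn, -⟩ := existsUnique_sub_zsmul_mem_Ioc hpos θ 0
  refine hθ n ?_
  simpa [zsmul_eq_mul] using hn

theorem measurable_colour_prod {c : ℂ → Fin 5} (hc : Measurable c) :
    Measurable fun p : ℂ × ℝ => c (p.1 + e p.2) :=
  hc.comp (continuous_fst.add (continuous_e.comp continuous_snd)).measurable

theorem measurable_colour_arc {c : ℂ → Fin 5} (hc : Measurable c) (y : ℂ) :
    Measurable fun θ : ℝ => c (y + e θ) :=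
  hc.comp (continuous_const.add continuous_e).measurable

theorem vol_arc_eq {c : ℂ → Fin 5} (hc : Measurable c) (i : Fin 5) (y : ℂ) :
    volume {θ : ℝ | θ ∈ Per ∧ c (y + e θ) = i} = ENNReal.ofReal (2 * Real.pi * G c i y) := by
  have hpos : (0 : ℝ) < 2 * Real.pi := by positivity
  have hS : MeasurableSet {θ : ℝ | c (y + e θ) = i} :=
    measurable_colour_arc hc y (measurableSet_singleton i)
  have h1 : (fun φ : ℝ => ind c i (y + e φ)) =
      Set.indicator {θ : ℝ | c (y + e θ) = i} (fun _ => (1 : ℝ)) := by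
    funext φ; simp [ind, Set.indicator]
  have h2 : 2 * Real.pi * G c i y = (volume {θ : ℝ | θ ∈ Per ∧ c (y + e θ) = i}).toReal := by
    unfold G
    rw [← mul_assoc, mul_one_div_cancel hpos.ne', one_mul, h1,
      intervalIntegral.integral_of_le hpos.le, integral_indicator hS]
    simp only [integral_const, smul_eq_mul, mul_one, Measure.real, MeasurableSet.univ,
      Measure.restrict_apply, univ_inter]
    rw [Measure.restrict_apply hS]
    congr 2
    ext θ; simp [and_comm]
  rw [h2, ENNReal.ofReal_toReal]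
  refine ne_top_of_le_ne_top (b := volume Per) measure_Ioc_lt_top.ne (measure_mono fun θ hθ => hθ.1)

theorem measurable_G {c : ℂ → Fin 5} (hc : Measurable c) (i : Fin 5) : Measurable (G c i) := by
  have hpos : (0 : ℝ) ≤ 2 * Real.pi := by positivity
  unfold G
  simp_rw [intervalIntegral.integral_of_le hpos]
  refine Measurable.const_mul ?_ _
  have hm : Measurable fun p : ℂ × ℝ => ind c i (p.1 + e p.2) :=
    (measurable_ind hc i).comp (continuous_fst.add (continuous_e.comp continuous_snd)).measurable
  exact (hm.stronglyMeasurable.integral_prod_right'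
    (ν := volume.restrict (Ioc 0 (2 * Real.pi)))).measurable

theorem G_nonneg (c : ℂ → Fin 5) (i : Fin 5) (y : ℂ) : 0 ≤ G c i y := by
  have hpos : (0 : ℝ) ≤ 2 * Real.pi := by positivity
  unfold G
  refine mul_nonneg (by positivity) (intervalIntegral.integral_nonneg hpos fun φ _ => ?_)
  unfold ind; split_ifs <;> norm_num

theorem G_le_one {c : ℂ → Fin 5} (hc : Measurable c) (i : Fin 5) (y : ℂ) : G c i y ≤ 1 := by
  have hpos : (0 : ℝ) < 2 * Real.pi := by positivity
  have h1 : ENNReal.ofReal (2 * Real.pi * G c i y) ≤ ENNReal.ofReal (2 * Real.pi) := by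
    rw [← vol_arc_eq hc]
    refine (measure_mono fun θ (hθ : θ ∈ Per ∧ _) => hθ.1).trans ?_
    simp
  rw [ENNReal.ofReal_le_ofReal_iff hpos.le] at h1
  nlinarith

theorem free_iff_G {c : ℂ → Fin 5} (hc : Measurable c) (i : Fin 5) (y : ℂ) :
    Free c i y ↔ G c i y = 0 := by
  have hpos : (0 : ℝ) < 2 * Real.pi := by positivity
  constructor
  · intro h
    have h0 : volume {θ : ℝ | θ ∈ Per ∧ c (y + e θ) = i} = 0 := by
      refine measure_mono_null (fun θ hθ => ?_) (ae_iff.1 h)
      simpa using hθ.2
    rw [vol_arc_eq hc, ENNReal.ofReal_eq_zero] at h0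
    have := G_nonneg c i y
    nlinarith
  · intro h
    have h0 := vol_arc_eq hc i y
    rw [h, mul_zero, ENNReal.ofReal_zero] at h0
    refine ae_of_ae_Per (fun θ => by rw [e_periodic θ]) ?_
    rw [ae_iff]
    refine measure_mono_null (fun θ hθ => ?_) h0
    simpa [and_assoc] using hθ

theorem measurableSet_free {c : ℂ → Fin 5} (hc : Measurable c) (i : Fin 5) :
    MeasurableSet {y | Free c i y} := by
  simp_rw [free_iff_G hc]
  exact measurable_G hc i (measurableSet_singleton 0)

theorem Good.ae_free {c : ℂ → Fin 5} (hc : Good c) : ∀ᵐ z : ℂ, Free c (c z) z := by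
  have h := hc.2
  rw [Measure.volume_eq_prod] at h
  exact Measure.ae_ae_of_ae_prod h

/-- the iterated a.e. form of properness gives `Good` -/
theorem good_of_ae_ae {c : ℂ → Fin 5} (hc : Measurable c)
    (h : ∀ᵐ z : ℂ, ∀ᵐ θ : ℝ, c (z + circleMap 0 1 θ) ≠ c z) : Good c := by
  refine ⟨hc, ?_⟩
  rw [Measure.volume_eq_prod]
  refine (Measure.ae_prod_iff_ae_ae ?_).2 h
  exact (measurableSet_eq_fun (measurable_colour_prod hc) (hc.comp measurable_fst)).compl

theorem basic : BASIC := fun _ hc =>
  ⟨measurable_G hc.1, measurableSet_free hc.1, fun i y => ⟨G_nonneg _ i y, G_le_one hc.1 i y⟩,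
    free_iff_G hc.1, vol_arc_eq hc.1, hc.ae_free⟩

end Crest.Agent.R40
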