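import Crest.Agent.R40.MDefs

/-! Row 40: KEY and VRULE. -/

set_option autoImplicit false

namespace Crest.Agent.R40
open MeasureTheory Set Filter Topology

theorem mkey_shift (f : ℝ → Prop) (k : ℤ) (hper : ∀ θ, f (θ + k * (2 * Real.pi)) ↔ f θ) :
    volume {θ : ℝ | θ ∈ Ioc ((k : ℝ) * (2 * Real.pi)) (k * (2 * Real.pi) + 2 * Real.pi) ∧ f θ} =
      volume {θ : ℝ | θ ∈ Per ∧ f θ} := by
  rw [← measure_preimage_add_right volume ((k : ℝ) * (2 * Real.pi))]
  congr 1
  ext θ
  simp only [mem_preimage, mem_setOf_eq, mem_Ioc, hper]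
  constructor
  · rintro ⟨⟨h1, h2⟩, h3⟩
    exact ⟨⟨by linarith, by linarith⟩, h3⟩
  · rintro ⟨⟨h1, h2⟩, h3⟩
    exact ⟨⟨by linarith, by linarith⟩, h3⟩

theorem key (hB : BASIC) : KEY := by
  intro c hc x S A hN hAm hAv
  by_contra hne
  obtain ⟨-, -, hG01, -, hvol, -⟩ := hB c hc
  set B : Set ℝ := {θ | ∀ i, i ∉ S → θ ∈ A i} with hBdef
  have hB0 : volume B ≠ 0 := by
    intro h0
    apply hne
    rw [ae_iff]
    convert h0 using 2
    ext θ
    simp [hBdef]
  have hpi : 0 < 2 * Real.pi := by positivity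
  -- a period window carrying positive mass of `B`
  obtain ⟨k, hk⟩ : ∃ k : ℤ, volume (B ∩ Ioc ((k : ℝ) * (2 * Real.pi))
      (k * (2 * Real.pi) + 2 * Real.pi)) ≠ 0 := by
    by_contra hall
    push Not at hall
    apply hB0
    have hcov : B ⊆ ⋃ k : ℤ, B ∩ Ioc ((k : ℝ) * (2 * Real.pi))
        (k * (2 * Real.pi) + 2 * Real.pi) := by
      intro θ hθ
      refine mem_iUnion.2 ⟨⌈θ / (2 * Real.pi)⌉ - 1, hθ, ?_, ?_⟩
      · have h1 := Int.ceil_lt_add_one (θ / (2 * Real.pi))
        have h2 : ((⌈θ / (2 * Real.pi)⌉ : ℝ) - 1) < θ / (2 * Real.pi) := by linarith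
        rw [lt_div_iff₀ hpi] at h2
        push_cast
        exact h2
      · have h1 := Int.le_ceil (θ / (2 * Real.pi))
        rw [div_le_iff₀ hpi] at h1
        push_cast
        linarith
    exact measure_mono_null hcov (measure_iUnion_null hall)
  set J : Set ℝ := Ioc ((k : ℝ) * (2 * Real.pi)) (k * (2 * Real.pi) + 2 * Real.pi) with hJ
  have hfin : volume (B ∩ J) ≠ ⊤ :=
    ne_top_of_le_ne_top (by rw [hJ, Real.volume_Ioc]; exact ENNReal.ofReal_ne_top)
      (measure_mono inter_subset_right)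
  set m : ℝ := (volume (B ∩ J)).toReal with hm
  have hm0 : 0 < m := ENNReal.toReal_pos hk hfin
  set R : ℝ := |(k : ℝ) * (2 * Real.pi)| + 2 * Real.pi with hR
  have hη : (0 : ENNReal) < ENNReal.ofReal (m / 6) := ENNReal.ofReal_pos.2 (by linarith)
  have hev : ∀ᶠ y in nae x, ∀ i, i ∉ S →
      volume {θ : ℝ | θ ∈ A i ∧ |θ| ≤ R ∧ c (y + e θ) = i} < ENNReal.ofReal (m / 6) := by
    rw [Filter.eventually_all]
    intro i
    by_cases hi : i ∈ S
    · exact Filter.Eventually.of_forall fun y h => absurd hi h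
    · exact ((hAv i hi R).eventually (gt_mem_nhds hη)).mono fun y hy _ => hy
  obtain ⟨y, hy1, hy2⟩ := ((hN (m / 6 / (2 * Real.pi)) (by positivity)).and_eventually hev).exists
  have hcov : B ∩ J ⊆ ⋃ i : Fin 5, {θ : ℝ | θ ∈ B ∩ J ∧ c (y + e θ) = i} := by
    intro θ hθ
    exact mem_iUnion.2 ⟨c (y + e θ), hθ, rfl⟩
  have hterm : ∀ i : Fin 5, volume {θ : ℝ | θ ∈ B ∩ J ∧ c (y + e θ) = i} ≤
      ENNReal.ofReal (m / 6) := by
    intro i
    by_cases hi : i ∈ S
    · have h1 : volume {θ : ℝ | θ ∈ B ∩ J ∧ c (y + e θ) = i} ≤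
          volume {θ : ℝ | θ ∈ J ∧ c (y + e θ) = i} :=
        measure_mono fun θ hθ => ⟨hθ.1.2, hθ.2⟩
      refine h1.trans ?_
      rw [hJ, mkey_shift (fun θ => c (y + e θ) = i) k (fun θ => by
        rw [show e (θ + k * (2 * Real.pi)) = e θ from (periodic_circleMap 0 1).int_mul k θ]),
        hvol i y]
      apply ENNReal.ofReal_le_ofReal
      have := hy1 i hi
      rw [lt_div_iff₀ hpi] at this
      linarith
    · refine le_trans (measure_mono ?_) (hy2 i hi).le
      rintro θ ⟨⟨hθB, hθJ⟩, hθc⟩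
      refine ⟨hθB i hi, ?_, hθc⟩
      rw [abs_le]
      have h1 := neg_abs_le ((k : ℝ) * (2 * Real.pi))
      have h2 := le_abs_self ((k : ℝ) * (2 * Real.pi))
      constructor
      · linarith [hθJ.1]
      · linarith [hθJ.2]
  have hle : volume (B ∩ J) ≤ ENNReal.ofReal (5 * (m / 6)) := by
    refine (measure_mono hcov).trans ((measure_iUnion_fintype_le _ _).trans ?_)
    refine (Finset.sum_le_sum fun i _ => hterm i).trans ?_
    rw [Finset.sum_const, Finset.card_univ, Fintype.card_fin, nsmul_eq_mul,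
      ENNReal.ofReal_mul (by norm_num)]
    simp
  have h2 : m ≤ 5 * (m / 6) := by
    rw [hm]
    exact ENNReal.toReal_le_of_le_ofReal (by positivity) hle
  linarith

theorem vrule (hB : BASIC) (hK : KEY) (h1 : AV1) (h2 : AV2) (h3 : AV3) (hA : AVAPI) : VRULE := by
  classical
  intro c hc x S T hT hN
  obtain ⟨-, hFm, -⟩ := hB c hc
  have hce : Continuous e := continuous_circleMap 0 1
  have hmeas : ∀ (i : Fin 5) (x' : ℂ) (a : ℝ),
      MeasurableSet {θ : ℝ | Free c i (x' + e (θ + a))} := by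
    intro i x' a
    have : Measurable fun θ : ℝ => x' + e (θ + a) := by fun_prop
    exact this (hFm i)
  have hmeas0 : ∀ (i : Fin 5) (x' : ℂ), MeasurableSet {θ : ℝ | Free c i (x' + e θ)} := by
    intro i x'
    simpa using hmeas i x' 0
  have hfin : ∀ (i : Fin 5) (T' : Finset ℂ), (∀ x' ∈ T', ‖x' - x‖ = 1) →
      Avoid c x i {θ : ℝ | ∃ x' ∈ T', Free c i (x' + e θ)} := by
    intro i T'
    induction T' using Finset.induction_on with
    | empty =>
      intro _
      exact (hA c hc x i).1 _ _ (h1 c hc x i) (Filter.Eventually.of_forall fun θ h => by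
        simp at h)
    | insert a s _ ih =>
      intro h
      refine (hA c hc x i).1 _ _ ((hA c hc x i).2.2.1 _ _
        (h3 c hc x a i (h a (Finset.mem_insert_self _ _)))
        (ih fun x' hx' => h x' (Finset.mem_insert_of_mem hx')))
        (Filter.Eventually.of_forall fun θ hθ => ?_)
      obtain ⟨x', hx', hf⟩ := hθ
      rcases Finset.mem_insert.1 hx' with rfl | hx'
      · exact Or.inl hf
      · exact Or.inr ⟨x', hx', hf⟩
  let A : Fin 5 → Set ℝ := fun i =>
    (({θ | ¬ Free c i (x + e θ)} ∪ {θ | Free c i (x + e (θ + Real.pi / 3))}) ∪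
      {θ | Free c i (x + e (θ - Real.pi / 3))}) ∪ {θ : ℝ | ∃ x' ∈ T, Free c i (x' + e θ)}
  have hAm : ∀ i, MeasurableSet (A i) := by
    intro i
    refine (((hmeas0 i x).compl.union (hmeas i x _)).union ?_).union ?_
    · simpa [sub_eq_add_neg] using hmeas i x (-(Real.pi / 3))
    · have : {θ : ℝ | ∃ x' ∈ T, Free c i (x' + e θ)} =
          ⋃ x' ∈ T, {θ : ℝ | Free c i (x' + e θ)} := by
        ext θ; simp
      rw [this]
      exact Finset.measurableSet_biUnion T fun x' _ => hmeas0 i x'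
  have hAv : ∀ i, i ∉ S → Avoid c x i (A i) := by
    intro i _
    have hU := (hA c hc x i).2.2.1
    exact hU _ _ (hU _ _ (hU _ _ (h1 c hc x i) (h2 c hc x i).1) (h2 c hc x i).2) (hfin i T hT)
  filter_upwards [hK c hc x S A hN hAm hAv] with θ hθ
  obtain ⟨i, hi, hθ⟩ := hθ
  refine ⟨i, hi, ?_⟩
  simp only [A, mem_union, mem_setOf_eq, not_or, not_not, not_exists, not_and] at hθ
  exact ⟨hθ.1.1.1, hθ.1.1.2, hθ.1.2, hθ.2⟩

end Crest.Agent.R40
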