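import Crest.Agent.R40.MDefs
import Crest.Agent.R40.Conv

/-! Row 40: essential closure of `{L ⊇ S}` consists of points with `S ∈ N`. -/

set_option autoImplicit false

namespace Crest.Agent.R40
open MeasureTheory Set Filter Topology

theorem nsl' : NSL := by
  classical
  intro c hc x S θ₀ hfr ε hε
  by_contra hne
  rw [Filter.not_frequently, eventually_nae] at hne
  obtain ⟨δ, hδ, hP⟩ := hne
  have hgood := ae_circle_of_ae hP
  have hd := Measure.dense_of_ae hgood
  obtain ⟨y, hy, hyx⟩ := mem_closure_iff_seq_limit.1 (hd x)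
  let f : ℂ → ℝ := fun z => if c z ∈ S then 1 else 0
  have hfm : Measurable f :=
    Measurable.ite (hc.1 (MeasurableSet.of_discrete (s := (S : Set (Fin 5))))) measurable_const
      measurable_const
  have hfb : ∀ z, |f z| ≤ 1 := fun z => by
    simp only [f]; split_ifs <;> simp
  obtain ⟨ms, hms, hae⟩ := exists_subseq_translate_ae_ball f hfm hfb y x hyx 2
  have hae2 := ae_ae_of_ae hae 0
  have hall : ∀ᵐ θ : ℝ, ∀ n, dist (y n + circleMap 0 1 θ) (x + e θ₀) < δ →
      ¬ ∀ i ∈ S, G c i (y n + circleMap 0 1 θ) < ε := ae_all_iff.2 fun n => hy n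
  have hcont : ∀ᶠ θ in 𝓝 θ₀, dist (x + e θ) (x + e θ₀) < δ := by
    have : Continuous fun θ => x + e θ := continuous_const.add (continuous_circleMap 0 1)
    exact this.continuousAt.eventually (Metric.ball_mem_nhds _ hδ)
  obtain ⟨θ, hfree, h2, h3, h4⟩ := (hfr.and_eventually ((eventually_nae_of_ae hae2).and
    ((eventually_nae_of_ae hall).and (eventually_nae_of_nhds hcont)))).exists
  have hlim : Tendsto (fun n => y (ms n) + e θ) atTop (𝓝 (x + e θ)) :=
    (hyx.comp hms.tendsto_atTop).add_const _
  have hnear : ∀ᶠ n in atTop, dist (y (ms n) + e θ) (x + e θ₀) < δ :=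
    (hlim.dist tendsto_const_nhds).eventually (gt_mem_nhds h4)
  have hfree' : ∀ᵐ φ : ℝ, ∀ i ∈ S, c (x + e θ + e φ) ≠ i :=
    (Finset.eventually_all S).2 hfree
  have hG : ∀ i ∈ S, ∀ᶠ n in atTop, G c i (y (ms n) + e θ) < ε := by
    intro i hi
    have hint : Tendsto (fun n => ∫ φ in (0 : ℝ)..(2 * Real.pi), ind c i (y (ms n) + e θ + e φ))
        atTop (𝓝 (∫ _φ in (0 : ℝ)..(2 * Real.pi), (0 : ℝ))) := by
      refine intervalIntegral.tendsto_integral_filter_of_dominated_convergence (fun _ => 1)
        (Eventually.of_forall fun n => ?_) (Eventually.of_forall fun n => ?_)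
        intervalIntegrable_const ?_
      · have hm : Measurable (ind c i) :=
          Measurable.ite (hc.1 (measurableSet_singleton i)) measurable_const measurable_const
        exact (hm.comp (continuous_const.add
          (continuous_circleMap 0 1)).measurable).aestronglyMeasurable
      · refine Eventually.of_forall fun φ _ => ?_
        simp only [ind]; split_ifs <;> simp
      · filter_upwards [h2, hfree'] with φ h5 h6 _
        have hn : ‖(0 : ℂ) + circleMap 0 1 θ + circleMap 0 1 φ‖ ≤ 2 := by
          rw [zero_add]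
          refine (norm_add_le _ _).trans ?_
          simp only [norm_circleMap_zero, abs_one]; norm_num
        have h7 := h5 hn
        have h8 : f (x + (0 + circleMap 0 1 θ + circleMap 0 1 φ)) = 0 := by
          simp only [f, zero_add, ← add_assoc]
          rw [if_neg]
          intro h; exact h6 _ h rfl
        rw [h8] at h7
        refine squeeze_zero (fun n => ?_) (fun n => ?_) h7
        · simp only [ind]; split_ifs <;> simp
        · simp only [ind, f, zero_add, ← add_assoc]
          by_cases h : c (y (ms n) + e θ + e φ) = i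
          · rw [if_pos h, if_pos (h ▸ hi)]
          · rw [if_neg h]; split_ifs <;> simp
    have h9 := hint.const_mul (1 / (2 * Real.pi))
    simp only [intervalIntegral.integral_zero, mul_zero] at h9
    exact h9.eventually (gt_mem_nhds hε)
  obtain ⟨n, hn1, hn2⟩ := (hnear.and ((Finset.eventually_all S).2 hG)).exists
  exact h3 (ms n) hn1 hn2

theorem nsl (_h : BASIC) : NSL := nsl'

end Crest.Agent.R40
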