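import Crest.Agent.R40.DD
import Crest.Agent.R40.MBasic
import Crest.Agent.R40.MKey
import Crest.Agent.R40.MAv
import Crest.Agent.R40.MAvApi
import Crest.Agent.R40.MNsl

/-! Row 40: consequences of Theorem D (no triple, `|L| ≤ 2`, triangle, 5-cycle). -/

set_option autoImplicit false

namespace Crest.Agent.R40
open MeasureTheory Set Filter Topology

theorem hKEY : KEY := key basic
theorem hAV1 : AV1 := av1 basic
theorem hAV2 : AV2 := av2'
theorem hAV3 : AV3 := av3'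
theorem hAVAPI : AVAPI := avapi basic
theorem hVRULE : VRULE := vrule basic hKEY hAV1 hAV2 hAV3 hAVAPI
theorem hNSL : NSL := nsl'

theorem exists_frequently_nae {X : Type*} [PseudoMetricSpace X] [MeasureSpace X]
    [SecondCountableTopology X] {p : X → Prop} (h : ¬ ∀ᵐ y : X, ¬ p y) :
    ∃ x₀, p x₀ ∧ ∃ᶠ y in nae x₀, p y := by
  by_contra hne
  push Not at hne
  apply h
  rw [ae_iff]
  refine measure_null_of_locally_null _ fun x hx => ?_
  have hx' : p x := by simpa using hx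
  obtain ⟨δ, hδ, hae⟩ := eventually_nae.1 (hne x hx')
  refine ⟨{y | ¬ ¬ p y} ∩ Metric.ball x δ,
    inter_mem_nhdsWithin _ (Metric.ball_mem_nhds x hδ), ?_⟩
  refine measure_mono_null (fun y hy => ?_) (ae_iff.1 hae)
  simp only [mem_ofPred_eq, Classical.not_imp]
  exact ⟨hy.2, hy.1⟩

theorem ae_add_shift {p : ℝ → Prop} (h : ∀ᵐ θ : ℝ, p θ) (a : ℝ) : ∀ᵐ θ : ℝ, p (θ + a) :=
  (measurePreserving_add_right volume a).quasiMeasurePreserving.ae h

theorem measurableSet_free_shift {c : ℂ → Fin 5} (hc : Good c) (i : Fin 5) (x : ℂ) (a : ℝ) :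
    MeasurableSet {θ : ℝ | Free c i (x + e (θ + a))} := by
  have : Measurable fun θ : ℝ => x + e (θ + a) :=
    (continuous_const.add (continuous_e.comp (continuous_id.add continuous_const))).measurable
  exact this (measurableSet_free hc.1 i)

theorem measurableSet_free_arc {c : ℂ → Fin 5} (hc : Good c) (i : Fin 5) (x : ℂ) :
    MeasurableSet {θ : ℝ | Free c i (x + e θ)} := by
  simpa using measurableSet_free_shift hc i x 0

theorem avoid_empty (c : ℂ → Fin 5) (x : ℂ) (i : Fin 5) : Avoid c x i ∅ := by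
  intro R
  simpa using tendsto_const_nhds

theorem two_off : ∀ i j k : Fin 5, i ≠ j → j ≠ k → i ≠ k → ∃ s t : Fin 5, s ≠ t ∧
    ∀ m : Fin 5, m ∉ ({i, j, k} : Finset (Fin 5)) → m = s ∨ m = t := by decide

/-- no triple in `N(x)` -/
theorem no_triple {c : ℂ → Fin 5} (hc : Good c) (hD : ThmD c) {x : ℂ} {i j k : Fin 5}
    (hij : i ≠ j) (hjk : j ≠ k) (hik : i ≠ k) : ¬ NS c x {i, j, k} := by
  classical
  intro hN
  obtain ⟨s, t, hst, hm⟩ := two_off i j k hij hjk hik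
  refine hD x s t ⟨hst, fun Es Et hs ht as at' => ?_⟩
  let A : Fin 5 → Set ℝ := fun m => if m = s then Es else if m = t then Et else ∅
  have hA : ∀ m, MeasurableSet (A m) := by
    intro m; simp only [A]; split_ifs
    exacts [hs, ht, MeasurableSet.empty]
  have hAv : ∀ m, Avoid c x m (A m) := by
    intro m; simp only [A]; split_ifs with h1 h2
    · exact h1 ▸ as
    · exact h2 ▸ at'
    · exact avoid_empty _ _ _
  filter_upwards [hKEY c hc x _ A hN hA fun m _ => hAv m] with θ ⟨m, hmS, hθ⟩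
  rcases hm m hmS with rfl | rfl
  · left; simpa [A] using hθ
  · right; simpa [A, hst.symm] using hθ

/-- `|L_x(θ)| ≤ 2` a.e. -/
theorem L_le_two {c : ℂ → Fin 5} (hc : Good c) (hD : ThmD c) (x : ℂ) :
    ∀ᵐ θ : ℝ, ∀ i j k : Fin 5, i ≠ j → j ≠ k → i ≠ k →
      ¬ (Free c i (x + e θ) ∧ Free c j (x + e θ) ∧ Free c k (x + e θ)) := by
  simp only [ae_all_iff]
  intro i j k hij hjk hik
  by_contra hne
  obtain ⟨θ₀, -, hf⟩ := exists_frequently_nae hne
  refine no_triple hc hD hij hjk hik (hNSL c hc x {i, j, k} θ₀ (hf.mono fun θ hθ m hm => ?_))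
  simp only [Finset.mem_insert, Finset.mem_singleton] at hm
  rcases hm with rfl | rfl | rfl
  exacts [hθ.1, hθ.2.1, hθ.2.2]

/-- a colour `m` with `G_m → 0` cannot be added to an edge not containing it -/
theorem not_cone_of_edge {c : ℂ → Fin 5} (hc : Good c) (hD : ThmD c) (hC : CONE) {x : ℂ}
    {m i j : Fin 5} (hmi : m ≠ i) (hij : i ≠ j) (hmj : m ≠ j) (hN : NS c x {i, j}) :
    ∀ᵐ θ : ℝ, ¬ ∀ k, k ≠ m → Free c k (x + e θ) ∨ Free c k (x + e (θ + Real.pi)) := by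
  by_contra hne
  exact no_triple hc hD hmi hij hmj ((hC c hc x m hne).2 _ hN)

theorem tri0_of (hD : THMDD) : TRI0 := by
  classical
  intro c hc x h01 h12 h20
  refine hD c hc x 3 4 ⟨by decide, fun Es Et hs ht as at' => ?_⟩
  let A : Fin 5 → Set ℝ := fun m =>
    {θ | ¬ Free c m (x + e θ)} ∪ if m = 3 then Es else if m = 4 then Et else ∅
  have hA : ∀ m, MeasurableSet (A m) := by
    intro m
    refine (measurableSet_free_arc hc m x).compl.union ?_
    split_ifs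
    exacts [hs, ht, MeasurableSet.empty]
  have hAv : ∀ m, Avoid c x m (A m) := by
    intro m
    refine (hAVAPI c hc x m).2.2.1 _ _ (hAV1 c hc x m) ?_
    split_ifs with h1 h2
    · exact h1 ▸ as
    · exact h2 ▸ at'
    · exact avoid_empty _ _ _
  filter_upwards [hKEY c hc x _ A h01 hA fun m _ => hAv m, hKEY c hc x _ A h12 hA fun m _ => hAv m,
    hKEY c hc x _ A h20 hA fun m _ => hAv m, L_le_two hc (show ThmD c from hD c hc) x]
    with θ ⟨m₁, h₁, k₁⟩ ⟨m₂, h₂, k₂⟩ ⟨m₃, h₃, k₃⟩ hL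
  by_contra hcon
  push Not at hcon
  have hx : ∀ m, θ ∉ A m → Free c m (x + e θ) ∧ m ≠ 3 ∧ m ≠ 4 := by
    intro m hm
    simp only [A, mem_union, mem_ofPred_eq, not_or, not_not] at hm
    refine ⟨hm.1, ?_, ?_⟩
    · rintro rfl; exact hm.2 (by simpa using hcon.1)
    · rintro rfl; exact hm.2 (by simpa using hcon.2)
  obtain ⟨f₁, a₁, b₁⟩ := hx _ k₁
  obtain ⟨f₂, a₂, b₂⟩ := hx _ k₂
  obtain ⟨f₃, a₃, b₃⟩ := hx _ k₃
  have e₁ : m₁ = 2 := (by decide : ∀ m : Fin 5, m ∉ ({0, 1} : Finset (Fin 5)) → m ≠ 3 → m ≠ 4 →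
    m = 2) _ h₁ a₁ b₁
  have e₂ : m₂ = 0 := (by decide : ∀ m : Fin 5, m ∉ ({1, 2} : Finset (Fin 5)) → m ≠ 3 → m ≠ 4 →
    m = 0) _ h₂ a₂ b₂
  have e₃ : m₃ = 1 := (by decide : ∀ m : Fin 5, m ∉ ({2, 0} : Finset (Fin 5)) → m ≠ 3 → m ≠ 4 →
    m = 1) _ h₃ a₃ b₃
  subst e₁ e₂ e₃
  exact hL 0 1 2 (by decide) (by decide) (by decide) ⟨f₂, f₃, f₁⟩

theorem c5_type' : ∀ v : Fin 5 → Bool,
    (∀ k : Fin 5, ∃ i, i ≠ k ∧ i ≠ k + 1 ∧ v i = true) →
    ∃ a : Fin 5, v a = true ∧ v (a + 2) = true := by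
  decide +kernel

theorem c5_type : ∀ v l : Fin 5 → Bool, (∀ i, v i = true → l i = true) →
    (∀ i j k : Fin 5, i ≠ j → j ≠ k → i ≠ k → ¬ (l i = true ∧ l j = true ∧ l k = true)) →
    (∀ k : Fin 5, ∃ i, i ≠ k ∧ i ≠ k + 1 ∧ v i = true) →
    ∃ a : Fin 5, v a = true ∧ v (a + 2) = true := fun v _ _ _ h => c5_type' v h

theorem c5_walk : ∀ a0 a1 a2 a3 a4 a5 : Fin 5,
    (a1 = a0 + 1 ∨ a1 = a0 + 4) → (a2 = a1 + 1 ∨ a2 = a1 + 4) → (a3 = a2 + 1 ∨ a3 = a2 + 4) →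
    (a4 = a3 + 1 ∨ a4 = a3 + 4) → (a5 = a4 + 1 ∨ a5 = a4 + 4) → (a0 = a5 + 1 ∨ a0 = a5 + 4) →
    (a3 = a0 + 1 ∨ a3 = a0 + 4) ∨ (a4 = a1 + 1 ∨ a4 = a1 + 4) ∨ (a5 = a2 + 1 ∨ a5 = a2 + 4) := by
  decide +kernel

theorem c5_step : ∀ a b : Fin 5, a ≠ b → a ≠ b + 2 → a + 2 ≠ b → a + 2 ≠ b + 2 →
    b = a + 1 ∨ b = a + 4 := by decide

theorem c5_cover : ∀ a b : Fin 5, (b = a + 1 ∨ b = a + 4) → ∃ m : Fin 5, ∀ k, k ≠ m →
    (k = a ∨ k = a + 2) ∨ (k = b ∨ k = b + 2) := by decide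

theorem cv0_of (hD : THMDD) (hC : CONE) : CV0 := by
  classical
  intro c hc x h01 h12 h23 h34 h40
  have hD' : ThmD c := hD c hc
  have hE : ∀ k : Fin 5, NS c x {k, k + 1} := by
    intro k; fin_cases k
    exacts [h01, h12, h23, h34, h40]
  have hV : ∀ᵐ θ : ℝ, ∃ a : Fin 5, V c x ∅ θ a ∧ V c x ∅ θ (a + 2) := by
    have h1 : ∀ᵐ θ : ℝ, ∀ k : Fin 5, ∃ i, i ∉ ({k, k + 1} : Finset (Fin 5)) ∧ V c x ∅ θ i :=
      ae_all_iff.2 fun k => hVRULE c hc x _ ∅ (by simp) (hE k)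
    filter_upwards [h1, L_le_two hc hD' x] with θ h1 h2
    obtain ⟨a, ha, hb⟩ := c5_type (fun i => decide (V c x ∅ θ i))
      (fun i => decide (Free c i (x + e θ))) (fun i hi => by
        simp only [decide_eq_true_eq] at hi ⊢; exact hi.1)
      (fun i j k hij hjk hik => by simpa using h2 i j k hij hjk hik)
      (fun k => by
        obtain ⟨i, hi, hv⟩ := h1 k
        simp only [Finset.mem_insert, Finset.mem_singleton, not_or] at hi
        exact ⟨i, hi.1, hi.2, by simpa using hv⟩)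
    exact ⟨a, by simpa using ha, by simpa using hb⟩
  have hcone : ∀ᵐ θ : ℝ, ∀ m : Fin 5,
      ¬ ∀ k, k ≠ m → Free c k (x + e θ) ∨ Free c k (x + e (θ + Real.pi)) := by
    refine ae_all_iff.2 fun m => ?_
    refine not_cone_of_edge hc hD' hC (i := m + 1) (j := m + 1 + 1) ?_ ?_ ?_ (hE _) <;>
      revert m <;> decide
  have key : ∀ᵐ θ : ℝ, False := by
    filter_upwards [hV, ae_add_shift hV (Real.pi / 3), ae_add_shift hV (2 * Real.pi / 3),
      ae_add_shift hV Real.pi, ae_add_shift hV (4 * Real.pi / 3),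
      ae_add_shift hV (5 * Real.pi / 3), hcone, ae_add_shift hcone (Real.pi / 3),
      ae_add_shift hcone (2 * Real.pi / 3)]
      with θ ⟨a0, p0, q0⟩ ⟨a1, p1, q1⟩ ⟨a2, p2, q2⟩ ⟨a3, p3, q3⟩ ⟨a4, p4, q4⟩ ⟨a5, p5, q5⟩
        c0 c1 c2
    have step : ∀ (t t' : ℝ) (a b : Fin 5), e t' = e (t + Real.pi / 3) →
        V c x ∅ t a → V c x ∅ t (a + 2) → V c x ∅ t' b → V c x ∅ t' (b + 2) →
        b = a + 1 ∨ b = a + 4 := by
      intro t t' a b ht pa qa pb qb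
      have fb := pb.1
      have fb' := qb.1
      rw [ht] at fb fb'
      refine c5_step a b ?_ ?_ ?_ ?_
      · rintro rfl; exact pa.2.1 fb
      · intro h; exact pa.2.1 (h ▸ fb')
      · intro h; exact qa.2.1 (h ▸ fb)
      · intro h; exact qa.2.1 (h ▸ fb')
    have fin : ∀ (t t' : ℝ) (a b : Fin 5), t' = t + Real.pi →
        V c x ∅ t a → V c x ∅ t (a + 2) → V c x ∅ t' b → V c x ∅ t' (b + 2) →
        (∀ m : Fin 5, ¬ ∀ k, k ≠ m → Free c k (x + e t) ∨ Free c k (x + e (t + Real.pi))) →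
        ¬ (b = a + 1 ∨ b = a + 4) := by
      intro t t' a b ht pa qa pb qb hcm hab
      subst ht
      obtain ⟨m, hm⟩ := c5_cover a b hab
      refine hcm m fun k hk => ?_
      rcases hm k hk with (rfl | rfl) | (rfl | rfl)
      exacts [Or.inl pa.1, Or.inl qa.1, Or.inr pb.1, Or.inr qb.1]
    have s0 := step _ _ _ _ rfl p0 q0 p1 q1
    have s1 := step _ _ _ _ (by congr 1; ring) p1 q1 p2 q2
    have s2 := step _ _ _ _ (by congr 1; ring) p2 q2 p3 q3
    have s3 := step _ _ _ _ (by congr 1; ring) p3 q3 p4 q4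
    have s4 := step _ _ _ _ (by congr 1; ring) p4 q4 p5 q5
    have s5 := step _ _ _ _ (by rw [← e_periodic θ]; congr 1; ring) p5 q5 p0 q0
    rcases c5_walk a0 a1 a2 a3 a4 a5 s0 s1 s2 s3 s4 s5 with h | h | h
    · exact fin _ _ _ _ rfl p0 q0 p3 q3 c0 h
    · exact fin _ _ _ _ (by ring) p1 q1 p4 q4 c1 h
    · exact fin _ _ _ _ (by ring) p2 q2 p5 q5 c2 h
  have : (ae (volume : Measure ℝ)).NeBot := ae_neBot.2 (NeZero.ne _)
  exact (key.exists).elim fun _ h => h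

end Crest.Agent.R40
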