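import Crest.Agent.R40.D2Defs

set_option autoImplicit false

namespace Crest.Agent.R40.D2
open MeasureTheory Set Filter Topology

theorem alt : ALT := by
  intro d hd x s t hD
  have h0 := hD.2
  have key : ∀ {s t : Fin 5}, (∀ᵐ θ : ℝ, d.W x θ s ∨ d.W x θ t) →
      ∀ᵐ θ : ℝ, d.W x θ s → ¬ d.L x θ t ∧ ¬ d.W x (θ + pp) s := by
    intro s t h
    filter_upwards [hd.a2 x s, ae_shift (hd.a1 x s) pp, ae_shift h pp,
      ae_shift (hd.a2 x t) pp] with θ b1 b2 b3 b4 hs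
    rw [add_sub_cancel_right] at b4
    have := (b1 hs).1
    tauto
  have k1 := key h0
  have k2 := key (h0.mono fun _ => Or.symm)
  refine ⟨⟨hd.mW x s, ?_⟩, ?_, k1.mono fun _ h hs => (h hs).1, k2.mono fun _ h hs => (h hs).1⟩
  · filter_upwards [k1, k2, h0, ae_shift h0 pp] with θ b1 b2 b3 b4
    show d.W x (θ + pp) s ↔ ¬ d.W x θ s
    tauto
  · filter_upwards [k1, h0, hd.a1 x t] with θ b1 b2 b3
    tauto

theorem two (h : TT2) : TWO := by
  intro d hd x s t u h1 h2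
  by_contra hne
  obtain ⟨a1, a2, -, -⟩ := alt d hd x s t h1
  obtain ⟨-, b2, -, -⟩ := alt d hd x s u h2
  have hc : 3 ≤ (({s} : Finset (Fin 5)) ∪ {t, u}).card := by
    have e1 := h1.1
    have e2 := h2.1
    have : ({s} : Finset (Fin 5)) ∪ {t, u} = {s, t, u} := by ext; simp; tauto
    rw [this, Finset.card_eq_three.2 ⟨s, t, u, e1, e2, hne, rfl⟩]
  have hB : ∀ᵐ θ : ℝ, θ ∉ {θ | d.W x θ s} → ∀ i ∈ ({t, u} : Finset (Fin 5)), d.L x θ i := by
    filter_upwards [a2, b2, hd.a1 x t, hd.a1 x u] with θ c1 c2 c3 c4 hθ i hi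
    simp only [Finset.mem_insert, Finset.mem_singleton] at hi
    rcases hi with rfl | rfl
    · exact c3 (c1.2 hθ)
    · exact c4 (c2.2 hθ)
  refine h d hd x {θ | d.W x θ s} univ {s} {t, u} {t, u} a1 MeasurableSet.univ (by simp) hc hc
    ?_ (hB.mono fun _ k a _ => k a) (hB.mono fun _ k a _ => k a)
  filter_upwards [hd.a1 x s] with θ c1 hθ i hi
  rw [Finset.mem_singleton.1 hi]
  exact c1 hθ

end Crest.Agent.R40.D2
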