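import Crest.Agent.R40.MDefs
import Crest.Agent.R40.TT

/-! Row 40, blow-up-free proof of THEOREM D: abstract layer, task statements.

`L x θ i` : colour `i` is unseen from `x + e θ`;  `W x θ i` : colour `i` is *actually* seen in
direction `θ` by circles about generic points near `x`;  `T z i` : `i` present near `z`;
`N z S` : `S ∈ N(z)`.  `∃ᶠ θ in nae a, P θ` : `a` lies in the essential support of `P`. -/

set_option autoImplicit false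

namespace Crest.Agent.R40
open MeasureTheory Set Filter Topology

namespace D2

/-- the hypothesis of THEOREM D, intrinsic form -/
def DD (c : ℂ → Fin 5) (x : ℂ) (s t : Fin 5) : Prop :=
  s ≠ t ∧ ∀ A B : Set ℝ, MeasurableSet A → MeasurableSet B → Avoid c x s A → Avoid c x t B →
    ∀ᵐ θ : ℝ, θ ∉ A ∨ θ ∉ B

/-- THEOREM D (definitionally `THMDD` of `DDefs.lean`) -/
def ThmD2 : Prop := ∀ c : ℂ → Fin 5, Good c → ∀ x s t, ¬ DD c x s t

/-- sixty degrees -/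
noncomputable abbrev pp : ℝ := Real.pi / 3

/-- paths in the graph `n` inside the vertex set `U` -/
def Reach (n : Finset (Fin 5) → Prop) (U : Fin 5 → Prop) : Fin 5 → Fin 5 → Prop :=
  Relation.ReflTransGen fun s t => U s ∧ U t ∧ n {s, t}

/-- the data of the abstract layer -/
structure Dat where
  L : ℂ → ℝ → Fin 5 → Prop
  W : ℂ → ℝ → Fin 5 → Prop
  T : ℂ → Fin 5 → Prop
  N : ℂ → Finset (Fin 5) → Prop

/-- rectangle axiom -/
def A8 (d : Dat) : Prop := ∀ (x : ℂ) (a b : ℝ) (i j : Fin 5) (P : ℝ → Prop),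
  Real.sin (a - b) ≠ 0 → d.T (x + e a + e b) i → d.T (x + e a + e b) j → (∀ᵐ θ : ℝ, P θ) →
  ∃ (α β : ℝ) (k : Fin 5), P α ∧ P β ∧ ¬ d.L x β i ∧ ¬ d.L x α j ∧ ¬ d.L x α k ∧ ¬ d.L x β k ∧
    Reach (d.N (x + e a + e b)) (fun m => d.T (x + e a + e b) m ∧ ¬ d.L x β m) i k ∧
    Reach (d.N (x + e a + e b)) (fun m => d.T (x + e a + e b) m ∧ ¬ d.L x α m) k j

/-- triangle trick axiom -/
def A10 (d : Dat) : Prop := ∀ (x : ℂ) (E F : Set ℝ) (A B : Finset (Fin 5)),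
  MeasurableSet E → MeasurableSet F →
  (∀ᵐ u : ℝ, u ∈ E → u + 2 * Real.pi / 3 ∈ E) → (∀ᵐ u : ℝ, u ∈ F → u + 2 * Real.pi / 3 ∈ F) →
  3 ≤ (A ∪ B).card → (∀ᵐ α : ℝ, α ∈ E → ∀ i ∈ A, d.L x α i) →
  (∀ᵐ β : ℝ, β ∈ F → ∀ i ∈ B, d.L x (β + Real.pi) i) →
  ∀ᵐ u : ℝ, ¬ (u ∈ E ∧ u + rho ∈ F)

/-- the axioms of the abstract layer -/
structure Ax (d : Dat) : Prop where
  mL : ∀ x i, MeasurableSet {θ | d.L x θ i}
  mW : ∀ x i, MeasurableSet {θ | d.W x θ i}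
  pL : ∀ x θ i, d.L x (θ + 2 * Real.pi) i ↔ d.L x θ i
  pW : ∀ x θ i, d.W x (θ + 2 * Real.pi) i ↔ d.W x θ i
  a1 : ∀ x i, ∀ᵐ θ : ℝ, d.W x θ i → d.L x θ i
  a2 : ∀ x i, ∀ᵐ θ : ℝ, d.W x θ i → ¬ d.L x (θ + pp) i ∧ ¬ d.L x (θ - pp) i
  a3 : ∀ x x' i, ‖x' - x‖ = 1 → ∀ᵐ θ : ℝ, d.W x θ i → ¬ d.L x' θ i
  a4 : ∀ x S, d.N x S → ∀ᵐ θ : ℝ, ∃ i, i ∉ S ∧ d.W x θ i
  a5 : ∀ x i a, (∃ᶠ θ in nae a, d.W x θ i) → d.T (x + e a) i
  a6 : ∀ x (S : Finset (Fin 5)) a, (∃ᶠ θ in nae a, ∀ i ∈ S, d.L x θ i) → d.N (x + e a) S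
  a7 : ∀ x i a b, Real.sin (a - b) ≠ 0 → d.T (x + e a + e b) i → ∃ᶠ θ in nae a, ¬ d.L x θ i
  a8 : A8 d
  a9 : ∀ x m, ¬ (∀ᵐ θ : ℝ, ¬ ∀ i, i ≠ m → d.L x θ i ∨ d.L x (θ + Real.pi) i) →
    ∀ᵐ θ : ℝ, ¬ d.W x θ m
  a10 : A10 d

/-- abstract form of the hypothesis of THEOREM D -/
def D (d : Dat) (x : ℂ) (s t : Fin 5) : Prop := s ≠ t ∧ ∀ᵐ θ : ℝ, d.W x θ s ∨ d.W x θ t

/-- non-constancy points -/
def NC (d : Dat) (x : ℂ) (s t : Fin 5) (a : ℝ) : Prop :=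
  (∃ᶠ θ in nae a, d.W x θ s) ∧ (∃ᶠ θ in nae a, d.W x θ t)

/-- `E` is a measurable set with `E + π/3 = Eᶜ` a.e. -/
def Anti (E : Set ℝ) : Prop := MeasurableSet E ∧ ∀ᵐ θ : ℝ, θ + pp ∈ E ↔ θ ∉ E

/-! ### Abstract tasks (no colouring, no analysis: a.e. bookkeeping + finite combinatorics) -/

/-- alternation.  `W s θ ⇒ ¬L s (θ±p) ⇒ ¬W s (θ±p) ⇒ W t (θ±p) ⇒ ¬L t θ`. -/
def ALT : Prop := ∀ d, Ax d → ∀ x s t, D d x s t →
  Anti {θ | d.W x θ s} ∧ (∀ᵐ θ : ℝ, d.W x θ t ↔ ¬ d.W x θ s) ∧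
  (∀ᵐ θ : ℝ, d.W x θ s → ¬ d.L x θ t) ∧ (∀ᵐ θ : ℝ, d.W x θ t → ¬ d.L x θ s)

/-- non-constancy points exist (ℝ is connected, essential supports are closed, cover, non-empty)
and are invariant under `± π/3` -/
def NCX : Prop := ∀ d, Ax d → ∀ x s t, D d x s t →
  (∃ a, NC d x s t a) ∧ ∀ a, NC d x s t a → NC d x s t (a + pp) ∧ NC d x s t (a - pp)

/-- triangle trick with ergodicity.  `a10` with `E = X`, `F = X ∩ {β | β+π ∈ Y}` resp.
`X ∩ {β | β+π ∉ Y}` gives `¬(u ∈ X ∧ u+ρ ∈ X)` a.e.; apply it at `u+π`; `not_flip`. -/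
def TT2 : Prop := ∀ d, Ax d → ∀ (x : ℂ) (X Y : Set ℝ) (A B₁ B₂ : Finset (Fin 5)),
  Anti X → MeasurableSet Y → (∀ᵐ θ : ℝ, θ + 2 * Real.pi / 3 ∈ Y ↔ θ ∈ Y) →
  3 ≤ (A ∪ B₁).card → 3 ≤ (A ∪ B₂).card →
  (∀ᵐ θ : ℝ, θ ∈ X → ∀ i ∈ A, d.L x θ i) →
  (∀ᵐ θ : ℝ, θ ∉ X → θ ∈ Y → ∀ i ∈ B₁, d.L x θ i) →
  (∀ᵐ θ : ℝ, θ ∉ X → θ ∉ Y → ∀ i ∈ B₂, d.L x θ i) → False

/-- pure graph lemma: a walk `t ⇝ k` avoiding `s` followed by `k ⇝ s` avoiding `t` contains a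
simple path from `t` to `s` of length 2, 3 or 4 -/
def PATH : Prop := ∀ (n : Finset (Fin 5) → Prop) (U U' V : Fin 5 → Prop) (s t k : Fin 5),
  s ≠ t → (∀ m, U m → V m) → (∀ m, U' m → V m) → ¬ U s → ¬ U' t → k ≠ s → k ≠ t →
  Reach n U t k → Reach n U' k s →
  (∃ c, c ≠ s ∧ c ≠ t ∧ V c ∧ n {t, c} ∧ n {c, s}) ∨
  (∃ u v, [s, t, u, v].Nodup ∧ n {t, u} ∧ n {u, v} ∧ n {v, s}) ∨
  (∃ u v w, [s, t, u, v, w].Nodup ∧ n {t, u} ∧ n {u, v} ∧ n {v, w} ∧ n {w, s})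

/-- no path of length 3.  `r` = fifth colour, `R = {W y · r}`.  Off `R`: `W ∋ t,v` on `E`,
`W ∋ s,u` on `Eᶜ` (`a4` for the three edges).  If `{θ ∉ R, θ+π ∉ R}` is not null: `a9` kills
`r`, `TT2` with `X = E`, `A={t,v}`, `B={s,u}`.  Else a.e. `θ ∈ R ∨ θ+π ∈ R`, and `a1,a2` say
no two 60°-neighbours in `R`, so `Anti R`; `TT2` with `X=R`, `Y=E`, `A={r}`, `B₁={t,v}`,
`B₂={s,u}`. -/
def ST3 : Prop := ∀ d, Ax d → ∀ (y : ℂ) (E : Set ℝ) (s t u v : Fin 5), [s, t, u, v].Nodup →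
  Anti E → (∀ᵐ θ : ℝ, θ ∈ E → ¬ d.W y θ s) → (∀ᵐ θ : ℝ, θ ∉ E → ¬ d.W y θ t) →
  d.N y {t, u} → d.N y {u, v} → d.N y {v, s} → False

/-- no path of length 4.  On `E`, `W` contains `tv`, `tw` or `uw`; on `Eᶜ` it contains `su`, `sv`
or `uw` (`a4` for the four edges); 60°-neighbours have disjoint `W` (`a1,a2`); the disjointness
graph is the path `uw' - tv - su - tw - sv - uw`, so in a.e. hexagon `θ + kπ/3` some antipodal
pair has disjoint types, i.e. `L ∪ L(·+π) ⊇` all colours but some `m`; `a9` kills that `m`; then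
exactly one type `P` on `E` and one type `Q` on `Eᶜ` remain
(`m=s: tv|uw, m=w: tv|su, m=v: tw|su, m=u: tw|sv, m=t: uw|sv`); `TT2` with `X=E,A=P,B=Q`. -/
def ST4 : Prop := ∀ d, Ax d → ∀ (y : ℂ) (E : Set ℝ) (s t u v w : Fin 5), [s, t, u, v, w].Nodup →
  Anti E → (∀ᵐ θ : ℝ, θ ∈ E → ¬ d.W y θ s) → (∀ᵐ θ : ℝ, θ ∉ E → ¬ d.W y θ t) →
  d.N y {t, u} → d.N y {u, v} → d.N y {v, w} → d.N y {w, s} → False

/-- STEP.  `y = x + e a = x + e (a-p) + e (a+p)`; `s,t ∈ T y` by `a5`; `a8` with `i=t`, `j=s`,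
`P θ = (W s ∨ W t) ∧ (W s → L s) ∧ (W t → L t)`: `L x β s`, `L x α t`; `PATH`; `E={W x · s}`,
`a1`+`a3` give that `W y` avoids `s` on `E`, `t` off `E`; `ST3`, `ST4`; length 2: `a4` for
`{t,c}` on `E` and `{c,s}` off `E`. -/
def STEP : Prop := ∀ d, Ax d → ∀ x s t a, D d x s t → NC d x s t a →
  ∃ c u v, [s, t, c, u, v].Nodup ∧ d.T (x + e a) s ∧ d.T (x + e a) t ∧ d.T (x + e a) c ∧
    D d (x + e a) u v

/-- reciprocity.  `q + e b = q + e (b-p) + e (b+p)`, `a7`, `ALT`, shift by `p`. -/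
def RECIP : Prop := ∀ d, Ax d → ∀ q s t b, D d q s t → d.T (q + e b) s → d.T (q + e b) t →
  NC d q s t b

/-- two `D`'s sharing one colour: `TT2` with `X={W s}`, `A={s}`, `B={t,u}`. -/
def TWO : Prop := ∀ d, Ax d → ∀ x s t u, D d x s t → D d x s u → t = u

/-- two disjoint `D`'s have no common non-constancy point.  Types `P1=su,P2=tv,P3=sv,P4=tu`,
`m` fifth colour.  If `a` is in the supports of `P1` and `P2`, then `a` and `a+p` are in the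
support of `P1`; `a6` gives `N z {s,u}` for `z=x+e a`, `z'=x+e(a+p)`; on `P2` (non-null) `a4,a3,a1`
force `W z θ m` and `W z' θ m`, against `a3` for `z,z'` (`‖z-z'‖=1`).  Same for `P3,P4`
(swap `u,v`).  Then a finite case check. -/
def NPB : Prop := ∀ d, Ax d → ∀ x s t u v a, [s, t, u, v].Nodup → D d x s t → D d x u v →
  NC d x s t a → NC d x u v a → False

/-- transfer between unit neighbours: `W x u ⇒ L x u ⇒ ¬W q u ⇒ W q w`; shift by `p` and `ALT`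
give `W x v ⇒ W q u`. -/
def TRANS : Prop := ∀ d, Ax d → ∀ x q u v w a, ‖q - x‖ = 1 → D d x u v → D d q u w →
  NC d x u v a → NC d q u w a

/-- the abstract THEOREM D -/
def END : Prop := ∀ d, Ax d → ∀ x s t, ¬ D d x s t

/-! ### Instance tasks -/

/-- an a.e.-maximal, measurable, periodic avoided set -/
def IsMax (c : ℂ → Fin 5) (x : ℂ) (i : Fin 5) (M : Set ℝ) : Prop :=
  MeasurableSet M ∧ (∀ θ, θ + 2 * Real.pi ∈ M ↔ θ ∈ M) ∧ Avoid c x i M ∧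
    ∀ A : Set ℝ, MeasurableSet A → Avoid c x i A → ∀ᵐ θ : ℝ, θ ∈ A → θ ∈ M

/-- existence (exhaustion for a finite measure equivalent to Lebesgue + `AVAPI` countable unions;
`Avoid` is invariant under `± 2π`, so the union of all shifts is again maximal) -/
def EMAX : Prop := ∀ c : ℂ → Fin 5, Good c → ∀ x i, ∃ M, IsMax c x i M

/-- the concrete data -/
def dat (c : ℂ → Fin 5) (M : ℂ → Fin 5 → Set ℝ) : Dat where
  L x θ i := Free c i (x + e θ)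
  W x θ i := θ ∉ M x i
  T := Pres c
  N := NS c

/-- `a5`: an absent colour near `x + e a` is avoided on an interval about `a` -/
def I5 : Prop := ∀ c : ℂ → Fin 5, Good c → ∀ x i (a : ℝ), ¬ Pres c (x + e a) i →
  ∃ δ : ℝ, 0 < δ ∧ Avoid c x i (Ioo (a - δ) (a + δ))

/-- local form: `(α,β) ↦ x + e α + e β` is open at `(a,b)` and maps null sets to null sets
(see `exists_local_inv`, `exists_vol_image_le` in `TT.lean`) -/
def LOC : Prop := ∀ c : ℂ → Fin 5, Good c → ∀ x i (a b δ : ℝ), Real.sin (a - b) ≠ 0 → 0 < δ →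
  Pres c (x + e a + e b) i →
  ¬ ∀ᵐ α : ℝ, α ∈ Ioo (a - δ) (a + δ) → ∀ᵐ β : ℝ, β ∈ Ioo (b - δ) (b + δ) →
    c (x + e α + e β) ≠ i

/-- `a7`, immediate from `LOC` -/
def I7 : Prop := ∀ c : ℂ → Fin 5, Good c → ∀ x i (a b : ℝ), Real.sin (a - b) ≠ 0 →
  Pres c (x + e a + e b) i → ∃ᶠ θ in nae a, ¬ Free c i (x + e θ)

/-- `a8`: small rectangle `I × J` about `(a,b)` mapped into the `SLICE` balls of all cuts and where
absent colours are null; rows meeting colour `i` and columns meeting colour `j` are non-null; a.e.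
cell has a colour `k` seen with positive measure on its row and column; on a good row the colours
seen are `N`-connected (cut = reachable set | rest). -/
def I8 : Prop := ∀ c : ℂ → Fin 5, Good c → ∀ M, A8 (dat c M)

/-- `a10` from `tt` with `S = (A ∪ B)ᶜ` -/
def I10 : Prop := ∀ c : ℂ → Fin 5, Good c → ∀ M, A10 (dat c M)

/-- all axioms for the concrete data -/
def INST : Prop := ∀ c : ℂ → Fin 5, Good c → ∀ M : ℂ → Fin 5 → Set ℝ,
  (∀ x i, IsMax c x i (M x i)) → Ax (dat c M)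

theorem D.symm {d : Dat} {x : ℂ} {s t : Fin 5} (h : D d x s t) : D d x t s :=
  ⟨h.1.symm, h.2.mono fun _ => Or.symm⟩

theorem NC.symm {d : Dat} {x : ℂ} {s t : Fin 5} {a : ℝ} (h : NC d x s t a) : NC d x t s a :=
  ⟨h.2, h.1⟩

/-- essential supports are monotone modulo null sets -/
theorem freq_mono {P Q : ℝ → Prop} {a : ℝ} (h : ∃ᶠ θ in nae a, P θ) (hq : ∀ᵐ θ : ℝ, P θ → Q θ) :
    ∃ᶠ θ in nae a, Q θ := h.mp (eventually_nae_of_ae hq)

/-- essential supports shift -/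
theorem freq_shift {P : ℝ → Prop} {a : ℝ} (t : ℝ) :
    (∃ᶠ θ in nae (a + t), P θ) ↔ ∃ᶠ θ in nae a, P (θ + t) := by
  simp only [frequently_nae]
  refine forall_congr' fun δ => forall_congr' fun _ => ?_
  have : {y : ℝ | dist y a < δ ∧ P (y + t)} =
      (fun y => y + t) ⁻¹' {y : ℝ | dist y (a + t) < δ ∧ P y} := by
    ext y; simp
  rw [this, measure_preimage_add_right]

theorem not_ae_of_freq {P : ℝ → Prop} {a : ℝ} (h : ∃ᶠ θ in nae a, P θ) : ¬ ∀ᵐ θ : ℝ, ¬ P θ :=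
  fun h' => h (eventually_nae_of_ae h')

theorem e_split (a : ℝ) : e a = e (a - pp) + e (a + pp) := by
  simp only [circleMap, zero_add, Complex.ofReal_one, one_mul]
  have h : Complex.exp (-(pp : ℂ) * Complex.I) + Complex.exp ((pp : ℂ) * Complex.I) = 1 := by
    have := Complex.two_cos (pp : ℂ)
    rw [← Complex.ofReal_cos, Real.cos_pi_div_three] at this
    rw [add_comm, ← this]; push_cast; ring
  have h1 : Complex.exp (((a - pp : ℝ) : ℂ) * Complex.I) =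
      Complex.exp (a * Complex.I) * Complex.exp (-(pp : ℂ) * Complex.I) := by
    rw [← Complex.exp_add]; congr 1; push_cast; ring
  have h2 : Complex.exp (((a + pp : ℝ) : ℂ) * Complex.I) =
      Complex.exp (a * Complex.I) * Complex.exp ((pp : ℂ) * Complex.I) := by
    rw [← Complex.exp_add]; congr 1; push_cast; ring
  rw [h1, h2, ← mul_add, h, mul_one]

theorem norm_e (a : ℝ) : ‖e a‖ = 1 := by simp

/-- final assembly -/
theorem thmD2_of (h1 : EMAX) (h2 : INST) (h3 : END) : ThmD2 := by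
  intro c hc x s t hD
  choose M hM using h1 c hc
  exact h3 _ (h2 c hc M hM) x s t
    ⟨hD.1, hD.2 _ _ (hM x s).1 (hM x t).1 (hM x s).2.2.1 (hM x t).2.2.1⟩

end D2
end Crest.Agent.R40
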