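import Crest.Agent.R40.D2Defs
import Crest.Agent.R40.MAvApi
import Crest.Agent.R40.MBasic

set_option autoImplicit false

namespace Crest.Agent.R40
open MeasureTheory Set Filter Topology

namespace D2

theorem emax_shift {c : ℂ → Fin 5} {x : ℂ} {i : Fin 5} {A : Set ℝ} (hA : Avoid c x i A) (n : ℤ) :
    Avoid c x i {θ | θ + n * (2 * Real.pi) ∈ A} := by
  intro R
  refine tendsto_of_tendsto_of_tendsto_of_le_of_le tendsto_const_nhds
    (hA (R + |n * (2 * Real.pi)|)) (fun _ => zero_le) fun y => ?_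
  rw [← measure_preimage_add_right volume (n * (2 * Real.pi))
    {θ : ℝ | θ ∈ A ∧ |θ| ≤ R + |n * (2 * Real.pi)| ∧ c (y + e θ) = i}]
  refine measure_mono ?_
  rintro θ ⟨h1, h2, h3⟩
  refine ⟨h1, (abs_add_le _ _).trans (by linarith), ?_⟩
  have : e (θ + n * (2 * Real.pi)) = e θ := (periodic_circleMap 0 1).int_mul n θ
  rw [this]
  exact h3

theorem emax : EMAX := by
  intro c hc x i
  obtain ⟨hmono, hU, -⟩ := avapi basic c hc x i
  obtain ⟨D, hDC, hDc, hD⟩ := Measure.exists_ae_subset_biUnion_countable (volume : Measure ℝ)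
    (C := {A | MeasurableSet A ∧ Avoid c x i A}) (fun s hs => hs.1)
  have hempty : Avoid c x i ∅ := AvApi.empty
  have hD' : (insert ∅ D).Countable := hDc.insert _
  obtain ⟨f, hf⟩ := hD'.exists_eq_range (insert_nonempty _ _)
  have hfC : ∀ n, MeasurableSet (f n) ∧ Avoid c x i (f n) := by
    intro n
    have : f n ∈ insert ∅ D := hf ▸ mem_range_self n
    rcases this with h | h
    · rw [h]; exact ⟨MeasurableSet.empty, hempty⟩
    · exact hDC h
  set M0 : Set ℝ := ⋃ n, f n with hM0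
  have hM0m : MeasurableSet M0 := MeasurableSet.iUnion fun n => (hfC n).1
  have hM0a : Avoid c x i M0 := hU f (fun n => (hfC n).1) fun n => (hfC n).2
  have hsm : ∀ n : ℤ, MeasurableSet {θ : ℝ | θ + n * (2 * Real.pi) ∈ M0} := fun n =>
    (measurable_add_const _) hM0m
  refine ⟨⋃ n : ℤ, {θ : ℝ | θ + n * (2 * Real.pi) ∈ M0}, MeasurableSet.iUnion hsm, ?_, ?_, ?_⟩
  · intro θ
    simp only [mem_iUnion, mem_ofPred_eq]
    constructor
    · rintro ⟨n, hn⟩
      refine ⟨n + 1, ?_⟩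
      convert hn using 1
      push_cast; ring
    · rintro ⟨n, hn⟩
      refine ⟨n - 1, ?_⟩
      convert hn using 1
      push_cast; ring
  · have := hU (fun k => {θ : ℝ | θ + (Equiv.intEquivNat.symm k : ℤ) * (2 * Real.pi) ∈ M0})
      (fun k => hsm _) (fun k => emax_shift hM0a _)
    refine hmono _ _ this (Eventually.of_forall fun θ hθ => ?_)
    obtain ⟨n, hn⟩ := mem_iUnion.1 hθ
    exact mem_iUnion.2 ⟨Equiv.intEquivNat n, by simpa using hn⟩
  · intro A hA hAv
    filter_upwards [hD A ⟨hA, hAv⟩] with θ hθ hmem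
    obtain ⟨s, hs, hθs⟩ := hθ hmem
    have : s ∈ range f := hf ▸ mem_insert_of_mem _ hs
    obtain ⟨n, rfl⟩ := this
    have h0 : θ ∈ M0 := mem_iUnion.2 ⟨n, hθs⟩
    exact mem_iUnion.2 ⟨0, by simpa using h0⟩

end D2
end Crest.Agent.R40
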