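import Crest.Agent.R40.D2Defs

set_option autoImplicit false

namespace Crest.Agent.R40.D2
open MeasureTheory Set Filter Topology

theorem mem5 {s t c u v : Fin 5} (h : [s, t, c, u, v].Nodup) (w : Fin 5) :
    w = s ∨ w = t ∨ w = c ∨ w = u ∨ w = v := by
  have : ([s, t, c, u, v].toFinset) = Finset.univ :=
    Finset.eq_univ_of_card _ (by rw [List.toFinset_card_of_nodup h]; simp)
  have h2 : w ∈ [s, t, c, u, v].toFinset := this ▸ Finset.mem_univ w
  simpa using h2

theorem e_back (y : ℂ) (b : ℝ) : y + e b + e (b + Real.pi) = y := by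
  rw [e, e, e_add_pi]; ring

theorem end_ (hN : NCX) (hS : STEP) (hR : RECIP) (hT : TWO) (hB : NPB) (hTr : TRANS) : END := by
  intro d hd x s t hD
  obtain ⟨a, ha⟩ := (hN d hd x s t hD).1
  obtain ⟨c, u, v, hn, Ts, Tt, Tc, hy⟩ := hS d hd x s t a hD ha
  set y := x + e a with hydef
  have hTy : ∀ w, w ≠ u → w ≠ v → d.T y w := by
    intro w h1 h2
    rcases mem5 hn w with h | h | h | h | h
    · exact h ▸ Ts
    · exact h ▸ Tt
    · exact h ▸ Tc
    · exact absurd h h1
    · exact absurd h h2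
  obtain ⟨b, hb⟩ := (hN d hd y u v hy).1
  have hb1 := ((hN d hd y u v hy).2 b hb).1
  obtain ⟨c0, u0, v0, hn0, -, -, -, h0⟩ := hS d hd y u v b hy hb
  obtain ⟨c1, u1, v1, hn1, -, -, -, h1⟩ := hS d hd y u v (b + pp) hy hb1
  simp only [List.nodup_cons, List.mem_cons, List.not_mem_nil, or_false, not_or,
    List.nodup_nil, and_true, not_false_eq_true] at hn0 hn1
  have r0 : NC d (y + e b) u0 v0 (b + Real.pi) := by
    refine hR d hd _ _ _ _ h0 ?_ ?_ <;> rw [e_back] <;> apply hTy <;> tauto
  have r0' := ((hN d hd _ _ _ h0).2 _ r0).2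
  obtain ⟨c', u', v', hn', -, -, -, h'⟩ := hS d hd _ _ _ _ h0 r0'
  have hp1 : y + e b + e (b + Real.pi - pp) = y + e (b + pp) := by
    rw [e_split (b + pp), add_assoc]
    congr 3
    · ring
    · unfold pp; ring
  rw [hp1] at h'
  have r1 : NC d (y + e (b + pp)) u1 v1 (b + pp + Real.pi) := by
    refine hR d hd _ _ _ _ h1 ?_ ?_ <;> rw [e_back] <;> apply hTy <;> tauto
  have r1' : NC d (y + e (b + pp)) u1 v1 b := by
    have k1 := ((hN d hd _ _ _ h1).2 _ r1).2
    have k2 := ((hN d hd _ _ _ h1).2 _ k1).2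
    have k3 := ((hN d hd _ _ _ h1).2 _ k2).2
    have k4 := ((hN d hd _ _ _ h1).2 _ k3).2
    have : b + pp + Real.pi - pp - pp - pp - pp = b := by unfold pp; ring
    rwa [this] at k4
  have hnorm : ‖y + e (b + pp) - y‖ = 1 := by rw [add_sub_cancel_left]; exact norm_e _
  have hn0' : [u, v, c0, u0, v0].Nodup := by simp; tauto
  simp only [List.nodup_cons, List.mem_cons, List.not_mem_nil, or_false, not_or,
    List.nodup_nil, and_true, not_false_eq_true] at hn'
  have hone : u' = u ∨ u' = v ∨ v' = u ∨ v' = v := by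
    rcases mem5 hn0' u' with h | h | h | h | h
    · tauto
    · tauto
    · rcases mem5 hn0' v' with g | g | g | g | g
      · tauto
      · tauto
      · exact absurd (h.trans g.symm) (by tauto)
      · exact absurd g.symm (by tauto)
      · exact absurd g.symm (by tauto)
    · exact absurd h.symm (by tauto)
    · exact absurd h.symm (by tauto)
  have r' : NC d (y + e (b + pp)) u' v' b := by
    rcases hone with h | h | h | h
    · subst h; exact hTr d hd _ _ _ _ _ _ hnorm hy h' hb
    · subst h; exact hTr d hd _ _ _ _ _ _ hnorm hy.symm h' hb.symm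
    · subst h; exact (hTr d hd _ _ _ _ _ _ hnorm hy h'.symm hb).symm
    · subst h; exact (hTr d hd _ _ _ _ _ _ hnorm hy.symm h'.symm hb.symm).symm
  by_cases e1 : u' = u1
  · have := hT d hd _ _ _ _ h' (e1 ▸ h1)
    subst e1; subst this; tauto
  by_cases e2 : u' = v1
  · have := hT d hd _ _ _ _ h' (e2 ▸ h1.symm)
    subst e2; subst this; tauto
  by_cases e3 : v' = u1
  · have := hT d hd _ _ _ _ h'.symm (e3 ▸ h1)
    exact e2 this
  by_cases e4 : v' = v1
  · have := hT d hd _ _ _ _ h'.symm (e4 ▸ h1.symm)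
    exact e1 this
  refine hB d hd _ u' v' u1 v1 b ?_ h' h1 r' r1'
  have := h'.1
  have := h1.1
  simp; tauto

end Crest.Agent.R40.D2
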