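import Crest.Agent.R40.D2Defs

set_option autoImplicit false

namespace Crest.Agent.R40.D2
open MeasureTheory Set Filter Topology

theorem i10 : I10 := by
  classical
  intro c hc M x E F A B hE hF hE3 hF3 hcard hA hB
  have hc2 : ∀ᵐ z : ℂ, ∀ᵐ θ : ℝ, c (z + circleMap 0 1 θ) ≠ c z := by
    have h := hc.2
    rw [Measure.volume_eq_prod] at h
    exact Measure.ae_ae_of_ae_prod h
  refine tt hc.1 hc2 x hE hF hE3 hF3 (A ∪ B)ᶜ ?_ ?_
  · rw [Finset.card_compl]; simp only [Fintype.card_fin]; omega
  · have h1 : ∀ᵐ α : ℝ, ∀ᵐ β : ℝ, α ∈ E →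
        c (x + circleMap 0 1 α - circleMap 0 1 β) ∉ A := by
      filter_upwards [hA] with α hα
      by_cases hαE : α ∈ E
      · have h2 : ∀ᵐ φ : ℝ, ∀ i ∈ A, c (x + e α + e φ) ≠ i :=
          (Finset.eventually_all A).2 (hα hαE)
        filter_upwards [ae_shift h2 Real.pi] with β hβ _ hmem
        simp only [e, e_add_pi] at hβ
        exact hβ _ hmem (by rw [sub_eq_add_neg])
      · exact Eventually.of_forall fun _ h => absurd h hαE
    have h2 : ∀ᵐ β : ℝ, ∀ᵐ α : ℝ, β ∈ F →
        c (x + circleMap 0 1 α - circleMap 0 1 β) ∉ B := by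
      filter_upwards [hB] with β hβ
      by_cases hβF : β ∈ F
      · have h2 : ∀ᵐ φ : ℝ, ∀ i ∈ B, c (x + e (β + Real.pi) + e φ) ≠ i :=
          (Finset.eventually_all B).2 (hβ hβF)
        filter_upwards [h2] with α hα _ hmem
        simp only [e, e_add_pi] at hα
        exact hα _ hmem (by congr 1; ring)
      · exact Eventually.of_forall fun _ h => absurd h hβF
    have hmeas : MeasurableSet {p : ℝ × ℝ | p.2 ∈ F →
        c (x + circleMap 0 1 p.1 - circleMap 0 1 p.2) ∉ B} := by
      have h1 : Measurable fun p : ℝ × ℝ => c (x + circleMap 0 1 p.1 - circleMap 0 1 p.2) :=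
        hc.1.comp ((continuous_const.add ((continuous_circleMap 0 1).comp continuous_fst)).sub
          ((continuous_circleMap 0 1).comp continuous_snd)).measurable
      exact (measurable_snd hF).imp
        (h1 (MeasurableSet.of_discrete (s := (B : Set (Fin 5))ᶜ)))
    have h3 := (Measure.ae_ae_comm (μ := volume) (ν := volume)
      (p := fun α β => β ∈ F → c (x + circleMap 0 1 α - circleMap 0 1 β) ∉ B) hmeas).2 h2
    filter_upwards [h1, h3] with α a1 a2
    filter_upwards [a1, a2] with β b1 b2 e1 e2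
    simp only [Finset.mem_compl, Finset.mem_union, not_or]
    exact ⟨b1 e1, b2 e2⟩

end Crest.Agent.R40.D2
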