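import Crest.Agent.R40.D2Defs
import Crest.Agent.R40.Conv

set_option autoImplicit false

namespace Crest.Agent.R40.D2
open MeasureTheory Set Filter Topology

theorem i5 : I5 := by
  intro c _ x i a h
  unfold Pres at h
  rw [Filter.not_frequently, eventually_nae] at h
  obtain ⟨ρ, hρ, h⟩ := h
  obtain ⟨δ, hδ, hd⟩ := Metric.continuousAt_iff.1 ((continuous_circleMap 0 1).continuousAt (x := a))
    (ρ / 2) (half_pos hρ)
  refine ⟨δ, hδ, fun R => ?_⟩
  refine tendsto_const_nhds.congr' ?_
  filter_upwards [eventually_nae_of_ae (ae_circle_of_ae h),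
    eventually_nae_of_nhds (Metric.ball_mem_nhds x (half_pos hρ))] with y hy hyx
  symm
  refine measure_mono_null (fun θ hθ => ?_) (ae_iff.1 hy)
  obtain ⟨h1, -, h3⟩ := hθ
  intro h4
  refine h4 ?_ h3
  have h5 : dist (e θ) (e a) < ρ / 2 := hd (by
    rw [Real.dist_eq, abs_lt]; constructor <;> linarith [h1.1, h1.2])
  have h6 : dist y x < ρ / 2 := hyx
  linarith [dist_add_add_le y (e θ) x (e a)]

end Crest.Agent.R40.D2
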