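import Crest.Agent.R40.D2Defs
import Crest.Agent.R40.MBasic
import Crest.Agent.R40.Conv

set_option autoImplicit false

namespace Crest.Agent.R40.D2
open MeasureTheory Set Filter Topology

namespace I8aux

/-- colour `m` is seen on the arc `J` of the circle centred at `y` -/
def Seen (c : ℂ → Fin 5) (y : ℂ) (J : Set ℝ) (m : Fin 5) : Prop :=
  ¬ ∀ᵐ β : ℝ, β ∈ J → c (y + e β) ≠ m

theorem ae_seen (c : ℂ → Fin 5) (y : ℂ) (J : Set ℝ) :
    ∀ᵐ β : ℝ, β ∈ J → Seen c y J (c (y + e β)) := by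
  have h : ∀ m : Fin 5, ∀ᵐ β : ℝ, ¬ Seen c y J m → β ∈ J → c (y + e β) ≠ m := by
    intro m
    by_cases hm : Seen c y J m
    · exact Eventually.of_forall fun β h => absurd hm h
    · have := not_not.1 hm
      exact this.mono fun β h _ => h
  rw [← ae_all_iff] at h
  filter_upwards [h] with β hβ hJ
  by_contra hn
  exact hβ _ hn hJ rfl

theorem Seen.not_free {c : ℂ → Fin 5} {y : ℂ} {J : Set ℝ} {m : Fin 5} (h : Seen c y J m) :
    ¬ Free c m y := fun hf => h (hf.mono fun _ hβ _ => hβ)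

theorem reach_mem {n : Finset (Fin 5) → Prop} {U : Fin 5 → Prop} {p q : Fin 5}
    (hp : U p) (h : Reach n U p q) : U q := by
  unfold Reach at h
  induction h with
  | refl => exact hp
  | tail _ h2 _ => exact h2.2.1

/-- on a good arc the seen colours are connected -/
theorem conn_arc {c : ℂ → Fin 5} {y z : ℂ} {β₁ β₂ : ℝ}
    (hP : ∀ᵐ β : ℝ, β ∈ Ioo β₁ β₂ → Pres c z (c (y + e β)))
    (hS : ∀ X Y : Finset (Fin 5), Disjoint X Y → (∀ i ∈ X, ∀ j ∈ Y, ¬ NS c z {i, j}) →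
      (∀ᵐ β : ℝ, β ∈ Ioo β₁ β₂ → c (y + e β) ∈ X ∨ c (y + e β) ∈ Y) →
      (∀ᵐ β : ℝ, β ∈ Ioo β₁ β₂ → c (y + e β) ∈ X) ∨
        (∀ᵐ β : ℝ, β ∈ Ioo β₁ β₂ → c (y + e β) ∈ Y))
    {p q : Fin 5} (hp : Seen c y (Ioo β₁ β₂) p) (hq : Seen c y (Ioo β₁ β₂) q) :
    Reach (NS c z) (fun m => Pres c z m ∧ ¬ Free c m y) p q := by
  classical
  set U : Fin 5 → Prop := fun m => Pres c z m ∧ ¬ Free c m y with hU
  have hseen : ∀ m, Seen c y (Ioo β₁ β₂) m → U m := by
    intro m hm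
    refine ⟨?_, hm.not_free⟩
    by_contra hn
    refine hm ?_
    filter_upwards [hP] with β hβ hJ heq
    exact hn (heq ▸ hβ hJ)
  set X : Finset (Fin 5) := Finset.univ.filter fun m => Reach (NS c z) U p m with hX
  set Y : Finset (Fin 5) := Finset.univ.filter fun m => U m ∧ ¬ Reach (NS c z) U p m with hY
  have hdis : Disjoint X Y := by
    rw [Finset.disjoint_left]
    intro m h1 h2
    simp only [hX, hY, Finset.mem_filter, Finset.mem_univ, true_and] at h1 h2
    exact h2.2 h1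
  have hno : ∀ i ∈ X, ∀ j ∈ Y, ¬ NS c z {i, j} := by
    intro i hi j hj hN
    simp only [hX, hY, Finset.mem_filter, Finset.mem_univ, true_and] at hi hj
    exact hj.2 (Relation.ReflTransGen.tail hi ⟨reach_mem (hseen p hp) hi, hj.1, hN⟩)
  have hcov : ∀ᵐ β : ℝ, β ∈ Ioo β₁ β₂ → c (y + e β) ∈ X ∨ c (y + e β) ∈ Y := by
    filter_upwards [ae_seen c y (Ioo β₁ β₂)] with β hβ hJ
    simp only [hX, hY, Finset.mem_filter, Finset.mem_univ, true_and]
    by_cases hr : Reach (NS c z) U p (c (y + e β))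
    · exact Or.inl hr
    · exact Or.inr ⟨hseen _ (hβ hJ), hr⟩
  rcases hS X Y hdis hno hcov with h | h
  · by_contra hn
    refine hq ?_
    filter_upwards [h] with β hβ hJ heq
    have := hβ hJ
    simp only [hX, Finset.mem_filter, Finset.mem_univ, true_and] at this
    exact hn (heq ▸ this)
  · exfalso
    refine hp ?_
    filter_upwards [h] with β hβ hJ heq
    have := hβ hJ
    simp only [hY, Finset.mem_filter, Finset.mem_univ, true_and] at this
    exact this.2 (heq ▸ Relation.ReflTransGen.refl)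

theorem measurableSet_ae_slice {s : Set (ℝ × ℝ)} (hs : MeasurableSet s) :
    MeasurableSet {α : ℝ | ∀ᵐ β : ℝ, (α, β) ∈ s} := by
  have h := measurable_measure_prodMk_left (ν := (volume : Measure ℝ)) hs.compl
  have : {α : ℝ | ∀ᵐ β : ℝ, (α, β) ∈ s} =
      (fun α => (volume : Measure ℝ) (Prod.mk α ⁻¹' sᶜ)) ⁻¹' {0} := by
    ext α
    simp only [mem_ofPred_eq, mem_preimage, mem_singleton_iff, ae_iff]
    rfl
  rw [this]
  exact h (measurableSet_singleton 0)

theorem measurable_sum_col {c : ℂ → Fin 5} (hc : Measurable c) (x : ℂ) :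
    Measurable fun p : ℝ × ℝ => c (x + e p.1 + e p.2) :=
  hc.comp ((continuous_const.add (continuous_e.comp continuous_fst)).add
    (continuous_e.comp continuous_snd)).measurable

theorem measurableSet_seen {c : ℂ → Fin 5} (hc : Measurable c) (x : ℂ) {J : Set ℝ}
    (hJ : MeasurableSet J) (m : Fin 5) : MeasurableSet {α : ℝ | Seen c (x + e α) J m} := by
  have hs : MeasurableSet {p : ℝ × ℝ | p.2 ∈ J → c (x + e p.1 + e p.2) ≠ m} := by
    have h1 : MeasurableSet {p : ℝ × ℝ | p.2 ∈ J} := measurable_snd hJ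
    have h2 : MeasurableSet {p : ℝ × ℝ | c (x + e p.1 + e p.2) = m} :=
      measurable_sum_col hc x (measurableSet_singleton m)
    have : {p : ℝ × ℝ | p.2 ∈ J → c (x + e p.1 + e p.2) ≠ m} =
        ({p : ℝ × ℝ | p.2 ∈ J} ∩ {p : ℝ × ℝ | c (x + e p.1 + e p.2) = m})ᶜ := by
      ext p; simp
    rw [this]; exact (h1.inter h2).compl
  exact (measurableSet_ae_slice hs).compl

/-- a common colour of a non-null family of columns and a non-null family of rows -/
theorem exists_common {c : ℂ → Fin 5} (hc : Measurable c) (x : ℂ) {I J A B : Set ℝ}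
    (hA : MeasurableSet A) (hB : MeasurableSet B) (hAI : A ⊆ I) (hBJ : B ⊆ J)
    (hA0 : ¬ ∀ᵐ α : ℝ, α ∉ A) (hB0 : ¬ ∀ᵐ β : ℝ, β ∉ B) :
    ∃ k, (¬ ∀ᵐ α : ℝ, α ∈ A → ¬ Seen c (x + e α) J k) ∧
      ¬ ∀ᵐ β : ℝ, β ∈ B → ¬ Seen c (x + e β) I k := by
  by_contra hn
  have hk : ∀ k : Fin 5, ∀ᵐ α : ℝ, ∀ᵐ β : ℝ, α ∈ A → β ∈ B → c (x + e α + e β) ≠ k := by
    intro k
    by_cases h1 : ∀ᵐ α : ℝ, α ∈ A → ¬ Seen c (x + e α) J k
    · filter_upwards [h1] with α hα
      by_cases hαA : α ∈ A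
      · have := not_not.1 (hα hαA)
        filter_upwards [this] with β hβ _ hβB
        exact hβ (hBJ hβB)
      · exact Eventually.of_forall fun β h => absurd h hαA
    · have h2 : ∀ᵐ β : ℝ, β ∈ B → ¬ Seen c (x + e β) I k := by
        by_contra h3
        exact hn ⟨k, h1, h3⟩
      have hm : MeasurableSet {p : ℝ × ℝ | p.1 ∈ A → p.2 ∈ B → c (x + e p.1 + e p.2) ≠ k} := by
        have h1 : MeasurableSet {p : ℝ × ℝ | p.1 ∈ A} := measurable_fst hA
        have h2 : MeasurableSet {p : ℝ × ℝ | p.2 ∈ B} := measurable_snd hB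
        have h3 : MeasurableSet {p : ℝ × ℝ | c (x + e p.1 + e p.2) = k} :=
          measurable_sum_col hc x (measurableSet_singleton k)
        have : {p : ℝ × ℝ | p.1 ∈ A → p.2 ∈ B → c (x + e p.1 + e p.2) ≠ k} =
            ({p : ℝ × ℝ | p.1 ∈ A} ∩ ({p : ℝ × ℝ | p.2 ∈ B} ∩
              {p : ℝ × ℝ | c (x + e p.1 + e p.2) = k}))ᶜ := by
          ext p; simp
        rw [this]; exact (h1.inter (h2.inter h3)).compl
      rw [Measure.ae_ae_comm (p := fun α β => α ∈ A → β ∈ B → c (x + e α + e β) ≠ k) hm]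
      filter_upwards [h2] with β hβ
      by_cases hβB : β ∈ B
      · have := not_not.1 (hβ hβB)
        filter_upwards [this] with α hα hαA _
        have := hα (hAI hαA)
        rwa [add_right_comm]
      · exact Eventually.of_forall fun α _ h => absurd h hβB
  rw [← ae_all_iff] at hk
  refine hA0 ?_
  filter_upwards [hk] with α hα hαA
  rw [← ae_all_iff] at hα
  refine hB0 ?_
  filter_upwards [hα] with β hβ hβB
  exact hβ _ hαA hβB rfl

theorem norm_sum_sq (a b : ℝ) : ‖e a + e b‖ ^ 2 = 2 + 2 * Real.cos (a - b) := by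
  have h1 : e a + e b = - e b * (e (a - b + Real.pi) - 1) := by
    have h2 : e (a - b + Real.pi) = - e (a - b) := e_add_pi _
    have h3 : e a = e b * e (a - b) := by
      rw [← e_add]; congr 1; ring
    rw [h2, h3]; ring
  rw [h1, norm_mul, norm_neg, norm_e, one_mul]
  have := normSq_e_sub_one (a - b + Real.pi)
  rw [Real.cos_add_pi] at this
  rw [this]; ring

end I8aux

open I8aux

theorem i8 (h1 : SLICE) (h2 : LOC) : I8 := by
  classical
  intro c hc M x a b i j P hs hi hj hP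
  change Pres c (x + e a + e b) i at hi
  change Pres c (x + e a + e b) j at hj
  set z := x + e a + e b with hz
  have hcos : Real.cos (a - b) ^ 2 < 1 := by
    have := Real.sin_sq_add_cos_sq (a - b)
    have h0 : 0 < Real.sin (a - b) ^ 2 := by positivity
    linarith
  have hcos' := abs_lt.1 ((sq_lt_one_iff_abs_lt_one _).1 hcos)
  have hzx : z - x = e a + e b := by rw [hz]; ring
  have hn := norm_sum_sq a b
  have hne : z ≠ x := by
    intro h
    have : e a + e b = 0 := by rw [← hzx, h, sub_self]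
    rw [this, norm_zero] at hn
    linarith [hcos'.1]
  have hlt : ‖z - x‖ < 2 := by
    rw [hzx]
    nlinarith [norm_nonneg (e a + e b), hcos'.2]
  -- one radius for all cuts
  have hcut : ∀ XY : Finset (Fin 5) × Finset (Fin 5), ∃ δ : ℝ, 0 < δ ∧ ∀ᵐ α : ℝ,
      Disjoint XY.1 XY.2 → (∀ i ∈ XY.1, ∀ j ∈ XY.2, ¬ NS c z {i, j}) → ∀ β₁ β₂ : ℝ,
      (∀ β ∈ Ioo β₁ β₂, x + e α + e β ∈ Metric.ball z δ) →
      (∀ᵐ β : ℝ, β ∈ Ioo β₁ β₂ → c (x + e α + e β) ∈ XY.1 ∨ c (x + e α + e β) ∈ XY.2) →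
      (∀ᵐ β : ℝ, β ∈ Ioo β₁ β₂ → c (x + e α + e β) ∈ XY.1) ∨
        (∀ᵐ β : ℝ, β ∈ Ioo β₁ β₂ → c (x + e α + e β) ∈ XY.2) := by
    intro XY
    by_cases hd : Disjoint XY.1 XY.2 ∧ ∀ i ∈ XY.1, ∀ j ∈ XY.2, ¬ NS c z {i, j}
    · obtain ⟨δ, hδ, h⟩ := h1 c hc x z XY.1 XY.2 hne hlt hd.1 hd.2
      exact ⟨δ, hδ, h.mono fun α hα _ _ => hα⟩
    · exact ⟨1, one_pos, Eventually.of_forall fun α ha hb => absurd ⟨ha, hb⟩ hd⟩
  choose δc hδc hcut using hcut
  have habs : ∀ᶠ y in nae z, Pres c z (c y) := by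
    have : ∀ m : Fin 5, ∀ᶠ y in nae z, ¬ Pres c z m → c y ≠ m := by
      intro m
      by_cases hm : Pres c z m
      · exact Eventually.of_forall fun y h => absurd hm h
      · unfold Pres at hm
        rw [Filter.not_frequently] at hm
        exact hm.mono fun y hy _ => hy
    rw [← eventually_all] at this
    filter_upwards [this] with y hy
    by_contra hn
    exact hy _ hn rfl
  obtain ⟨δ₀, hδ₀, habs⟩ := eventually_nae.1 habs
  obtain ⟨XY₀, -, hmin⟩ := Finset.exists_min_image Finset.univ δc Finset.univ_nonempty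
  set δ := min δ₀ (δc XY₀) with hδ
  have hδpos : 0 < δ := lt_min hδ₀ (hδc _)
  set η := δ / 2 with hη
  have hηpos : 0 < η := by positivity
  have hlip : ∀ s t : ℝ, ‖e s - e t‖ ≤ |s - t| := by
    intro s t
    have := lip_e.dist_le_mul s t
    simpa [dist_eq_norm] using this
  have hball : ∀ α ∈ Ioo (a - η) (a + η), ∀ β ∈ Ioo (b - η) (b + η),
      dist (x + e α + e β) z < δ := by
    intro α hα β hβ
    have e1 : x + e α + e β - z = (e α - e a) + (e β - e b) := by rw [hz]; ring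
    rw [dist_eq_norm, e1]
    have h3 := hlip α a
    have h4 := hlip β b
    have h5 : |α - a| < η := abs_lt.2 ⟨by linarith [hα.1], by linarith [hα.2]⟩
    have h6 : |β - b| < η := abs_lt.2 ⟨by linarith [hβ.1], by linarith [hβ.2]⟩
    have := norm_add_le (e α - e a) (e β - e b)
    linarith
  rw [← ae_all_iff] at hcut
  have hpres := ae_ae_of_ae habs x
  -- good centres
  have hgood : ∀ᵐ α : ℝ, P α ∧ ∀ β₁ β₂ : ℝ, (∀ β ∈ Ioo β₁ β₂, dist (x + e α + e β) z < δ) →
      ∀ p q, Seen c (x + e α) (Ioo β₁ β₂) p → Seen c (x + e α) (Ioo β₁ β₂) q →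
      Reach (NS c z) (fun m => Pres c z m ∧ ¬ Free c m (x + e α)) p q := by
    filter_upwards [hP, hcut, hpres] with α h3 h4 h5
    refine ⟨h3, fun β₁ β₂ hb p q hp hq => conn_arc ?_ ?_ hp hq⟩
    · filter_upwards [h5] with β hβ hJ
      exact hβ ((hb β hJ).trans_le (min_le_left _ _))
    · intro X Y hd hno hcov
      refine h4 (X, Y) hd hno β₁ β₂ (fun β hβ => ?_) hcov
      exact (hb β hβ).trans_le ((min_le_right _ _).trans (hmin _ (Finset.mem_univ _)))
  set I := Ioo (a - η) (a + η) with hI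
  set J := Ioo (b - η) (b + η) with hJ
  set A := I ∩ {α | Seen c (x + e α) J j} with hA
  set B := J ∩ {β | Seen c (x + e β) I i} with hB
  have hAm : MeasurableSet A := measurableSet_Ioo.inter (measurableSet_seen hc.1 x measurableSet_Ioo j)
  have hBm : MeasurableSet B := measurableSet_Ioo.inter (measurableSet_seen hc.1 x measurableSet_Ioo i)
  have hA0 : ¬ ∀ᵐ α : ℝ, α ∉ A := by
    intro h
    refine h2 c hc x j a b η hs hηpos hj ?_
    filter_upwards [h] with α hα hαI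
    by_contra hn
    exact hα ⟨hαI, hn⟩
  have hB0 : ¬ ∀ᵐ β : ℝ, β ∉ B := by
    intro h
    have hs' : Real.sin (b - a) ≠ 0 := by
      rw [← neg_sub, Real.sin_neg]; exact neg_ne_zero.2 hs
    have hi' : Pres c (x + e b + e a) i := by rw [add_right_comm]; exact hi
    refine h2 c hc x i b a η hs' hηpos hi' ?_
    filter_upwards [h] with β hβ hβJ
    by_contra hn
    exact hβ ⟨hβJ, hn⟩
  obtain ⟨k, hk1, hk2⟩ := exists_common hc.1 x hAm hBm inter_subset_left inter_subset_left hA0 hB0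
  obtain ⟨α, hα1, hα2⟩ : ∃ α, (α ∈ A ∧ Seen c (x + e α) J k) ∧ _ := by
    have : ∃ᵐ α : ℝ, α ∈ A ∧ Seen c (x + e α) J k := by
      intro h; exact hk1 (h.mono fun α hα h1 h2 => hα ⟨h1, h2⟩)
    exact (this.and_eventually hgood).exists
  obtain ⟨β, hβ1, hβ2⟩ : ∃ β, (β ∈ B ∧ Seen c (x + e β) I k) ∧ _ := by
    have : ∃ᵐ β : ℝ, β ∈ B ∧ Seen c (x + e β) I k := by
      intro h; exact hk2 (h.mono fun α hα h1 h2 => hα ⟨h1, h2⟩)
    exact (this.and_eventually hgood).exists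
  refine ⟨α, β, k, hα2.1, hβ2.1, hβ1.1.2.not_free, hα1.1.2.not_free, hα1.2.not_free,
    hβ1.2.not_free, ?_, ?_⟩
  · refine hβ2.2 _ _ (fun α' hα' => ?_) i k hβ1.1.2 hβ1.2
    rw [add_right_comm]
    exact hball α' hα' β hβ1.1.1
  · exact hα2.2 _ _ (fun β' hβ' => hball α hα1.1.1 β' hβ') k j hα1.2 hα1.1.2

end Crest.Agent.R40.D2
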