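import Crest.Agent.R40.D2Defs
import Crest.Agent.R40.MBasic

set_option autoImplicit false

namespace Crest.Agent.R40.D2
open MeasureTheory Set Filter Topology

theorem inst_meas {c : ℂ → Fin 5} (hc : Good c) (i : Fin 5) (x : ℂ) (f : ℝ → ℝ)
    (hf : Continuous f) : MeasurableSet {θ : ℝ | Free c i (x + e (f θ))} :=
  (measurableSet_free hc.1 i).preimage
    (continuous_const.add (continuous_e.comp hf)).measurable

theorem inst (v1 : AV1) (v2 : AV2) (v3 : AV3) (key : KEY) (nsl : NSL) (cone : CONE)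
    (api : AVAPI) (i5 : I5) (i7 : I7) (i8 : I8) (i10 : I10) : INST := by
  intro c hc M hM
  refine ⟨fun x i => inst_meas hc i x id continuous_id, fun x i => (hM x i).1.compl,
    fun x θ i => ?_, fun x θ i => not_congr ((hM x i).2.1 θ), fun x i => ?_, fun x i => ?_,
    fun x x' i hx => ?_, fun x S hS => ?_, fun x i a ha => ?_, fun x S a ha => nsl c hc x S a ha,
    fun x i a b hab hT => i7 c hc x i a b hab hT, i8 c hc M, fun x m hm => ?_, i10 c hc M⟩
  · change Free c i (x + e (θ + 2 * Real.pi)) ↔ Free c i (x + e θ)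
    rw [e_periodic θ]
  · filter_upwards [(hM x i).2.2.2 _ (inst_meas hc i x id continuous_id).compl (v1 c hc x i)]
      with θ h1 hw
    by_contra hf
    exact hw (h1 hf)
  · filter_upwards [(hM x i).2.2.2 _
        (inst_meas hc i x (fun θ => θ + Real.pi / 3) (by fun_prop)) (v2 c hc x i).1,
      (hM x i).2.2.2 _
        (inst_meas hc i x (fun θ => θ - Real.pi / 3) (by fun_prop)) (v2 c hc x i).2]
      with θ h1 h2 hw
    exact ⟨fun hf => hw (h1 hf), fun hf => hw (h2 hf)⟩
  · filter_upwards [(hM x i).2.2.2 _ (inst_meas hc i x' id continuous_id) (v3 c hc x x' i hx)]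
      with θ h1 hw
    exact fun hf => hw (h1 hf)
  · exact key c hc x S (M x) hS (fun i => (hM x i).1) (fun i _ => (hM x i).2.2.1)
  · by_contra hp
    obtain ⟨δ, hδ, hA⟩ := i5 c hc x i a hp
    have h1 := (hM x i).2.2.2 _ measurableSet_Ioo hA
    have h2 : ∀ᶠ θ in nae a, θ ∈ Ioo (a - δ) (a + δ) :=
      eventually_nae_of_nhds (Ioo_mem_nhds (by linarith) (by linarith))
    refine ha ?_
    filter_upwards [eventually_nae_of_ae h1, h2] with θ h3 h4 hw
    exact hw (h3 h4)
  · have h1 := (cone c hc x m hm).1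
    have h2 := (api c hc x m).2.2.2.2.1.2 h1
    filter_upwards [(hM x m).2.2.2 _ MeasurableSet.univ h2] with θ h3 hw
    exact hw (h3 (mem_univ θ))

end Crest.Agent.R40.D2
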