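import Crest.Agent.R40.D2Defs

set_option autoImplicit false

namespace Crest.Agent.R40
open MeasureTheory Set Filter Topology

namespace D2

theorem loc : LOC := by
  intro c hc x i a b δ hs hδ hP h
  obtain ⟨C, -, hCv⟩ := exists_vol_image_le
  obtain ⟨K, hK, hinv⟩ := exists_local_inv x hs
  set Φ : ℝ × ℝ → ℂ := fun p => x + circleMap 0 1 p.1 + circleMap 0 1 p.2 with hΦ
  have hΦm : Measurable Φ :=
    ((continuous_const.add ((continuous_circleMap 0 1).comp continuous_fst)).add
      ((continuous_circleMap 0 1).comp continuous_snd)).measurable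
  set N : Set (ℝ × ℝ) := Ioo (a - δ) (a + δ) ×ˢ Ioo (b - δ) (b + δ) ∩ Φ ⁻¹' (c ⁻¹' {i}) with hN
  have hNm : MeasurableSet N :=
    (measurableSet_Ioo.prod measurableSet_Ioo).inter (hΦm (hc.1 (measurableSet_singleton i)))
  have hN0 : volume N = 0 := by
    rw [Measure.volume_eq_prod, Measure.measure_prod_null hNm]
    filter_upwards [h] with α hα
    show volume (Prod.mk α ⁻¹' N) = 0
    rw [← compl_mem_ae_iff]
    by_cases hm : α ∈ Ioo (a - δ) (a + δ)
    · filter_upwards [hα hm] with β hβ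
      intro hmem
      exact hβ hmem.1.2 hmem.2
    · exact Eventually.of_forall fun β hmem => hm hmem.1.1
  have him : volume (Φ '' N) = 0 := by
    have := hCv x N
    rw [hN0, mul_zero] at this
    exact le_antisymm this bot_le
  apply hP
  have h1 : ∀ᶠ z in nae (x + e a + e b), z ∉ Φ '' N :=
    eventually_nae_of_ae (compl_mem_ae_iff.2 him)
  have h2 : ∀ᶠ z in 𝓝 (x + e a + e b), dist z (x + e a + e b) < δ / K :=
    Metric.ball_mem_nhds _ (by positivity)
  filter_upwards [h1, eventually_nae_of_nhds hinv, eventually_nae_of_nhds h2] with z hz ⟨p, hp, hd⟩ hz2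
  intro hci
  have hlt : dist p (a, b) < δ := by
    refine hd.trans_lt ?_
    rw [lt_div_iff₀ hK] at hz2
    linarith
  rw [Prod.dist_eq, max_lt_iff, Real.dist_eq, Real.dist_eq, abs_lt, abs_lt] at hlt
  refine hz ⟨p, ⟨⟨⟨?_, ?_⟩, ?_, ?_⟩, ?_⟩, hp⟩
  · linarith [hlt.1.1]
  · linarith [hlt.1.2]
  · linarith [hlt.2.1]
  · linarith [hlt.2.2]
  · show c (Φ p) ∈ ({i} : Set (Fin 5))
    rw [show Φ p = z from hp, hci]
    rfl

theorem i7 : I7 := by
  intro c hc x i a b hs hP hcon
  obtain ⟨δ, hδ, h⟩ := eventually_nae.1 hcon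
  refine loc c hc x i a b δ hs hδ hP ?_
  filter_upwards [h] with α hα hm
  have hd : dist α a < δ := by
    rw [Real.dist_eq, abs_lt]
    constructor <;> linarith [hm.1, hm.2]
  have hf : Free c i (x + e α) := not_not.1 (hα hd)
  filter_upwards [hf] with β hβ _
  exact hβ

end D2
end Crest.Agent.R40
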