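import Crest.Agent.R40.D2Defs

/-! Row 40: non-constancy points. -/

set_option autoImplicit false

namespace Crest.Agent.R40.D2
open MeasureTheory Set Filter Topology

theorem ncx (h : ALT) : NCX := by
  intro d hd x s t hD
  obtain ⟨⟨-, h1⟩, h2, -, -⟩ := h d hd x s t hD
  simp only [mem_ofPred_eq] at h1
  have sh : ∀ {p : ℝ → Prop} (r : ℝ), (∀ᵐ θ : ℝ, p θ) → ∀ᵐ θ : ℝ, p (θ + r) := fun r hp =>
    (measurePreserving_add_right volume r).quasiMeasurePreserving.ae hp
  have hshift : ∀ a, NC d x s t a → NC d x s t (a + pp) ∧ NC d x s t (a - pp) := by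
    rintro a ⟨hs, ht⟩
    refine ⟨⟨(freq_shift pp).2 (freq_mono ht ?_), (freq_shift pp).2 (freq_mono hs ?_)⟩, ?_⟩
    · filter_upwards [h1, h2] with θ a1 a2
      tauto
    · filter_upwards [h1, sh pp h2] with θ a1 a2
      tauto
    · rw [sub_eq_add_neg]
      refine ⟨(freq_shift (-pp)).2 (freq_mono ht ?_), (freq_shift (-pp)).2 (freq_mono hs ?_)⟩
      · filter_upwards [sh (-pp) h1, h2] with θ a1 a2
        rw [neg_add_cancel_right] at a1
        tauto
      · filter_upwards [sh (-pp) h1, sh (-pp) h2] with θ a1 a2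
        rw [neg_add_cancel_right] at a1
        tauto
  refine ⟨?_, hshift⟩
  by_contra hc
  push Not at hc
  have hop : ∀ p : ℝ → Prop, IsOpen {a : ℝ | ∀ᶠ θ in nae a, p θ} := fun p =>
    isOpen_iff_mem_nhds.2 fun a ha => eventually_eventually_nae ha
  have key := isPreconnected_univ.subset_or_subset (hop fun θ => ¬ d.W x θ s)
    (hop fun θ => ¬ d.W x θ t) ?_ ?_
  · have : (nae (0 : ℝ)).NeBot := nae_neBot 0
    rcases key with k | k
    · have k0 : ∀ᶠ θ in nae (0 : ℝ), ¬ d.W x θ s := k (mem_univ 0)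
      have k1 : ¬ ∃ᶠ θ in nae (0 + pp), d.W x θ s := not_frequently.2 (k (mem_univ _))
      rw [freq_shift, not_frequently] at k1
      obtain ⟨θ, ⟨a1, a2⟩, a3⟩ := ((k0.and k1).and (eventually_nae_of_ae h1)).exists
      tauto
    · have k0 : ∀ᶠ θ in nae (0 : ℝ), ¬ d.W x θ t := k (mem_univ 0)
      have k1 : ¬ ∃ᶠ θ in nae (0 + pp), d.W x θ t := not_frequently.2 (k (mem_univ _))
      rw [freq_shift, not_frequently] at k1
      obtain ⟨θ, ⟨⟨⟨a1, a2⟩, a3⟩, a4⟩, a5⟩ := ((((k0.and k1).and (eventually_nae_of_ae h1)).and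
        (eventually_nae_of_ae h2)).and (eventually_nae_of_ae (sh pp h2))).exists
      tauto
  · rw [Set.disjoint_left]
    intro a ha hb
    have : (nae a).NeBot := nae_neBot a
    have ha' : ∀ᶠ θ in nae a, ¬ d.W x θ s := ha
    have hb' : ∀ᶠ θ in nae a, ¬ d.W x θ t := hb
    obtain ⟨θ, ⟨a1, a2⟩, a3⟩ := ((ha'.and hb').and (eventually_nae_of_ae h2)).exists
    tauto
  · intro a _
    by_cases ha : ∃ᶠ θ in nae a, d.W x θ s
    · exact Or.inr (not_frequently.1 fun hb => hc a ⟨ha, hb⟩)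
    · exact Or.inl (not_frequently.1 ha)

end Crest.Agent.R40.D2
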