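import Crest.Agent.R40.D2Defs

/-! Row 40, abstract layer: task NPB. -/

set_option autoImplicit false

namespace Crest.Agent.R40.D2
open MeasureTheory Set Filter Topology

theorem npb_key (h : ALT) (d : Dat) (hd : Ax d) (x : ℂ) (s t u v : Fin 5) (a : ℝ)
    (hn : [s, t, u, v].Nodup) (h1 : D d x s t) (h2 : D d x u v)
    (p1 : ∃ᶠ θ in nae a, d.W x θ s ∧ d.W x θ u)
    (p2 : ∃ᶠ θ in nae a, d.W x θ t ∧ d.W x θ v) : False := by
  obtain ⟨⟨_, A1⟩, B1, _, _⟩ := h d hd x s t h1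
  obtain ⟨⟨_, A2⟩, B2, _, _⟩ := h d hd x u v h2
  have hN : ∀ b : ℝ, (∃ᶠ θ in nae b, d.W x θ s ∧ d.W x θ u) → d.N (x + e b) {s, u} := by
    intro b hb
    refine hd.a6 x {s, u} b (freq_mono hb ?_)
    filter_upwards [hd.a1 x s, hd.a1 x u] with θ e1 e2 hθ i hi
    rcases Finset.mem_insert.mp hi with rfl | hi
    · exact e1 hθ.1
    · rw [Finset.mem_singleton.mp hi]; exact e2 hθ.2
  have p1' : ∃ᶠ θ in nae (a + pp), d.W x θ s ∧ d.W x θ u := by
    rw [freq_shift]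
    refine freq_mono p2 ?_
    filter_upwards [A1, A2, B1, B2] with θ e1 e2 e3 e4 hθ
    exact ⟨e1.2 (e3.1 hθ.1), e2.2 (e4.1 hθ.2)⟩
  have N1 := hN a p1
  have N2 := hN (a + pp) p1'
  have n1 : ‖x + e a - x‖ = 1 := by rw [add_sub_cancel_left]; exact norm_e a
  have n2 : ‖x + e (a + pp) - x‖ = 1 := by rw [add_sub_cancel_left]; exact norm_e _
  have n3 : ‖x + e (a + pp) - (x + e a)‖ = 1 := by
    have : x + e (a + pp) - (x + e a) = -e (a - pp) := by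
      rw [e_split a]; ring
    rw [this, norm_neg]; exact norm_e _
  refine not_ae_of_freq p2 ?_
  filter_upwards [hd.a4 _ _ N1, hd.a4 _ _ N2, hd.a3 x _ t n1, hd.a3 x _ v n1, hd.a3 x _ t n2,
    hd.a3 x _ v n2, ae_all_iff.2 (fun i => hd.a1 (x + e a) i),
    ae_all_iff.2 (fun i => hd.a1 (x + e (a + pp)) i),
    ae_all_iff.2 (fun i => hd.a3 (x + e a) _ i n3)] with θ e1 e2 e3 e4 e5 e6 e7 e8 e9 hθ
  obtain ⟨i, hi, wi⟩ := e1
  obtain ⟨j, hj, wj⟩ := e2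
  have it : i ≠ t := fun hh => e3 hθ.1 (hh ▸ e7 i wi)
  have iv : i ≠ v := fun hh => e4 hθ.2 (hh ▸ e7 i wi)
  have jt : j ≠ t := fun hh => e5 hθ.1 (hh ▸ e8 j wj)
  have jv : j ≠ v := fun hh => e6 hθ.2 (hh ▸ e8 j wj)
  have ij : i ≠ j := fun hh => e9 i wi (hh ▸ e8 j wj)
  simp only [Finset.mem_insert, Finset.mem_singleton, not_or] at hi hj
  have hn6 : [i, j, s, t, u, v].Nodup := by
    rw [List.nodup_cons, List.nodup_cons]
    refine ⟨?_, ?_, hn⟩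
    · simp [ij, hi.1, hi.2, it, iv]
    · simp [hj.1, hj.2, jt, jv]
  have := hn6.length_le_card
  simp at this

theorem npb (h : ALT) : NPB := by
  intro d hd x s t u v a hn h1 h2 c1 c2
  have hn' : [s, t, v, u].Nodup := by
    simp only [List.nodup_cons, List.mem_cons, List.not_mem_nil, or_false, not_or,
      List.nodup_nil, and_true, not_false_eq_true] at hn ⊢
    exact ⟨⟨hn.1.1, hn.1.2.2, hn.1.2.1⟩, ⟨hn.2.1.2, hn.2.1.1⟩, fun hh => hn.2.2 hh.symm⟩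
  have K1 := npb_key h d hd x s t u v a hn h1 h2
  have K2 := npb_key h d hd x s t v u a hn' h1 h2.symm
  have f1 : (∃ᶠ θ in nae a, d.W x θ s ∧ d.W x θ u) ∨ ∃ᶠ θ in nae a, d.W x θ s ∧ d.W x θ v := by
    rw [← frequently_or_distrib]
    refine freq_mono c1.1 ?_
    filter_upwards [h2.2] with θ e1 hθ
    tauto
  have f2 : (∃ᶠ θ in nae a, d.W x θ t ∧ d.W x θ v) ∨ ∃ᶠ θ in nae a, d.W x θ t ∧ d.W x θ u := by
    rw [← frequently_or_distrib]
    refine freq_mono c1.2 ?_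
    filter_upwards [h2.2] with θ e1 hθ
    tauto
  have f3 : (∃ᶠ θ in nae a, d.W x θ s ∧ d.W x θ u) ∨ ∃ᶠ θ in nae a, d.W x θ t ∧ d.W x θ u := by
    rw [← frequently_or_distrib]
    refine freq_mono c2.1 ?_
    filter_upwards [h1.2] with θ e1 hθ
    tauto
  have f4 : (∃ᶠ θ in nae a, d.W x θ t ∧ d.W x θ v) ∨ ∃ᶠ θ in nae a, d.W x θ s ∧ d.W x θ v := by
    rw [← frequently_or_distrib]
    refine freq_mono c2.2 ?_
    filter_upwards [h1.2] with θ e1 hθ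
    tauto
  tauto

end Crest.Agent.R40.D2
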