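import Crest.Agent.R40.D2Defs

set_option autoImplicit false

namespace Crest.Agent.R40.D2

theorem five_exhaust {s t u v a : Fin 5} (h : [s, t, u, v, a].Nodup) (b : Fin 5) :
    b = s ∨ b = t ∨ b = u ∨ b = v ∨ b = a := by
  have hc : ([s, t, u, v, a].toFinset).card = Fintype.card (Fin 5) := by
    rw [List.toFinset_card_of_nodup h]; simp
  have := Finset.eq_univ_of_card _ hc
  have hb : b ∈ [s, t, u, v, a].toFinset := this ▸ Finset.mem_univ b
  simpa using hb

theorem path : PATH := by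
  intro n U U' V s t k hst hU hU' hUs hUt hks hkt h1 h2
  let Q : Fin 5 → Prop := fun m => m = t ∨ (m ≠ s ∧ m ≠ t ∧ V m ∧ n {t, m}) ∨
    (∃ u, [s, t, u, m].Nodup ∧ n {t, u} ∧ n {u, m}) ∨
    (∃ u v, [s, t, u, v, m].Nodup ∧ n {t, u} ∧ n {u, v} ∧ n {v, m})
  have step : ∀ a b, Q a → n {a, b} → V b → b ≠ s → Q b := by
    intro a b ha hab hb hbs
    by_cases hbt : b = t
    · exact Or.inl hbt
    by_cases hba : b = a
    · exact hba ▸ ha
    rcases ha with rfl | ⟨h1, h2, -, h4⟩ | ⟨u, h1, h2, h3⟩ | ⟨u, v, h1, h2, h3, h4⟩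
    · exact Or.inr (Or.inl ⟨hbs, hbt, hb, hab⟩)
    · refine Or.inr (Or.inr (Or.inl ⟨a, ?_, h4, hab⟩))
      simp [hst, h1.symm, h2.symm, Ne.symm hbs, Ne.symm hbt, Ne.symm hba]
    · by_cases hbu : b = u
      · exact Or.inr (Or.inl ⟨hbs, hbt, hb, hbu ▸ h2⟩)
      · refine Or.inr (Or.inr (Or.inr ⟨u, a, ?_, h2, h3, hab⟩))
        simp only [List.nodup_cons, List.mem_cons, List.not_mem_nil, List.nodup_nil] at h1 ⊢
        have := Ne.symm hbs; have := Ne.symm hbt; have := Ne.symm hba; have := Ne.symm hbu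
        tauto
    · rcases five_exhaust h1 b with h | h | h | h | h
      · exact absurd h hbs
      · exact absurd h hbt
      · exact Or.inr (Or.inl ⟨hbs, hbt, hb, h ▸ h2⟩)
      · refine Or.inr (Or.inr (Or.inl ⟨u, ?_, h2, h ▸ h3⟩))
        subst h
        simp only [List.nodup_cons, List.mem_cons, List.not_mem_nil, List.nodup_nil] at h1 ⊢
        tauto
      · exact absurd h hba
  have hk : Q k := by
    clear h2 hks hkt
    induction h1 with
    | refl => exact Or.inl rfl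
    | tail _ hab ih =>
      exact step _ _ ih hab.2.2 (hU _ hab.2.1) (fun h => hUs (h ▸ hab.2.1))
  have key : ∀ m, Reach n U' k m → ((∃ c, c ≠ s ∧ c ≠ t ∧ V c ∧ n {t, c} ∧ n {c, s}) ∨
      (∃ u v, [s, t, u, v].Nodup ∧ n {t, u} ∧ n {u, v} ∧ n {v, s}) ∨
      (∃ u v w, [s, t, u, v, w].Nodup ∧ n {t, u} ∧ n {u, v} ∧ n {v, w} ∧ n {w, s})) ∨
      (Q m ∧ m ≠ s) := by
    intro m hm
    induction hm with
    | refl => exact Or.inr ⟨hk, hks⟩
    | @tail a b _ hab ih =>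
      rcases ih with h | ⟨ha, -⟩
      · exact Or.inl h
      by_cases hbs : b = s
      · subst hbs
        left
        rcases ha with rfl | ⟨h1, h2, h3, h4⟩ | ⟨u, h1, h2, h3⟩ | ⟨u, v, h1, h2, h3, h4⟩
        · exact absurd hab.1 hUt
        · exact Or.inl ⟨a, h1, h2, h3, h4, hab.2.2⟩
        · exact Or.inr (Or.inl ⟨u, a, h1, h2, h3, hab.2.2⟩)
        · exact Or.inr (Or.inr ⟨u, v, a, h1, h2, h3, h4, hab.2.2⟩)
      · exact Or.inr ⟨step _ _ ha hab.2.2 (hU' _ hab.2.1) hbs, hbs⟩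
  rcases key s h2 with h | h
  · exact h
  · exact absurd rfl h.2

end Crest.Agent.R40.D2
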