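import Crest.Agent.R40.D2Defs

set_option autoImplicit false

namespace Crest.Agent.R40
open MeasureTheory Set Filter Topology

namespace D2

theorem sin_split_ne (b : ℝ) : Real.sin ((b - pp) - (b + pp)) ≠ 0 := by
  have : (b - pp) - (b + pp) = -(Real.pi - Real.pi / 3) := by unfold pp; ring
  rw [this, Real.sin_neg, Real.sin_pi_sub, Real.sin_pi_div_three]
  have : 0 < √3 := Real.sqrt_pos.2 (by norm_num)
  intro h; linarith

theorem recip_half (h : ALT) (d : Dat) (hd : Ax d) (q : ℂ) (s t : Fin 5) (b : ℝ) (hD : D d q s t)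
    (hs : d.T (q + e b) s) : ∃ᶠ θ in nae b, d.W q θ s := by
  have h1 := hd.a7 q s (b - pp) (b + pp) (sin_split_ne b) (by rwa [add_assoc, ← e_split])
  have h2 : ∃ᶠ θ in nae (b - pp), d.W q (θ + pp) s := by
    refine freq_mono h1 ?_
    filter_upwards [hd.a1 q s, (h d hd q s t hD).1.2] with θ a1 a2 hn
    exact a2.2 fun hw => hn (a1 hw)
  have h3 := (freq_shift (P := fun θ => d.W q θ s) (a := b - pp) pp).2 h2
  rwa [sub_add_cancel] at h3

theorem recip (h : ALT) : RECIP := fun d hd q s t b hD hs ht =>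
  ⟨recip_half h d hd q s t b hD hs, recip_half h d hd q t s b hD.symm ht⟩

theorem trans (h : ALT) : TRANS := by
  intro d hd x q u v w a hq hx hD hN
  have key : ∀ᵐ θ : ℝ, d.W x θ u → d.W q θ w := by
    filter_upwards [hd.a1 x u, hd.a3 q x u (by rwa [norm_sub_rev]), hD.2] with θ a1 a3 a hw
    exact a.resolve_left fun h' => a3 h' (a1 hw)
  refine ⟨freq_mono hN.2 ?_, freq_mono hN.1 key⟩
  obtain ⟨ax, bx, -, -⟩ := h d hd x u v hx
  obtain ⟨aq, bq, -, -⟩ := h d hd q u w hD
  filter_upwards [ae_shift key pp, ax.2, bx, aq.2, ae_shift bq pp] with θ k1 a1 b1 a2 b2 hv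
  by_contra hn
  exact b2.1 (k1 (a1.2 (b1.1 hv))) (a2.2 hn)

end D2
end Crest.Agent.R40
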