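import Crest.Agent.R40.D2Defs

set_option autoImplicit false

namespace Crest.Agent.R40.D2
open MeasureTheory Set Filter Topology

namespace St4

/-- the six types along the path `uw' - tv - su - tw - sv - uw` -/
def Ty (s t u v w : Fin 5) (W : Fin 5 → Prop) (E : Prop) : Fin 6 → Prop
  | 0 => ¬ E ∧ W u ∧ W w
  | 1 => E ∧ W t ∧ W v
  | 2 => ¬ E ∧ W s ∧ W u
  | 3 => E ∧ W t ∧ W w
  | 4 => ¬ E ∧ W s ∧ W v
  | 5 => E ∧ W u ∧ W w

def adj (a b : Fin 6) : Prop := a.val + 1 = b.val ∨ b.val + 1 = a.val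

instance (a b : Fin 6) : Decidable (adj a b) := by unfold adj; infer_instance

theorem walk : ∀ a b : Fin 6, adj a b → ∀ c, adj b c → ∀ d, adj c d → ∀ e, adj d e →
    ∀ f, adj e f → adj f a → adj a d ∨ adj b e ∨ adj c f := by decide

variable {s t u v w : Fin 5}

theorem adj_of {W W' : Fin 5 → Prop} {E E' : Prop} {a b : Fin 6} (ha : Ty s t u v w W E a)
    (hb : Ty s t u v w W' E' b) (hE : E' ↔ ¬ E) (hd : ∀ i, W i → ¬ W' i) : adj a b := by
  have h1 := hd s; have h2 := hd t; have h3 := hd u; have h4 := hd v; have h5 := hd w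
  fin_cases a <;> fin_cases b <;> first | decide | (exfalso; simp only [Ty] at ha hb; tauto)

theorem cover_of (hc : ∀ i, i = s ∨ i = t ∨ i = u ∨ i = v ∨ i = w) {W W' : Fin 5 → Prop}
    {E E' : Prop} {a b : Fin 6} (ha : Ty s t u v w W E a) (hb : Ty s t u v w W' E' b)
    (h : adj a b) : ∃ m, ∀ i, i ≠ m → W i ∨ W' i := by
  have key : ∀ m, (s ≠ m → W s ∨ W' s) → (t ≠ m → W t ∨ W' t) → (u ≠ m → W u ∨ W' u) →
      (v ≠ m → W v ∨ W' v) → (w ≠ m → W w ∨ W' w) → ∃ m, ∀ i, i ≠ m → W i ∨ W' i := by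
    intro m h1 h2 h3 h4 h5
    refine ⟨m, fun i => ?_⟩
    rcases hc i with rfl | rfl | rfl | rfl | rfl <;> assumption
  fin_cases a <;> fin_cases b <;> first
    | exact absurd h (by decide)
    | (simp only [Ty] at ha hb
       first
        | exact key s (by tauto) (by tauto) (by tauto) (by tauto) (by tauto)
        | exact key t (by tauto) (by tauto) (by tauto) (by tauto) (by tauto)
        | exact key u (by tauto) (by tauto) (by tauto) (by tauto) (by tauto)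
        | exact key v (by tauto) (by tauto) (by tauto) (by tauto) (by tauto)
        | exact key w (by tauto) (by tauto) (by tauto) (by tauto) (by tauto))

theorem cover : ∀ s t u v w : Fin 5, [s, t, u, v, w].Nodup →
    ∀ i, i = s ∨ i = t ∨ i = u ∨ i = v ∨ i = w := by decide

theorem card4 : ∀ s t u v w : Fin 5, [s, t, u, v, w].Nodup →
    3 ≤ (({t, v} : Finset (Fin 5)) ∪ {u, w}).card ∧ 3 ≤ (({t, v} : Finset (Fin 5)) ∪ {s, u}).card ∧
    3 ≤ (({t, w} : Finset (Fin 5)) ∪ {s, u}).card ∧ 3 ≤ (({t, w} : Finset (Fin 5)) ∪ {s, v}).card ∧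
    3 ≤ (({u, w} : Finset (Fin 5)) ∪ {s, v}).card := by decide

theorem ty_of {W : Fin 5 → Prop} {E : Prop} (f1 : W s ∨ W v ∨ W w) (f2 : W s ∨ W t ∨ W w)
    (f3 : W s ∨ W t ∨ W u) (f4 : W t ∨ W u ∨ W v) (hs : E → ¬ W s) (ht : ¬ E → ¬ W t) :
    ∃ a, Ty s t u v w W E a := by
  by_cases hE : E
  · have := hs hE
    by_cases h1 : W t
    · by_cases h2 : W v
      · exact ⟨1, hE, h1, h2⟩
      · exact ⟨3, hE, h1, by tauto⟩
    · exact ⟨5, hE, by tauto, by tauto⟩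
  · have := ht hE
    by_cases h1 : W s
    · by_cases h2 : W u
      · exact ⟨2, hE, h1, h2⟩
      · exact ⟨4, hE, h1, by tauto⟩
    · exact ⟨0, hE, by tauto, by tauto⟩

theorem three {W : Fin 5 → Prop} {i a b c p q : Fin 5}
    (hc : i = a ∨ i = b ∨ i = c ∨ i = p ∨ i = q) (hi : i ∉ ({p, q} : Finset (Fin 5)))
    (h : W i) : W a ∨ W b ∨ W c := by
  simp only [Finset.mem_insert, Finset.mem_singleton, not_or] at hi
  rcases hc with rfl | rfl | rfl | rfl | rfl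
  · exact Or.inl h
  · exact Or.inr (Or.inl h)
  · exact Or.inr (Or.inr h)
  · exact absurd rfl hi.1
  · exact absurd rfl hi.2

theorem anti6 {A B C D E F : Prop} (h0 : B ↔ ¬ A) (h1 : C ↔ ¬ B) (h2 : D ↔ ¬ C) (h3 : E ↔ ¬ D)
    (h4 : F ↔ ¬ E) : A ↔ ¬ F := by tauto

def Fin' (s t u v w m a b a' b' : Fin 5) : Prop :=
  ∀ (W W' : Fin 5 → Prop) (E E' : Prop) (k k' : Fin 6), Ty s t u v w W E k →
    Ty s t u v w W' E' k' → adj k k' → ¬ W m → ¬ W' m →
    (E → W a ∧ W b) ∧ (¬ E → W a' ∧ W b')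

theorem fs : Fin' s t u v w s t v u w := fun W W' E E' k k' a b c d e => by
  fin_cases k <;> fin_cases k' <;> first
    | exact absurd c (by decide) | (simp only [Ty] at a b; tauto)
theorem ft : Fin' s t u v w t u w s v := fun W W' E E' k k' a b c d e => by
  fin_cases k <;> fin_cases k' <;> first
    | exact absurd c (by decide) | (simp only [Ty] at a b; tauto)
theorem fu : Fin' s t u v w u t w s v := fun W W' E E' k k' a b c d e => by
  fin_cases k <;> fin_cases k' <;> first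
    | exact absurd c (by decide) | (simp only [Ty] at a b; tauto)
theorem fv : Fin' s t u v w v t w s u := fun W W' E E' k k' a b c d e => by
  fin_cases k <;> fin_cases k' <;> first
    | exact absurd c (by decide) | (simp only [Ty] at a b; tauto)
theorem fw : Fin' s t u v w w t v s u := fun W W' E E' k k' a b c d e => by
  fin_cases k <;> fin_cases k' <;> first
    | exact absurd c (by decide) | (simp only [Ty] at a b; tauto)

end St4

open St4 in
theorem st4 (h : TT2) : ST4 := by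
  intro d hd y E s t u v w hn hE hs ht n1 n2 n3 n4
  have hc := cover s t u v w hn
  obtain ⟨c1, c2, c3, c4, c5⟩ := card4 s t u v w hn
  -- types
  have hty : ∀ᵐ θ : ℝ, ∃ a, Ty s t u v w (d.W y θ) (θ ∈ E) a := by
    filter_upwards [hd.a4 y _ n1, hd.a4 y _ n2, hd.a4 y _ n3, hd.a4 y _ n4, hs, ht]
      with θ ⟨i1, k1, w1⟩ ⟨i2, k2, w2⟩ ⟨i3, k3, w3⟩ ⟨i4, k4, w4⟩ hs ht
    have c1 := hc i1; have c2 := hc i2; have c3 := hc i3; have c4 := hc i4
    exact ty_of (three (by clear * - c1; tauto) k1 w1) (three (by clear * - c2; tauto) k2 w2)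
      (three (by clear * - c3; tauto) k3 w3) (three (by clear * - c4; tauto) k4 w4) hs ht
  have hWL : ∀ᵐ θ : ℝ, ∀ i, d.W y θ i → d.L y θ i := ae_all_iff.2 fun i => hd.a1 y i
  have hdis : ∀ᵐ θ : ℝ, ∀ i, d.W y θ i → ¬ d.W y (θ + pp) i := by
    filter_upwards [ae_all_iff.2 fun i => hd.a2 y i, ae_shift hWL pp] with θ h1 h2 i hi hi'
    exact (h1 i hi).1 (h2 i hi')
  have hall : ∀ᵐ θ : ℝ, (∃ a, Ty s t u v w (d.W y θ) (θ ∈ E) a) ∧ (∀ i, d.W y θ i → d.L y θ i) ∧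
      (∀ i, d.W y θ i → ¬ d.W y (θ + pp) i) ∧ (θ + pp ∈ E ↔ θ ∉ E) := by
    filter_upwards [hty, hWL, hdis, hE.2] with θ a b c d using ⟨a, b, c, d⟩
  -- some colour is killed
  obtain ⟨m, hm⟩ : ∃ m, ∀ᵐ θ : ℝ, ¬ d.W y θ m := by
    by_contra hno
    have hne : ∀ᵐ θ : ℝ, ∀ m, ¬ ∀ i, i ≠ m → d.L y θ i ∨ d.L y (θ + Real.pi) i :=
      ae_all_iff.2 fun m => by
        by_contra hh
        exact hno ⟨m, hd.a9 y m hh⟩
    have hF : ∀ᵐ θ : ℝ, False := by
      filter_upwards [hall, ae_shift hall pp, ae_shift (ae_shift hall pp) pp,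
        ae_shift (ae_shift (ae_shift hall pp) pp) pp,
        ae_shift (ae_shift (ae_shift (ae_shift hall pp) pp) pp) pp,
        ae_shift (ae_shift (ae_shift (ae_shift (ae_shift hall pp) pp) pp) pp) pp,
        hne, ae_shift hne pp, ae_shift (ae_shift hne pp) pp, ae_shift hE.2 (-pp)]
        with θ ⟨⟨a0, t0⟩, l0, d0, e0⟩ ⟨⟨a1, t1⟩, l1, d1, e1⟩ ⟨⟨a2, t2⟩, l2, d2, e2⟩
          ⟨⟨a3, t3⟩, l3, d3, e3⟩ ⟨⟨a4, t4⟩, l4, d4, e4⟩ ⟨⟨a5, t5⟩, l5, d5, e5⟩ m0 m1 m2 _
      have p3 : ∀ z : ℝ, z + Real.pi = z + pp + pp + pp := fun z => by unfold pp; ring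
      have p6 : θ + pp + pp + pp + pp + pp + pp = θ + 2 * Real.pi := by unfold pp; ring
      have d5' : ∀ i, d.W y (θ + pp + pp + pp + pp + pp) i → ¬ d.W y θ i := by
        intro i hi hi'
        refine d5 i hi ?_
        rw [p6, hd.pW]; exact hi'
      have e5' : θ ∈ E ↔ ¬ (θ + pp + pp + pp + pp + pp ∈ E) := anti6 e0 e1 e2 e3 e4
      rw [p3] at m0 m1 m2
      rcases walk a0 a1 (adj_of t0 t1 e0 d0) a2 (adj_of t1 t2 e1 d1) a3 (adj_of t2 t3 e2 d2)
        a4 (adj_of t3 t4 e3 d3) a5 (adj_of t4 t5 e4 d4) (adj_of t5 t0 e5' d5') with h | h | h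
      · obtain ⟨m, hm⟩ := cover_of hc t0 t3 h
        exact m0 m fun i hi => (hm i hi).imp (l0 i) (l3 i)
      · obtain ⟨m, hm⟩ := cover_of hc t1 t4 h
        exact m1 m fun i hi => (hm i hi).imp (l1 i) (l4 i)
      · obtain ⟨m, hm⟩ := cover_of hc t2 t5 h
        exact m2 m fun i hi => (hm i hi).imp (l2 i) (l5 i)
    exact (Filter.eventually_false_iff_eq_bot.1 hF ▸ (inferInstance : (ae (volume : Measure ℝ)).NeBot)).ne rfl
  -- the remaining types
  have fin : ∀ a b a' b' : Fin 5, 3 ≤ (({a, b} : Finset (Fin 5)) ∪ {a', b'}).card →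
      Fin' s t u v w m a b a' b' → False := by
    intro a b a' b' hcard H
    have hh : ∀ᵐ θ : ℝ, (θ ∈ E → d.L y θ a ∧ d.L y θ b) ∧ (θ ∉ E → d.L y θ a' ∧ d.L y θ b') := by
      filter_upwards [hall, ae_shift hall pp, hm, ae_shift hm pp]
        with θ ⟨⟨a0, t0⟩, l0, d0, e0⟩ ⟨⟨a1, t1⟩, _, _, _⟩ m0 m1
      obtain ⟨h1, h2⟩ := H _ _ _ _ _ _ t0 t1 (adj_of t0 t1 e0 d0) m0 m1
      exact ⟨fun hh => ⟨l0 _ (h1 hh).1, l0 _ (h1 hh).2⟩, fun hh => ⟨l0 _ (h2 hh).1, l0 _ (h2 hh).2⟩⟩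
    refine h d hd y E univ {a, b} {a', b'} {a', b'} hE MeasurableSet.univ
      (Eventually.of_forall fun _ => by simp) hcard hcard ?_ ?_ ?_
    · filter_upwards [hh] with θ hθ h1 i hi
      rcases Finset.mem_insert.1 hi with rfl | hi
      · exact (hθ.1 h1).1
      · rw [Finset.mem_singleton.1 hi]; exact (hθ.1 h1).2
    · filter_upwards [hh] with θ hθ h1 _ i hi
      rcases Finset.mem_insert.1 hi with rfl | hi
      · exact (hθ.2 h1).1
      · rw [Finset.mem_singleton.1 hi]; exact (hθ.2 h1).2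
    · exact Eventually.of_forall fun θ _ h2 => absurd (mem_univ θ) h2
  rcases hc m with rfl | rfl | rfl | rfl | rfl
  · exact fin _ _ _ _ c1 fs
  · exact fin _ _ _ _ c5 ft
  · exact fin _ _ _ _ c4 fu
  · exact fin _ _ _ _ c3 fv
  · exact fin _ _ _ _ c2 fw

end Crest.Agent.R40.D2
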