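import Crest.Agent.R40.D2Defs

/-! Row 40, blow-up-free THEOREM D: task STEP. -/

set_option autoImplicit false

namespace Crest.Agent.R40.D2
open MeasureTheory Set Filter Topology

theorem step_rest : ∀ s t c : Fin 5, s ≠ t → c ≠ s → c ≠ t →
    ∃ u v : Fin 5, [s, t, c, u, v].Nodup ∧ u ≠ v ∧
      ∀ i : Fin 5, i ≠ s → i ≠ t → i ≠ c → i = u ∨ i = v := by decide

theorem step_sin (a : ℝ) : Real.sin (a - pp - (a + pp)) ≠ 0 := by
  have h : a - pp - (a + pp) = -(Real.pi - Real.pi / 3) := by unfold pp; ring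
  rw [h, Real.sin_neg, Real.sin_pi_sub, Real.sin_pi_div_three]
  have : (0 : ℝ) < √3 := Real.sqrt_pos.2 (by norm_num)
  intro h0
  linarith

theorem step (h0 : ALT) (h1 : PATH) (h3 : ST3) (h4 : ST4) : STEP := by
  intro d hd x s t a hD hNC
  have hTs : d.T (x + e a) s := hd.a5 x s a hNC.1
  have hTt : d.T (x + e a) t := hd.a5 x t a hNC.2
  have hy : x + e (a - pp) + e (a + pp) = x + e a := by rw [e_split a, add_assoc]
  have hP : ∀ᵐ θ : ℝ, (d.W x θ s ∨ d.W x θ t) ∧ (d.W x θ s → d.L x θ s) ∧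
      (d.W x θ t → d.L x θ t) := by
    filter_upwards [hD.2, hd.a1 x s, hd.a1 x t] with θ a1 a2 a3 using ⟨a1, a2, a3⟩
  have h8 := hd.a8 x (a - pp) (a + pp) t s _ (step_sin a) (by rw [hy]; exact hTt)
    (by rw [hy]; exact hTs) hP
  rw [hy] at h8
  obtain ⟨α, β, k, hα, hβ, hβt, hαs, hαk, hβk, R1, R2⟩ := h8
  have hβs : d.L x β s := by
    rcases hβ.1 with h | h
    · exact hβ.2.1 h
    · exact absurd (hβ.2.2 h) hβt
  have hαt : d.L x α t := by
    rcases hα.1 with h | h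
    · exact absurd (hα.2.1 h) hαs
    · exact hα.2.2 h
  have hn : ‖x - (x + e a)‖ = 1 := by
    rw [show x - (x + e a) = -e a by ring, norm_neg, norm_e]
  have hE : Anti {θ | d.W x θ s} := (h0 d hd x s t hD).1
  have hEs : ∀ᵐ θ : ℝ, θ ∈ {θ | d.W x θ s} → ¬ d.W (x + e a) θ s := by
    filter_upwards [hd.a1 x s, hd.a3 (x + e a) x s hn] with θ a1 a2 hθ hW using a2 hW (a1 hθ)
  have hEt : ∀ᵐ θ : ℝ, θ ∉ {θ | d.W x θ s} → ¬ d.W (x + e a) θ t := by
    filter_upwards [hD.2, hd.a1 x t, hd.a3 (x + e a) x t hn] with θ a0 a1 a2 hθ hW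
    exact a2 hW (a1 (a0.resolve_left hθ))
  rcases h1 (d.N (x + e a)) (fun m => d.T (x + e a) m ∧ ¬ d.L x β m)
    (fun m => d.T (x + e a) m ∧ ¬ d.L x α m) (d.T (x + e a)) s t k hD.1 (fun _ h => h.1)
    (fun _ h => h.1) (fun h => h.2 hβs) (fun h => h.2 hαt) (fun h => hβk (h ▸ hβs))
    (fun h => hαk (h ▸ hαt)) R1 R2 with ⟨c, hcs, hct, hTc, n1, n2⟩ | ⟨u, v, hnd, n1, n2, n3⟩ |
      ⟨u, v, w, hnd, n1, n2, n3, n4⟩
  · obtain ⟨u, v, hnd, huv, hall⟩ := step_rest s t c hD.1 hcs hct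
    refine ⟨c, u, v, hnd, hTs, hTt, hTc, huv, ?_⟩
    filter_upwards [hEs, hEt, hd.a4 _ _ n1, hd.a4 _ _ n2] with θ b1 b2 b3 b4
    by_cases hθ : θ ∈ {θ | d.W x θ s}
    · obtain ⟨i, hi, hW⟩ := b3
      simp only [Finset.mem_insert, Finset.mem_singleton, not_or] at hi
      rcases hall i (fun h => b1 hθ (h ▸ hW)) hi.1 hi.2 with h | h
      · exact Or.inl (h ▸ hW)
      · exact Or.inr (h ▸ hW)
    · obtain ⟨i, hi, hW⟩ := b4
      simp only [Finset.mem_insert, Finset.mem_singleton, not_or] at hi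
      rcases hall i hi.2 (fun h => b2 hθ (h ▸ hW)) hi.1 with h | h
      · exact Or.inl (h ▸ hW)
      · exact Or.inr (h ▸ hW)
  · exact (h3 d hd _ _ s t u v hnd hE hEs hEt n1 n2 n3).elim
  · exact (h4 d hd _ _ s t u v w hnd hE hEs hEt n1 n2 n3 n4).elim

end Crest.Agent.R40.D2
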