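import Crest.Agent.R40.D2Defs

/-! Row 40, task TT2. -/

set_option autoImplicit false

namespace Crest.Agent.R40.D2
open MeasureTheory Set Filter Topology

theorem Anti.two {X : Set ℝ} (h : Anti X) : ∀ᵐ θ : ℝ, θ + 2 * Real.pi / 3 ∈ X ↔ θ ∈ X := by
  filter_upwards [h.2, ae_shift h.2 pp] with θ h1 h2
  have : θ + 2 * Real.pi / 3 = θ + pp + pp := by ring
  rw [this, h2, h1, not_not]

theorem Anti.three {X : Set ℝ} (h : Anti X) : ∀ᵐ θ : ℝ, θ + Real.pi ∈ X ↔ θ ∉ X := by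
  filter_upwards [h.2, ae_shift h.two pp] with θ h1 h2
  have : θ + Real.pi = θ + pp + 2 * Real.pi / 3 := by ring
  rw [this, h2, h1]

theorem Anti.six {X : Set ℝ} (h : Anti X) : ∀ᵐ θ : ℝ, θ ∈ X ↔ θ + 2 * Real.pi ∈ X := by
  filter_upwards [h.three, ae_shift h.three Real.pi] with θ h1 h2
  have : θ + 2 * Real.pi = θ + Real.pi + Real.pi := by ring
  rw [this, h2, h1, not_not]

theorem tt2a : TT2 := by
  intro d hd x X Y A B₁ B₂ hX hY hYp h1 h2 hA hB1 hB2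
  have hm : MeasurableSet {β : ℝ | β + Real.pi ∈ Y} := measurable_add_const Real.pi hY
  have hX2 : ∀ᵐ u : ℝ, u ∈ X → u + 2 * Real.pi / 3 ∈ X := hX.two.mono fun _ h => h.2
  have hsw : ∀ u : ℝ, u + 2 * Real.pi / 3 + Real.pi = u + Real.pi + 2 * Real.pi / 3 :=
    fun u => by ring
  have k1 := hd.a10 x X (X ∩ {β | β + Real.pi ∈ Y}) A B₁ hX.1 (hX.1.inter hm) hX2 (by
      filter_upwards [hX2, ae_shift hYp Real.pi] with u h3 h4 h5
      exact ⟨h3 h5.1, by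
        show u + 2 * Real.pi / 3 + Real.pi ∈ Y
        rw [hsw]; exact h4.2 h5.2⟩) h1 hA (by
      filter_upwards [hX.three, ae_shift hB1 Real.pi] with u h3 h4 h5
      exact h4 (fun h6 => h3.1 h6 h5.1) h5.2)
  have k2 := hd.a10 x X (X ∩ {β | β + Real.pi ∈ Y}ᶜ) A B₂ hX.1 (hX.1.inter hm.compl) hX2 (by
      filter_upwards [hX2, ae_shift hYp Real.pi] with u h3 h4 h5
      exact ⟨h3 h5.1, fun h6 => h5.2 (h4.1 (by rw [← hsw]; exact h6))⟩) h2 hA (by
      filter_upwards [hX.three, ae_shift hB2 Real.pi] with u h3 h4 h5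
      exact h4 (fun h6 => h3.1 h6 h5.1) h5.2)
  have k3 : ∀ᵐ u : ℝ, ¬ (u ∈ X ∧ u + rho ∈ X) := by
    filter_upwards [k1, k2] with u h3 h4 h5
    by_cases h6 : u + rho + Real.pi ∈ Y
    · exact h3 ⟨h5.1, h5.2, h6⟩
    · exact h4 ⟨h5.1, h5.2, h6⟩
  refine not_flip hX.1 hX.six ?_
  filter_upwards [k3, ae_shift k3 Real.pi, hX.three, ae_shift hX.three rho] with u h3 h4 h5 h6
  have : u + Real.pi + rho = u + rho + Real.pi := by ring
  rw [this] at h4
  tauto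

end Crest.Agent.R40.D2
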