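import Crest.Agent.R40.Cone
import Crest.Agent.R40.MBasic

/-! Row 40: `SW`, `FAN`, `CONE0`. -/

set_option autoImplicit false

open Filter Topology MeasureTheory Set

namespace Crest.Agent.R40

theorem measurableSet_free_arc' {c : ℂ → Fin 5} (hc : Measurable c) (i : Fin 5) (x : ℂ) :
    MeasurableSet {φ : ℝ | Free c i (x + e φ)} :=
  (continuous_const.add continuous_e).measurable (measurableSet_free hc i)

theorem sw' : SW := by
  intro c hc x
  have h : ∀ i : Fin 5, ∀ᵐ w : ℂ, w ∈ c ⁻¹' {i} → ∀ φ ∈ {φ : ℝ | Free c i (x + e φ)},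
      ‖w - x - circleMap 0 1 φ‖ ≠ 1 := fun i =>
    null_image _ (hc.1 (measurableSet_singleton i)) _ (measurableSet_free_arc' hc.1 i x) x
      fun φ hφ => hφ
  filter_upwards [ae_all_iff.2 h] with z hz α hα hf
  exact hz (c z) rfl α hf (by rw [sub_sub]; exact hα)

theorem sw (_ : BASIC) : SW := sw'

theorem fan' : FAN := by
  intro c hc x i
  rw [ENNReal.tendsto_nhds_zero]
  intro ε hε
  obtain ⟨ρ, hρ, h⟩ := cone1 _ (hc.1 (measurableSet_singleton i)) _
    (measurableSet_free_arc' hc.1 i x) x (fun φ hφ => hφ) Per measurableSet_Ioc measure_Ioc_lt_top.ne ε hε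
  refine eventually_nae.2 ⟨ρ, hρ, ?_⟩
  filter_upwards [h] with t ht htρ
  exact ht (by simpa using htρ)

theorem fan (_ : BASIC) : FAN := fan'

theorem cone0' : CONE0 := by
  intro c hc x m D hD hD0 h
  rw [Metric.tendsto_nhds]
  intro ε hε
  obtain ⟨ρ, hρ, hρ'⟩ := cone2 _ (hc.1 (measurableSet_singleton m)) (D ∩ Per)
    (hD.inter measurableSet_Ioc) hD0 x (fun δ hδ => by
      obtain ⟨ρ, hρ, hρ'⟩ := eventually_nae.1 (ENNReal.tendsto_nhds_zero.1 h δ hδ)
      refine ⟨ρ, hρ, ?_⟩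
      filter_upwards [hρ'] with t ht htρ
      refine le_trans (measure_mono ?_) (ht (by simpa using htρ))
      exact fun α hα => ⟨hα.1.2, hα.1.1, hα.2⟩) (2 * Real.pi * ε) (by positivity)
  refine eventually_nae.2 ⟨ρ, hρ, ?_⟩
  have hne : ∀ᵐ y : ℂ, y ≠ x := by rw [ae_iff]; simp
  filter_upwards [ae_circle_of_ae hc.ae_free, hne] with y hy hyx hyρ
  have h1 := hρ' y hyx hyρ
  have h2 : volume {θ : ℝ | θ ∈ Per ∧ c (y + e θ) = m} ≤ volume ({θ : ℝ | ∀ᵐ φ : ℝ,
      y + circleMap 0 1 θ + circleMap 0 1 φ ∉ c ⁻¹' {m}} ∩ Ioc 0 (2 * Real.pi)) := by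
    refine measure_mono_ae ?_
    filter_upwards [hy] with θ hθ
    rintro ⟨h3, h4⟩
    refine ⟨?_, h3⟩
    have h5 : Free c m (y + e θ) := h4 ▸ hθ
    exact h5
  rw [vol_arc_eq hc.1] at h2
  have h3 := (ENNReal.ofReal_lt_ofReal_iff (by positivity)).1 (h2.trans_lt h1)
  rw [Real.dist_eq, sub_zero, abs_of_nonneg (G_nonneg _ _ _)]
  exact lt_of_mul_lt_mul_left h3 (by positivity)

theorem cone0 (_ : BASIC) : CONE0 := cone0'

end Crest.Agent.R40
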