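import Crest.Agent.R40.MDefs

set_option autoImplicit false

namespace Crest.Agent.R40
open MeasureTheory Set Filter Topology

theorem Cone2.per_ne {D : Set ℝ} (hper : ∀ a (n : ℤ), a ∈ D → a + n * (2 * Real.pi) ∈ D)
    (h : volume D ≠ 0) : volume (D ∩ Per) ≠ 0 := by
  intro h0
  apply h
  have hp : 0 < 2 * Real.pi := by positivity
  have hs : D ⊆ ⋃ n : ℤ, (fun a => a + n * (2 * Real.pi)) ⁻¹' (D ∩ Per) := by
    intro a ha
    refine mem_iUnion.2 ⟨-toIocDiv hp 0 a, hper a _ ha, ?_⟩
    have := sub_toIocDiv_zsmul_mem_Ioc hp 0 a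
    simpa [Per, sub_eq_add_neg] using this
  refine measure_mono_null hs (measure_iUnion_null fun n => ?_)
  rw [measure_preimage_add_right, h0]

theorem cone (hB : BASIC) (hF : FAN) (h0 : CONE0) (hA : AVAPI) : CONE := by
  intro c hc x m hne
  obtain ⟨-, b2, -⟩ := hB c hc
  set D : Set ℝ := {α | ∀ i, i ≠ m →
    Free c i (x + e (α + Real.pi / 2)) ∨ Free c i (x + e (α - Real.pi / 2))} with hD
  have he : Measurable e := (continuous_circleMap 0 1).measurable
  have hDm : MeasurableSet D := by
    have : D = ⋂ i, ⋂ _ : i ≠ m, ((fun α => x + e (α + Real.pi / 2)) ⁻¹' {y | Free c i y} ∪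
        (fun α => x + e (α - Real.pi / 2)) ⁻¹' {y | Free c i y}) := by
      ext α; simp [hD]
    rw [this]
    refine MeasurableSet.iInter fun i => MeasurableSet.iInter fun _ => MeasurableSet.union ?_ ?_
    · exact (measurable_const.add (he.comp (measurable_id.add_const _))) (b2 i)
    · exact (measurable_const.add (he.comp (measurable_id.sub_const _))) (b2 i)
  have hD0 : volume D ≠ 0 := by
    intro hz
    apply hne
    have h1 : volume ((fun θ => θ + Real.pi / 2) ⁻¹' D) = 0 := by
      rw [measure_preimage_add_right, hz]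
    filter_upwards [measure_eq_zero_iff_ae_notMem.1 h1] with θ hθ hall
    apply hθ
    intro i hi
    have e1 : θ + Real.pi / 2 + Real.pi / 2 = θ + Real.pi := by ring
    have e2 : θ + Real.pi / 2 - Real.pi / 2 = θ := by ring
    simp only [e1, e2]
    exact (hall i hi).symm
  have hper : ∀ a (n : ℤ), a ∈ D → a + n * (2 * Real.pi) ∈ D := by
    intro a n ha i hi
    have p := (periodic_circleMap 0 1).int_mul n
    have e1 : e (a + n * (2 * Real.pi) + Real.pi / 2) = e (a + Real.pi / 2) := by
      rw [add_right_comm]; exact p _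
    have e2 : e (a + n * (2 * Real.pi) - Real.pi / 2) = e (a - Real.pi / 2) := by
      rw [add_sub_right_comm]; exact p _
    rw [e1, e2]; exact ha i hi
  have hT : Tendsto (G c m) (nae x) (𝓝 0) := by
    refine h0 c hc x m D hDm (Cone2.per_ne hper hD0) ?_
    have hs := tendsto_finsetSum (Finset.univ : Finset (Fin 5)) fun i _ => hF c hc x i
    simp only [Finset.sum_const_zero] at hs
    refine tendsto_of_tendsto_of_tendsto_of_le_of_le tendsto_const_nhds hs
      (fun _ => zero_le) fun t => ?_
    refine le_trans (measure_mono ?_) (measure_biUnion_finset_le _ _)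
    rintro α ⟨h1, h2, h3⟩
    simp only [mem_iUnion]
    exact ⟨c (x + t * e α), Finset.mem_univ _, h1, h2 _ h3, rfl⟩
  exact ⟨hT, (hA c hc x m).2.2.2.2.2 hT⟩

end Crest.Agent.R40
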