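import Crest.Agent.R40.Smooth
import Crest.Agent.R40.MDefs

set_option autoImplicit false

namespace Crest.Agent.R40

open MeasureTheory FourierTransform Real Filter Topology
open scoped RealInnerProductSpace

namespace Smooth

theorem sig_le (ξ : ℂ) : ‖sig ξ‖ ≤ 2 * π := by
  have := intervalIntegral.norm_integral_le_of_norm_le_const (a := 0) (b := 2 * π) (C := 1)
    (f := fun θ : ℝ => ((Real.fourierChar ⟪circleMap 0 1 θ, ξ⟫ : Circle) : ℂ)) (fun θ _ => by simp)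
  rwa [sub_zero, abs_of_pos (by positivity), one_mul] at this

theorem char_lin (t : ℝ) : ‖((Real.fourierChar t : Circle) : ℂ) - 1‖ ≤ 2 * π * |t| := by
  rw [Real.fourierChar_apply, mul_comm _ Complex.I]
  refine (Real.norm_exp_I_mul_ofReal_sub_one_le).trans ?_
  rw [Real.norm_eq_abs, abs_mul, abs_of_pos (by positivity : (0:ℝ) < 2 * π)]

theorem little_o {g : ℂ → ℂ} (hg : Measurable g) {R : ℝ} (hb : ∀ y, ‖g y‖ ≤ 1)
    (hs : ∀ y, R < ‖y‖ → g y = 0) (ε : ℝ) (hε : 0 < ε) : ∃ h₀ : ℝ, 0 < h₀ ∧ ∀ h : ℂ, ‖h‖ ≤ h₀ →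
    Integrable (fun y => ‖A g (y + h) - A g y‖ ^ 2) ∧ ∫ y, ‖A g (y + h) - A g y‖ ^ 2 ≤ ε * ‖h‖ := by
  have mA := measurable_A hg
  have LA : ∀ p, MemLp (A g) p := memLp_of mA (2 * π) (R + 1) (norm_A_le hb) (A_far hs)
  have Lg : ∀ p, MemLp g p := memLp_of hg 1 R hb hs
  have iA := memLp_one_iff_integrable.mp (LA 1)
  obtain ⟨pg1, -⟩ := Planch.plancherel (memLp_one_iff_integrable.mp (Lg 1)) (Lg 2)
  have hig : Integrable fun ξ => ‖(𝓕 g : ℂ → ℂ) ξ‖ ^ 2 :=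
    (memLp_two_iff_integrable_sq_norm pg1.aestronglyMeasurable).mp pg1
  have hms : ∀ n : ℕ, MeasurableSet {ξ : ℂ | (n : ℝ) < ‖ξ‖} := fun n =>
    measurableSet_lt measurable_const measurable_norm
  have htail := tendsto_setIntegral_of_antitone (μ := volume)
    (f := fun ξ => ‖(𝓕 g : ℂ → ℂ) ξ‖ ^ 2) (s := fun n : ℕ => {ξ : ℂ | (n : ℝ) < ‖ξ‖}) hms
    (fun a b hab ξ (hξ : (b : ℝ) < ‖ξ‖) => show (a : ℝ) < ‖ξ‖ from
      lt_of_le_of_lt (Nat.cast_le.2 hab) hξ) ⟨0, hig.integrableOn⟩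
  have hempty : (⋂ n : ℕ, {ξ : ℂ | (n : ℝ) < ‖ξ‖}) = ∅ := by
    ext ξ
    simp only [Set.mem_iInter, Set.mem_setOf_eq, Set.mem_empty_iff_false, iff_false, not_forall,
      not_lt]
    exact exists_nat_ge _
  rw [hempty, setIntegral_empty] at htail
  obtain ⟨K, hK⟩ := (htail.eventually (gt_mem_nhds (show (0:ℝ) < ε / (2 * 648) by positivity))).exists
  set I : ℝ := ∫ ξ, ‖(𝓕 g : ℂ → ℂ) ξ‖ ^ 2 with hI
  have hI0 : 0 ≤ I := integral_nonneg fun ξ => by positivity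
  set D : ℝ := (2 * π * K) ^ 2 * (2 * π) ^ 2 with hD
  have hD0 : 0 ≤ D := by positivity
  refine ⟨ε / (2 * (D * I + 1)), by positivity, fun h hh => ?_⟩
  have LA' : ∀ p, MemLp (fun y => A g (y + h)) p :=
    memLp_of (mA.comp (measurable_add_const h)) (2 * π) (R + 1 + ‖h‖) (fun y => norm_A_le hb _)
      (fun y hy => A_far hs _ (by
        have h2 := norm_sub_le (y + h) h
        rw [add_sub_cancel_right] at h2
        linarith))
  have iA' := memLp_one_iff_integrable.mp (LA' 1)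
  have L2 := (LA' 2).sub (LA 2)
  refine ⟨(memLp_two_iff_integrable_sq_norm L2.aestronglyMeasurable).mp L2, ?_⟩
  obtain ⟨-, pu2⟩ := Planch.plancherel (iA'.sub iA) L2
  have hft : ∀ ξ, (𝓕 ((fun y => A g (y + h)) - A g) : ℂ → ℂ) ξ =
      (((Real.fourierChar ⟪h, ξ⟫ : Circle) : ℂ) - 1) * (sig ξ * (𝓕 g : ℂ → ℂ) ξ) := by
    intro ξ
    rw [← ft_A hg hb hs, sub_mul, one_mul, ← ft_shift, Real.fourier_eq, Real.fourier_eq,
      Real.fourier_eq, ← integral_sub]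
    · congr 1; ext y; simp only [Pi.sub_apply, smul_sub]
    · exact (Real.fourierIntegral_convergent_iff ξ).mpr iA'
    · exact (Real.fourierIntegral_convergent_iff ξ).mpr iA
  have hind : Integrable ({ξ : ℂ | (K : ℝ) < ‖ξ‖}.indicator fun ξ => ‖(𝓕 g : ℂ → ℂ) ξ‖ ^ 2) :=
    hig.indicator (hms K)
  calc ∫ y, ‖A g (y + h) - A g y‖ ^ 2
      = ∫ ξ, ‖(𝓕 ((fun y => A g (y + h)) - A g) : ℂ → ℂ) ξ‖ ^ 2 := pu2.symm
    _ ≤ ∫ ξ, (‖h‖ ^ 2 * D * ‖(𝓕 g : ℂ → ℂ) ξ‖ ^ 2 + 648 * ‖h‖ *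
          {ξ : ℂ | (K : ℝ) < ‖ξ‖}.indicator (fun ξ => ‖(𝓕 g : ℂ → ℂ) ξ‖ ^ 2) ξ) := by
        apply integral_mono_of_nonneg (Filter.Eventually.of_forall fun ξ => by positivity)
          ((hig.const_mul _).add (hind.const_mul _))
        refine Filter.Eventually.of_forall fun ξ => ?_
        simp only [hft, norm_mul, mul_pow, Pi.add_apply]
        have b3 : |⟪h, ξ⟫| ≤ ‖h‖ * ‖ξ‖ := abs_real_inner_le_norm h ξ
        by_cases hξ : (K : ℝ) < ‖ξ‖
        · rw [Set.indicator_of_mem (by exact hξ)]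
          have b1 := char_bound ⟪h, ξ⟫
          have b2 := sig_bound ξ
          have b4 : ‖((Real.fourierChar ⟪h, ξ⟫ : Circle) : ℂ) - 1‖ ^ 2
              ≤ 2 * ‖h‖ * (2 * π * ‖ξ‖) := by
            refine b1.trans ?_
            calc 2 * (2 * π * |⟪h, ξ⟫|) ≤ 2 * (2 * π * (‖h‖ * ‖ξ‖)) := by gcongr
              _ = _ := by ring
          calc _ ≤ 2 * ‖h‖ * (2 * π * ‖ξ‖) * (‖sig ξ‖ ^ 2 * ‖(𝓕 g : ℂ → ℂ) ξ‖ ^ 2) := by gcongr
            _ = 2 * ‖h‖ * (‖sig ξ‖ ^ 2 * (2 * π * ‖ξ‖)) * ‖(𝓕 g : ℂ → ℂ) ξ‖ ^ 2 := by ring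
            _ ≤ 2 * ‖h‖ * 324 * ‖(𝓕 g : ℂ → ℂ) ξ‖ ^ 2 := by gcongr
            _ = 648 * ‖h‖ * ‖(𝓕 g : ℂ → ℂ) ξ‖ ^ 2 := by ring
            _ ≤ _ := le_add_of_nonneg_left (by positivity)
        · rw [Set.indicator_of_notMem (by exact hξ), mul_zero, add_zero]
          have hξ' : ‖ξ‖ ≤ K := not_lt.1 hξ
          have b1 : ‖((Real.fourierChar ⟪h, ξ⟫ : Circle) : ℂ) - 1‖ ≤ 2 * π * (‖h‖ * K) :=
            (char_lin _).trans (by
              have : |⟪h, ξ⟫| ≤ ‖h‖ * K := b3.trans (by gcongr)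
              gcongr)
          have b2 := sig_le ξ
          calc _ ≤ (2 * π * (‖h‖ * K)) ^ 2 * ((2 * π) ^ 2 * ‖(𝓕 g : ℂ → ℂ) ξ‖ ^ 2) := by gcongr
            _ = _ := by rw [hD]; ring
    _ = ‖h‖ ^ 2 * D * I + 648 * ‖h‖ * ∫ ξ in {ξ : ℂ | (K : ℝ) < ‖ξ‖}, ‖(𝓕 g : ℂ → ℂ) ξ‖ ^ 2 := by
        rw [integral_add (hig.const_mul _) (hind.const_mul _), integral_const_mul,
          integral_const_mul, integral_indicator (hms K)]
    _ ≤ ε / 2 * ‖h‖ + 648 * ‖h‖ * (ε / (2 * 648)) := by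
        refine add_le_add ?_ (by gcongr)
        have h1 : ‖h‖ * (2 * (D * I + 1)) ≤ ε := (le_div_iff₀ (by positivity)).1 hh
        have h2 : ‖h‖ * (D * I) ≤ ε / 2 := by nlinarith [norm_nonneg h]
        calc ‖h‖ ^ 2 * D * I = ‖h‖ * (D * I) * ‖h‖ := by ring
          _ ≤ _ := by gcongr
    _ = ε * ‖h‖ := by ring

end Smooth

theorem oh' : OH := by
  classical
  intro c hc i R ε hε
  let f : ℂ → ℝ := fun y => if ‖y‖ ≤ R + 2 then ind c i y else 0
  have hind : Measurable (ind c i) :=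
    Measurable.ite (hc.1 (measurableSet_singleton i)) measurable_const measurable_const
  have hf : Measurable f :=
    Measurable.ite (measurableSet_le measurable_norm measurable_const) hind measurable_const
  have hb : ∀ y, ‖(f y : ℂ)‖ ≤ 1 := by
    intro y
    simp only [f, ind]
    split_ifs <;> simp
  obtain ⟨h₀, hh₀, H⟩ := Smooth.little_o (g := fun y => (f y : ℂ))
    (Complex.measurable_ofReal.comp hf) (R := R + 2) hb
    (fun y hy => by simp [f, not_le.2 hy]) ε hε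
  refine ⟨min h₀ 1, lt_min hh₀ one_pos, fun h hh => ?_⟩
  obtain ⟨hI, hle⟩ := H h (hh.trans (min_le_left _ _))
  have hh1 : ‖h‖ ≤ 1 := hh.trans (min_le_right _ _)
  have e1 : ∀ y : ℂ, ‖y‖ ≤ R + 1 → Smooth.A (fun y => (f y : ℂ)) y = ((2 * π * G c i y : ℝ) : ℂ) := by
    intro y hy
    simp only [Smooth.A, G]
    rw [intervalIntegral.integral_ofReal, ← mul_assoc, mul_one_div_cancel (by positivity), one_mul]
    congr 2
    ext θ
    have : ‖y + circleMap 0 1 θ‖ ≤ R + 2 := by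
      have h1 : ‖circleMap 0 1 θ‖ = 1 := by simp
      have := norm_add_le y (circleMap 0 1 θ)
      linarith
    simp only [f, this, if_true]
  refine le_trans ?_ hle
  refine le_trans ?_ (setIntegral_le_integral (s := Metric.ball (0 : ℂ) R) hI
    (Filter.Eventually.of_forall fun y => by positivity))
  refine integral_mono_of_nonneg (Filter.Eventually.of_forall fun y => by positivity)
    hI.integrableOn ?_
  filter_upwards [ae_restrict_mem measurableSet_ball] with y hy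
  have hy' : ‖y‖ < R := by simpa using hy
  have := norm_add_le y h
  rw [e1 (y + h) (by linarith), e1 y (by linarith), ← Complex.ofReal_sub, Complex.norm_real,
    Real.norm_eq_abs, sq_abs, ← mul_sub, mul_pow]
  refine le_mul_of_one_le_left (by positivity) ?_
  nlinarith [Real.pi_gt_three]

theorem oh (_ : BASIC) : OH := oh'

end Crest.Agent.R40
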