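import Crest.Agent.R40.SliceA

/-! Row 40, slice lemma, part B: the abstract no-jump lemma on a family of unit circles. -/

set_option autoImplicit false

namespace Crest.Agent.R40

open MeasureTheory Real Filter Topology Set
open scoped ENNReal

namespace Slice

/-- Local oscillation at scale `r`. -/
noncomputable def osc (φ : ℂ → ℝ) (r : ℝ) (w : ℂ) : ℝ≥0∞ :=
  ∫⁻ u in Metric.ball (0 : ℂ) r, ENNReal.ofReal ((φ (w + u) - φ w) ^ 2)

theorem measurable_osc {φ : ℂ → ℝ} (hφ : Measurable φ) (r : ℝ) : Measurable (osc φ r) := by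
  have : Measurable fun p : ℂ × ℂ => ENNReal.ofReal ((φ (p.1 + p.2) - φ p.1) ^ 2) := by
    have h1 : Measurable fun p : ℂ × ℂ => φ (p.1 + p.2) := hφ.comp (by fun_prop)
    have h2 : Measurable fun p : ℂ × ℂ => φ p.1 := hφ.comp measurable_fst
    fun_prop
  exact this.lintegral_prod_right'

theorem two_point {φ : ℂ → ℝ} (hφ : Measurable φ) {h : ℝ} {w w' : ℂ} (hw : ‖w - w'‖ ≤ h) :
    volume (Metric.ball (0 : ℂ) h) * ENNReal.ofReal ((φ w' - φ w) ^ 2) ≤
      2 * osc φ (2 * h) w' + 2 * osc φ (2 * h) w := by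
  have m1 : Measurable fun u : ℂ => ENNReal.ofReal ((φ (w + u) - φ w') ^ 2) := by
    have h1 : Measurable fun u : ℂ => φ (w + u) := hφ.comp (by fun_prop)
    fun_prop
  have e1 : ∫⁻ u in Metric.ball (0 : ℂ) h, ENNReal.ofReal ((φ (w + u) - φ w') ^ 2) ≤
      osc φ (2 * h) w' := by
    let H : ℂ → ℝ≥0∞ := (Metric.ball (0 : ℂ) (2 * h)).indicator
      fun u => ENNReal.ofReal ((φ (w' + u) - φ w') ^ 2)
    calc _ ≤ ∫⁻ u in Metric.ball (0 : ℂ) h, H (u + (w - w')) := by
          refine setLIntegral_mono' measurableSet_ball fun u hu => ?_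
          have : u + (w - w') ∈ Metric.ball (0 : ℂ) (2 * h) := by
            rw [mem_ball_zero_iff] at hu ⊢
            have := norm_add_le u (w - w')
            linarith
          simp only [H, indicator_of_mem this]
          rw [show w' + (u + (w - w')) = w + u by ring]
      _ ≤ ∫⁻ u, H (u + (w - w')) := setLIntegral_le_lintegral _ _
      _ = ∫⁻ u, H u := lintegral_add_right_eq_self H _
      _ = _ := lintegral_indicator measurableSet_ball _
  have e2 : ∫⁻ u in Metric.ball (0 : ℂ) h, ENNReal.ofReal ((φ (w + u) - φ w) ^ 2) ≤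
      osc φ (2 * h) w := by
    refine lintegral_mono_set (Metric.ball_subset_ball ?_)
    have := (norm_nonneg _).trans hw
    linarith
  calc _ = ∫⁻ _u in Metric.ball (0 : ℂ) h, ENNReal.ofReal ((φ w' - φ w) ^ 2) := by
        rw [setLIntegral_const, mul_comm]
    _ ≤ ∫⁻ u in Metric.ball (0 : ℂ) h, (2 * ENNReal.ofReal ((φ (w + u) - φ w') ^ 2) +
          2 * ENNReal.ofReal ((φ (w + u) - φ w) ^ 2)) := by
        refine lintegral_mono fun u => ?_
        rw [← ENNReal.ofReal_ofNat 2, ← ENNReal.ofReal_mul (by norm_num),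
          ← ENNReal.ofReal_mul (by norm_num), ← ENNReal.ofReal_add (by positivity) (by positivity)]
        refine ENNReal.ofReal_le_ofReal ?_
        nlinarith [sq_nonneg (φ (w + u) - φ w' + (φ (w + u) - φ w))]
    _ = 2 * (∫⁻ u in Metric.ball (0 : ℂ) h, ENNReal.ofReal ((φ (w + u) - φ w') ^ 2)) +
          2 * ∫⁻ u in Metric.ball (0 : ℂ) h, ENNReal.ofReal ((φ (w + u) - φ w) ^ 2) := by
        rw [lintegral_add_left (m1.const_mul 2), lintegral_const_mul' _ _ (by norm_num),
          lintegral_const_mul' _ _ (by norm_num)]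
    _ ≤ _ := by gcongr

theorem int_osc {φ : ℂ → ℝ} (hφ : Measurable φ) {U : Set ℂ} (hU : MeasurableSet U) {r : ℝ}
    {E : ℝ≥0∞}
    (h : ∀ u : ℂ, ‖u‖ < r → ∫⁻ w in U, ENNReal.ofReal ((φ (w + u) - φ w) ^ 2) ≤ E) :
    ∫⁻ w, U.indicator (osc φ r) w ≤ volume (Metric.ball (0 : ℂ) r) * E := by
  rw [lintegral_indicator hU]
  simp only [osc]
  rw [lintegral_lintegral_swap]
  · calc _ ≤ ∫⁻ _u in Metric.ball (0 : ℂ) r, E :=
          setLIntegral_mono' measurableSet_ball fun u hu => h u (mem_ball_zero_iff.1 hu)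
      _ = _ := by rw [setLIntegral_const, mul_comm]
  · have h1 : Measurable fun p : ℂ × ℂ => φ (p.1 + p.2) := hφ.comp (by fun_prop)
    have h2 : Measurable fun p : ℂ × ℂ => φ p.1 := hφ.comp measurable_fst
    have : Measurable fun p : ℂ × ℂ => ENNReal.ofReal ((φ (p.1 + p.2) - φ p.1) ^ 2) := by
      fun_prop
    exact this.aemeasurable

theorem core {Ω : Type*} [MeasurableSpace Ω] (ν : Measure Ω) {Y : Ω → ℂ} (hY : Measurable Y)
    {φ : ℂ → ℝ} (hφ : Measurable φ) (hb : ∀ w, |φ w| ≤ 1) {U : Set ℂ} (hU : MeasurableSet U)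
    (hpush : ∀ n : ℕ, ∃ K : ℝ≥0∞, K ≠ ⊤ ∧ ∀ F : ℂ → ℝ≥0∞, Measurable F →
      ∫⁻ ω, ∫⁻ β in Icc (-(n : ℝ)) n, U.indicator F (Y ω + circleMap 0 1 β) ∂volume ∂ν ≤
        K * ∫⁻ w, U.indicator F w)
    (hoh : ∀ ε : ℝ, 0 < ε → ∃ δ > 0, ∀ u : ℂ, ‖u‖ < δ →
      ∫⁻ w in U, ENNReal.ofReal ((φ (w + u) - φ w) ^ 2) ≤ ENNReal.ofReal (ε * ‖u‖)) :
    ∀ᵐ ω ∂ν, ∀ β₁ β₂ : ℝ, (∀ β ∈ Ioo β₁ β₂, Y ω + circleMap 0 1 β ∈ U) →
      (∀ᵐ β, β ∈ Ioo β₁ β₂ →
        φ (Y ω + circleMap 0 1 β) = 0 ∨ φ (Y ω + circleMap 0 1 β) = 1) →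
      (∀ᵐ β, β ∈ Ioo β₁ β₂ → φ (Y ω + circleMap 0 1 β) = 0) ∨
        (∀ᵐ β, β ∈ Ioo β₁ β₂ → φ (Y ω + circleMap 0 1 β) = 1) := by
  classical
  choose δ hδ hδ' using fun k : ℕ => hoh ((1 / 2) ^ k) (by positivity)
  let h : ℕ → ℝ := fun k => min (δ k / 2) (1 / ((k : ℝ) + 1))
  have hpos : ∀ k, 0 < h k := fun k => lt_min (by linarith [hδ k]) (by positivity)
  have hle1 : ∀ k, h k ≤ 1 := fun k => (min_le_right _ _).trans (by
    rw [div_le_one (by positivity)]; linarith [Nat.cast_nonneg (α := ℝ) k])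
  have hlim : Tendsto h atTop (𝓝 0) :=
    squeeze_zero (fun k => (hpos k).le) (fun k => min_le_right _ _)
      tendsto_one_div_add_atTop_nhds_zero_nat
  have hcm : Measurable (circleMap 0 1) := (continuous_circleMap 0 1).measurable
  let P : Ω → ℝ → ℂ := fun ω β => Y ω + circleMap 0 1 β
  let J : ℕ → Ω → ℝ → ℝ≥0∞ := fun k ω β =>
    if P ω β ∈ U ∧ P ω (β + h k) ∈ U then
      ENNReal.ofReal ((φ (P ω (β + h k)) - φ (P ω β)) ^ 2) else 0
  have mP : Measurable fun p : Ω × ℝ => P p.1 p.2 :=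
    (hY.comp measurable_fst).add (hcm.comp measurable_snd)
  have mP' : ∀ k, Measurable fun p : Ω × ℝ => P p.1 (p.2 + h k) := fun k =>
    (hY.comp measurable_fst).add (hcm.comp (measurable_snd.add_const _))
  have mJ : ∀ k, Measurable fun p : Ω × ℝ => J k p.1 p.2 := by
    intro k
    refine Measurable.ite ((mP hU).inter (mP' k hU)) ?_ measurable_const
    have h1 := hφ.comp mP
    have h2 := hφ.comp (mP' k)
    exact ((h2.sub h1).pow_const 2).ennreal_ofReal
  have main : ∀ n : ℕ, ∀ᵐ ω ∂ν, Tendsto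
      (fun k => (∫⁻ β in Icc (-(n : ℝ)) n, J k ω β) / ENNReal.ofReal (h k)) atTop (𝓝 0) := by
    intro n
    obtain ⟨K, hK, hKF⟩ := hpush (n + 1)
    have md : ∀ k, Measurable fun ω => ∫⁻ β in Icc (-(n : ℝ)) n, J k ω β := fun k =>
      (mJ k).lintegral_prod_right'
    have hD : ∀ k, ∫⁻ ω, (∫⁻ β in Icc (-(n : ℝ)) n, J k ω β) / ENNReal.ofReal (h k) ∂ν ≤
        32 * K * ENNReal.ofReal ((1 / 2) ^ k) := by
      intro k
      have hk := hpos k
      set V := volume (Metric.ball (0 : ℂ) (h k)) with hV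
      have hV0 : V ≠ 0 := (Metric.measure_ball_pos _ _ hk).ne'
      have hVt : V ≠ ⊤ := measure_ball_lt_top.ne
      have hV2 : volume (Metric.ball (0 : ℂ) (2 * h k)) = 4 * V := by
        rw [hV, Complex.volume_ball, Complex.volume_ball, ENNReal.ofReal_mul (by norm_num),
          ENNReal.ofReal_ofNat, mul_pow, mul_assoc]
        norm_num
      let F : ℂ → ℝ≥0∞ := U.indicator (osc φ (2 * h k))
      have mF : Measurable F := (measurable_osc hφ _).indicator hU
      have hF : ∫⁻ w, F w ≤ 4 * V * ENNReal.ofReal ((1 / 2) ^ k * (2 * h k)) := by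
        rw [← hV2]
        refine int_osc hφ hU fun u hu => (hδ' k u ?_).trans (ENNReal.ofReal_le_ofReal ?_)
        · have : h k ≤ δ k / 2 := min_le_left _ _
          linarith
        · gcongr
      have hpt : ∀ ω β, V * J k ω β ≤ 2 * F (P ω (β + h k)) + 2 * F (P ω β) := by
        intro ω β
        simp only [J]
        split_ifs with hc
        · simp only [F, indicator_of_mem hc.1, indicator_of_mem hc.2]
          refine two_point hφ ?_
          have := (lipschitzWith_circleMap 0 1).dist_le_mul β (β + h k)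
          simp only [P, add_sub_add_left_eq_sub]
          rw [dist_eq_norm, Real.dist_eq] at this
          simpa [abs_of_pos hk] using this
        · simp
      have hin : ∀ ω, V * ∫⁻ β in Icc (-(n : ℝ)) n, J k ω β ≤
          4 * ∫⁻ β in Icc (-((n + 1 : ℕ) : ℝ)) ((n + 1 : ℕ) : ℝ), F (P ω β) := by
        intro ω
        have mm : Measurable fun β => F (P ω β) := mF.comp (measurable_const.add hcm)
        have mm' : Measurable fun β => F (P ω (β + h k)) := mm.comp (measurable_add_const _)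
        have a1 : ∫⁻ β in Icc (-(n : ℝ)) n, F (P ω β) ≤
            ∫⁻ β in Icc (-((n + 1 : ℕ) : ℝ)) ((n + 1 : ℕ) : ℝ), F (P ω β) :=
          lintegral_mono_set (Icc_subset_Icc (by push_cast; linarith) (by push_cast; linarith))
        have a2 : ∫⁻ β in Icc (-(n : ℝ)) n, F (P ω (β + h k)) ≤
            ∫⁻ β in Icc (-((n + 1 : ℕ) : ℝ)) ((n + 1 : ℕ) : ℝ), F (P ω β) := by
          let H : ℝ → ℝ≥0∞ := (Icc (-((n + 1 : ℕ) : ℝ)) ((n + 1 : ℕ) : ℝ)).indicator
            fun β => F (P ω β)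
          calc _ ≤ ∫⁻ β in Icc (-(n : ℝ)) n, H (β + h k) := by
                refine setLIntegral_mono' measurableSet_Icc fun β hβ => ?_
                have : β + h k ∈ Icc (-((n + 1 : ℕ) : ℝ)) ((n + 1 : ℕ) : ℝ) :=
                  ⟨by push_cast; linarith [hβ.1], by push_cast; linarith [hβ.2, hle1 k]⟩
                simp only [H, indicator_of_mem this, le_refl]
            _ ≤ ∫⁻ β, H (β + h k) := setLIntegral_le_lintegral _ _
            _ = ∫⁻ β, H β := lintegral_add_right_eq_self H _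
            _ = _ := lintegral_indicator measurableSet_Icc _
        calc _ = ∫⁻ β in Icc (-(n : ℝ)) n, V * J k ω β := (lintegral_const_mul' _ _ hVt).symm
          _ ≤ ∫⁻ β in Icc (-(n : ℝ)) n, (2 * F (P ω (β + h k)) + 2 * F (P ω β)) :=
              lintegral_mono fun β => hpt ω β
          _ = 2 * (∫⁻ β in Icc (-(n : ℝ)) n, F (P ω (β + h k))) +
                2 * ∫⁻ β in Icc (-(n : ℝ)) n, F (P ω β) := by
              rw [lintegral_add_left (mm'.const_mul 2), lintegral_const_mul' _ _ (by norm_num),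
                lintegral_const_mul' _ _ (by norm_num)]
          _ ≤ 2 * (∫⁻ β in Icc (-((n + 1 : ℕ) : ℝ)) ((n + 1 : ℕ) : ℝ), F (P ω β)) +
                2 * ∫⁻ β in Icc (-((n + 1 : ℕ) : ℝ)) ((n + 1 : ℕ) : ℝ), F (P ω β) := by gcongr
          _ = _ := by ring
      have htot : V * ∫⁻ ω, ∫⁻ β in Icc (-(n : ℝ)) n, J k ω β ∂volume ∂ν ≤
          V * (32 * K * ENNReal.ofReal ((1 / 2) ^ k) * ENNReal.ofReal (h k)) := by
        calc _ = ∫⁻ ω, V * ∫⁻ β in Icc (-(n : ℝ)) n, J k ω β ∂volume ∂ν :=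
              (lintegral_const_mul' _ _ hVt).symm
          _ ≤ ∫⁻ ω, 4 * ∫⁻ β in Icc (-((n + 1 : ℕ) : ℝ)) ((n + 1 : ℕ) : ℝ), F (P ω β)
                ∂volume ∂ν := lintegral_mono hin
          _ = 4 * ∫⁻ ω, ∫⁻ β in Icc (-((n + 1 : ℕ) : ℝ)) ((n + 1 : ℕ) : ℝ), F (P ω β)
                ∂volume ∂ν := lintegral_const_mul' _ _ (by norm_num)
          _ ≤ 4 * (K * ∫⁻ w, F w) := by
              gcongr
              exact hKF _ (measurable_osc hφ _)
          _ ≤ 4 * (K * (4 * V * ENNReal.ofReal ((1 / 2) ^ k * (2 * h k)))) := by gcongr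
          _ = _ := by
              rw [ENNReal.ofReal_mul (by positivity), ENNReal.ofReal_mul (by norm_num),
                ENNReal.ofReal_ofNat]
              ring
      have htot' := (ENNReal.mul_le_mul_iff_right hV0 hVt).1 htot
      have hh0 : ENNReal.ofReal (h k) ≠ 0 := by simpa using hk
      simp only [div_eq_mul_inv]
      rw [lintegral_mul_const _ (md k), ← div_eq_mul_inv,
        ENNReal.div_le_iff hh0 ENNReal.ofReal_ne_top]
      simpa only [div_eq_mul_inv] using htot'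
    have hsum : ∫⁻ ω, ∑' k, (∫⁻ β in Icc (-(n : ℝ)) n, J k ω β) / ENNReal.ofReal (h k) ∂ν ≠ ⊤ := by
      rw [lintegral_tsum fun k => ((md k).div_const _).aemeasurable]
      refine ne_top_of_le_ne_top ?_ (ENNReal.tsum_le_tsum hD)
      rw [ENNReal.tsum_mul_left, ← ENNReal.ofReal_tsum_of_nonneg (fun k => by positivity)
        summable_geometric_two]
      exact ENNReal.mul_ne_top (ENNReal.mul_ne_top (by norm_num) hK) ENNReal.ofReal_ne_top
    have := ae_lt_top (Measurable.ennreal_tsum fun k => (md k).div_const _) hsum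
    filter_upwards [this] with ω hω
    exact ENNReal.tendsto_atTop_zero_of_tsum_ne_top hω.ne
  filter_upwards [ae_all_iff.2 main] with ω hω β₁ β₂ hin h01
  obtain ⟨n, hn⟩ := exists_nat_ge (max |β₁| |β₂|)
  have hn1 := abs_le.1 ((le_max_left _ _).trans hn)
  have hn2 := abs_le.1 ((le_max_right _ _).trans hn)
  refine oneD (g := fun β => φ (P ω β)) (hφ.comp (measurable_const.add hcm)) (fun _ => hb _) h01
    hpos hlim ?_
  refine tendsto_of_tendsto_of_tendsto_of_le_of_le tendsto_const_nhds (hω n)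
    (fun _ => zero_le) fun k => ?_
  have hk := hpos k
  refine ENNReal.div_le_div_right ?_ _
  refine le_trans ?_ (lintegral_mono_set (s := Ioo β₁ (β₂ - h k))
    fun t ht => ⟨by linarith [ht.1, hn1.1], by linarith [ht.2, hn2.2]⟩)
  refine setLIntegral_mono' measurableSet_Ioo fun t ht => ?_
  have a1 : P ω t ∈ U := hin t ⟨ht.1, by linarith [ht.2]⟩
  have a2 : P ω (t + h k) ∈ U := hin _ ⟨by linarith [ht.1], by linarith [ht.2]⟩
  simp only [J, a1, a2, and_self, if_true, le_refl]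

end Slice

end Crest.Agent.R40
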