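import Crest.Agent.R40.MDefs
import Crest.Agent.R40.SliceB
import Crest.Agent.R40.Conv

/-! Row 40: the slice lemmas. -/

set_option autoImplicit false

namespace Crest.Agent.R40

open MeasureTheory Real Filter Topology Set
open scoped ENNReal

namespace Slice

theorem abs_prod_sub_le {ι : Type*} (s : Finset ι) (a b : ι → ℝ) (ha : ∀ i, 0 ≤ a i ∧ a i ≤ 1)
    (hb : ∀ i, 0 ≤ b i ∧ b i ≤ 1) : |∏ i ∈ s, a i - ∏ i ∈ s, b i| ≤ ∑ i ∈ s, |a i - b i| := by
  classical
  induction s using Finset.induction_on with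
  | empty => simp
  | insert j s hj ih =>
    rw [Finset.prod_insert hj, Finset.prod_insert hj, Finset.sum_insert hj]
    have h1 : 0 ≤ ∏ i ∈ s, a i := Finset.prod_nonneg fun i _ => (ha i).1
    have h2 : ∏ i ∈ s, a i ≤ 1 := Finset.prod_le_one (fun i _ => (ha i).1) fun i _ => (ha i).2
    calc _ = |(a j - b j) * ∏ i ∈ s, a i + b j * (∏ i ∈ s, a i - ∏ i ∈ s, b i)| := by ring_nf
      _ ≤ |(a j - b j) * ∏ i ∈ s, a i| + |b j * (∏ i ∈ s, a i - ∏ i ∈ s, b i)| := abs_add_le _ _
      _ ≤ _ := by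
          rw [abs_mul, abs_mul, abs_of_nonneg h1, abs_of_nonneg (hb j).1]
          refine add_le_add (mul_le_of_le_one_right (abs_nonneg _) h2) ?_
          exact (mul_le_of_le_one_left (abs_nonneg _) (hb j).2).trans ih

/-- The separating function of a cut without edges. -/
theorem exists_phi (hB : BASIC) (hO : OH) (c : ℂ → Fin 5) (hc : Good c) (z : ℂ)
    (X Y : Finset (Fin 5)) (hne : ∀ i ∈ X, ∀ j ∈ Y, ¬ NS c z {i, j}) :
    ∃ δ : ℝ, 0 < δ ∧ ∃ φ : ℂ → ℝ, Measurable φ ∧ (∀ w, |φ w| ≤ 1) ∧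
      (∀ᵐ w, dist w z < δ → (c w ∈ X → φ w = 0) ∧ (c w ∈ Y → φ w = 1)) ∧
      ∀ ε : ℝ, 0 < ε → ∃ η > 0, ∀ u : ℂ, ‖u‖ < η →
        ∫⁻ w in Metric.ball z δ, ENNReal.ofReal ((φ (w + u) - φ w) ^ 2) ≤
          ENNReal.ofReal (ε * ‖u‖) := by
  obtain ⟨mG, -, bG, fG, -, aeF⟩ := hB c hc
  have h1 : ∀ i j : Fin 5, ∀ᶠ ε in 𝓝[>] (0 : ℝ), i ∈ X → j ∈ Y →
      ∀ᶠ y in nae z, ¬ (G c i y < ε ∧ G c j y < ε) := by
    intro i j
    by_cases hij : i ∈ X ∧ j ∈ Y
    · have := hne i hij.1 j hij.2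
      unfold NS at this
      push Not at this
      obtain ⟨ε, hε, h⟩ := this
      filter_upwards [Ioo_mem_nhdsGT hε] with ε' hε' _ _
      refine h.mono fun y hy hh => ?_
      obtain ⟨k, hk, hle⟩ := hy
      rcases Finset.mem_insert.1 hk with rfl | hk
      · linarith [hh.1, hε'.2]
      · rw [Finset.mem_singleton.1 hk] at hle
        linarith [hh.2, hε'.2]
    · exact Eventually.of_forall fun _ a b => absurd ⟨a, b⟩ hij
  have h2 := (eventually_all.2 fun i => eventually_all.2 fun j => h1 i j).and self_mem_nhdsWithin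
  obtain ⟨ε₀, h3, hε₀⟩ := h2.exists
  have hε₀ : 0 < ε₀ := hε₀
  have h4 : ∀ᶠ y in nae z, ∀ i j : Fin 5, i ∈ X → j ∈ Y → ¬ (G c i y < ε₀ ∧ G c j y < ε₀) := by
    refine eventually_all.2 fun i => eventually_all.2 fun j => ?_
    by_cases hij : i ∈ X ∧ j ∈ Y
    · exact (h3 i j hij.1 hij.2).mono fun y hy _ _ => hy
    · exact Eventually.of_forall fun _ a b => absurd ⟨a, b⟩ hij
  obtain ⟨δ, hδ, h5⟩ := eventually_nae.1 h4
  let a : Fin 5 → ℂ → ℝ := fun i w => min (G c i w / ε₀) 1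
  have ha : ∀ w i, 0 ≤ a i w ∧ a i w ≤ 1 := fun w i =>
    ⟨le_min (div_nonneg (bG i w).1 hε₀.le) zero_le_one, min_le_right _ _⟩
  have ma : ∀ i, Measurable (a i) := fun i => ((mG i).div_const _).min measurable_const
  refine ⟨δ, hδ, fun w => ∏ i ∈ X, a i w, Finset.measurable_prod _ fun i _ => ma i, fun w => ?_,
    ?_, fun ε hε => ?_⟩
  · rw [abs_of_nonneg (Finset.prod_nonneg fun i _ => (ha w i).1)]
    exact Finset.prod_le_one (fun i _ => (ha w i).1) fun i _ => (ha w i).2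
  · filter_upwards [h5, aeF] with w hw hF hd
    have h0 : G c (c w) w = 0 := (fG _ _).1 hF
    refine ⟨fun hX => Finset.prod_eq_zero hX (by simp [a, h0]), fun hY => ?_⟩
    refine Finset.prod_eq_one fun i hi => min_eq_right ?_
    have := hw hd i (c w) hi hY
    rw [h0, not_and] at this
    rw [one_le_div hε₀]
    by_contra hlt
    exact this (not_le.1 hlt) hε₀
  · choose h₀ hh₀ hh using fun i => hO c hc i (‖z‖ + δ) (ε * ε₀ ^ 2 / 25) (by positivity)
    obtain ⟨η, hη, hηle⟩ : ∃ η > 0, ∀ i, η ≤ h₀ i := by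
      obtain ⟨i, hi⟩ := Finite.exists_min h₀
      exact ⟨h₀ i, hh₀ i, hi⟩
    refine ⟨η, hη, fun u hu => ?_⟩
    have hsub : Metric.ball z δ ⊆ Metric.ball (0 : ℂ) (‖z‖ + δ) := by
      intro w hw
      rw [mem_ball_zero_iff]
      rw [Metric.mem_ball, dist_eq_norm] at hw
      have := norm_add_le z (w - z)
      rw [add_sub_cancel] at this
      linarith
    have mD : ∀ i, Measurable fun w => (G c i (w + u) - G c i w) ^ 2 := fun i =>
      (((mG i).comp (measurable_add_const u)).sub (mG i)).pow_const 2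
    have hpt : ∀ w, ((∏ i ∈ X, a i (w + u)) - ∏ i ∈ X, a i w) ^ 2 ≤
        ∑ i : Fin 5, 5 / ε₀ ^ 2 * (G c i (w + u) - G c i w) ^ 2 := by
      intro w
      have b1 := abs_prod_sub_le X (fun i => a i (w + u)) (fun i => a i w) (ha _) (ha _)
      have b2 : ∑ i ∈ X, |a i (w + u) - a i w| ≤ ∑ i : Fin 5, |G c i (w + u) - G c i w| / ε₀ := by
        refine (Finset.sum_le_sum_of_subset_of_nonneg (Finset.subset_univ X)
          fun i _ _ => abs_nonneg _).trans (Finset.sum_le_sum fun i _ => ?_)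
        refine (abs_min_sub_min_le_max _ _ _ _).trans ?_
        rw [sub_self, abs_zero, max_eq_left (abs_nonneg _), ← sub_div, abs_div, abs_of_pos hε₀]
      have b3 := sq_sum_le_card_mul_sum_sq (s := (Finset.univ : Finset (Fin 5)))
        (f := fun i => |G c i (w + u) - G c i w| / ε₀)
      calc _ = |(∏ i ∈ X, a i (w + u)) - ∏ i ∈ X, a i w| ^ 2 := (sq_abs _).symm
        _ ≤ (∑ i : Fin 5, |G c i (w + u) - G c i w| / ε₀) ^ 2 := by
            gcongr
            exact b1.trans b2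
        _ ≤ _ := by
            refine b3.trans (le_of_eq ?_)
            rw [Finset.mul_sum]
            refine Finset.sum_congr rfl fun i _ => ?_
            rw [div_pow, sq_abs]
            simp only [Finset.card_univ, Fintype.card_fin]
            push_cast
            ring
    have hone : ∀ i, ∫⁻ w in Metric.ball (0 : ℂ) (‖z‖ + δ),
        ENNReal.ofReal (5 / ε₀ ^ 2 * (G c i (w + u) - G c i w) ^ 2) ≤
        ENNReal.ofReal (ε * ‖u‖ / 5) := by
      intro i
      have hint : IntegrableOn (fun w => (G c i (w + u) - G c i w) ^ 2)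
          (Metric.ball (0 : ℂ) (‖z‖ + δ)) := by
        refine Measure.integrableOn_of_bounded (M := 1) measure_ball_lt_top.ne
          (mD i).aestronglyMeasurable (Eventually.of_forall fun w => ?_)
        have a1 := bG i (w + u)
        have a2 := bG i w
        rw [Real.norm_of_nonneg (sq_nonneg _)]
        nlinarith [a1.1, a1.2, a2.1, a2.2]
      rw [← ofReal_integral_eq_lintegral_ofReal (hint.const_mul _)
        (Eventually.of_forall fun w => by positivity), integral_const_mul]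
      refine ENNReal.ofReal_le_ofReal ?_
      have := hh i u (hu.le.trans (hηle i))
      calc _ ≤ 5 / ε₀ ^ 2 * (ε * ε₀ ^ 2 / 25 * ‖u‖) := by gcongr
        _ = _ := by field_simp; ring
    calc _ ≤ ∫⁻ w in Metric.ball (0 : ℂ) (‖z‖ + δ),
          ENNReal.ofReal (((∏ i ∈ X, a i (w + u)) - ∏ i ∈ X, a i w) ^ 2) := lintegral_mono_set hsub
      _ ≤ ∫⁻ w in Metric.ball (0 : ℂ) (‖z‖ + δ),
          ∑ i : Fin 5, ENNReal.ofReal (5 / ε₀ ^ 2 * (G c i (w + u) - G c i w) ^ 2) := by
          refine lintegral_mono fun w => ?_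
          rw [← ENNReal.ofReal_sum_of_nonneg fun i _ => by positivity]
          exact ENNReal.ofReal_le_ofReal (hpt w)
      _ = ∑ i : Fin 5, ∫⁻ w in Metric.ball (0 : ℂ) (‖z‖ + δ),
          ENNReal.ofReal (5 / ε₀ ^ 2 * (G c i (w + u) - G c i w) ^ 2) :=
          lintegral_finset_sum _ fun i _ => ((mD i).const_mul _).ennreal_ofReal
      _ ≤ ∑ _i : Fin 5, ENNReal.ofReal (ε * ‖u‖ / 5) := Finset.sum_le_sum fun i _ => hone i
      _ = _ := by
          rw [← ENNReal.ofReal_sum_of_nonneg fun i _ => by positivity]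
          congr 1
          simp only [Finset.sum_const, Finset.card_univ, Fintype.card_fin, nsmul_eq_mul]
          push_cast
          ring

/-- from `φ` back to colours, on one circle -/
theorem finish {c : ℂ → Fin 5} {X Y : Finset (Fin 5)} {φ : ℂ → ℝ} {U : Set ℂ} {y : ℂ}
    (hg : ∀ᵐ β : ℝ, y + e β ∈ U →
      (c (y + e β) ∈ X → φ (y + e β) = 0) ∧ (c (y + e β) ∈ Y → φ (y + e β) = 1))
    (hcore : ∀ β₁ β₂ : ℝ, (∀ β ∈ Ioo β₁ β₂, y + e β ∈ U) →
      (∀ᵐ β, β ∈ Ioo β₁ β₂ → φ (y + e β) = 0 ∨ φ (y + e β) = 1) →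
      (∀ᵐ β, β ∈ Ioo β₁ β₂ → φ (y + e β) = 0) ∨ (∀ᵐ β, β ∈ Ioo β₁ β₂ → φ (y + e β) = 1))
    (β₁ β₂ : ℝ) (hin : ∀ β ∈ Ioo β₁ β₂, y + e β ∈ U)
    (hXY : ∀ᵐ β : ℝ, β ∈ Ioo β₁ β₂ → c (y + e β) ∈ X ∨ c (y + e β) ∈ Y) :
    (∀ᵐ β : ℝ, β ∈ Ioo β₁ β₂ → c (y + e β) ∈ X) ∨
      (∀ᵐ β : ℝ, β ∈ Ioo β₁ β₂ → c (y + e β) ∈ Y) := by
  have h01 : ∀ᵐ β, β ∈ Ioo β₁ β₂ → φ (y + e β) = 0 ∨ φ (y + e β) = 1 := by
    filter_upwards [hg, hXY] with β h1 h2 hβ
    exact (h2 hβ).imp (h1 (hin β hβ)).1 (h1 (hin β hβ)).2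
  refine (hcore β₁ β₂ hin h01).imp (fun h => ?_) fun h => ?_
  · filter_upwards [hg, hXY, h] with β h1 h2 h3 hβ
    refine (h2 hβ).resolve_right fun hY => ?_
    have := (h1 (hin β hβ)).2 hY
    rw [h3 hβ] at this
    exact zero_ne_one this
  · filter_upwards [hg, hXY, h] with β h1 h2 h3 hβ
    refine (h2 hβ).resolve_left fun hX => ?_
    have := (h1 (hin β hβ)).1 hX
    rw [h3 hβ] at this
    exact one_ne_zero this

theorem sin_ne_zero {x w : ℂ} {α β : ℝ} (h : x + e α + e β = w) (h0 : w ≠ x) (h2 : ‖w - x‖ < 2) :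
    Real.sin (β - α) ≠ 0 := by
  intro hs
  have hw : w - x = e α + e β := by rw [← h]; ring
  obtain ⟨n, hn⟩ := Real.sin_eq_zero_iff.1 hs
  have hβ : β = α + n * π := by linarith
  rcases Int.even_or_odd' n with ⟨k, rfl | rfl⟩
  · have : e β = e α := by
      rw [hβ, show α + ((2 * k : ℤ) : ℝ) * π = α + k * (2 * π) by push_cast; ring]
      exact (periodic_circleMap 0 1).int_mul k α
    rw [hw, this, ← two_mul, norm_mul] at h2
    simp at h2
  · have : e β = -e α := by
      rw [hβ, show α + ((2 * k + 1 : ℤ) : ℝ) * π = α + π + k * (2 * π) by push_cast; ring]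
      rw [show e (α + π + k * (2 * π)) = e (α + π) from (periodic_circleMap 0 1).int_mul k _]
      simp [circleMap, add_mul, Complex.exp_add]
    rw [this, add_neg_cancel, sub_eq_zero] at hw
    exact h0 hw

theorem push_box (x z : ℂ) {δ : ℝ} (h1 : δ < ‖z - x‖) (h2 : ‖z - x‖ + δ < 2) (m n : ℕ) :
    ∃ K : ℝ≥0∞, K ≠ ⊤ ∧ ∀ F : ℂ → ℝ≥0∞, Measurable F →
      ∫⁻ α in Icc (-(m : ℝ)) m, ∫⁻ β in Icc (-(n : ℝ)) n,
        (Metric.ball z δ).indicator F (x + e α + e β) ≤
        K * ∫⁻ w, (Metric.ball z δ).indicator F w := by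
  classical
  have hP : Continuous fun p : ℝ × ℝ => x + e p.1 + e p.2 :=
    (continuous_const.add ((continuous_circleMap 0 1).comp continuous_fst)).add
      ((continuous_circleMap 0 1).comp continuous_snd)
  let W : Set (ℝ × ℝ) := (Icc (-(m : ℝ)) m ×ˢ Icc (-(n : ℝ)) n) ∩
    (fun p : ℝ × ℝ => x + e p.1 + e p.2) ⁻¹' Metric.closedBall z δ
  have hW : IsCompact W :=
    (isCompact_Icc.prod isCompact_Icc).inter_right (Metric.isClosed_closedBall.preimage hP)
  have hs : ∀ p ∈ W, Real.sin (p.2 - p.1) ≠ 0 := by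
    intro p hp
    have hd : ‖x + e p.1 + e p.2 - z‖ ≤ δ := by
      have := hp.2
      rwa [mem_preimage, Metric.mem_closedBall, dist_eq_norm] at this
    refine sin_ne_zero (x := x) rfl (fun h => ?_) ?_
    · rw [h, norm_sub_rev] at hd
      linarith
    · have := norm_add_le (x + e p.1 + e p.2 - z) (z - x)
      rw [show x + e p.1 + e p.2 - z + (z - x) = x + e p.1 + e p.2 - x by ring] at this
      linarith
  choose! η hη K hK hKF using fun p (hp : p ∈ W) => push x p.1 p.2 (hs p hp)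
  obtain ⟨t, htW, hcov⟩ := hW.elim_nhds_subcover (fun p => Metric.ball p (η p))
    fun p hp => Metric.ball_mem_nhds p (hη p hp)
  refine ⟨∑ p ∈ t, K p, ENNReal.sum_ne_top.2 fun p hp => hK p (htW p hp), fun F hF => ?_⟩
  set F' := (Metric.ball z δ).indicator F with hF'
  have mF : Measurable F' := hF.indicator measurableSet_ball
  have mF' : Measurable fun p : ℝ × ℝ => F' (x + e p.1 + e p.2) := mF.comp hP.measurable
  calc _ = ∫⁻ p in Icc (-(m : ℝ)) m ×ˢ Icc (-(n : ℝ)) n, F' (x + e p.1 + e p.2) := by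
        rw [Measure.volume_eq_prod, ← Measure.prod_restrict, lintegral_prod _ mF'.aemeasurable]
    _ ≤ ∫⁻ p : ℝ × ℝ, ∑ q ∈ t, (Metric.ball q (η q)).indicator
          (fun p : ℝ × ℝ => F' (x + e p.1 + e p.2)) p := by
        rw [← lintegral_indicator (measurableSet_Icc.prod measurableSet_Icc)]
        refine lintegral_mono fun p => ?_
        by_cases hp : p ∈ Icc (-(m : ℝ)) m ×ˢ Icc (-(n : ℝ)) n
        · rw [indicator_of_mem hp]
          by_cases hb : x + e p.1 + e p.2 ∈ Metric.ball z δ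
          · have hpW : p ∈ W := ⟨hp, Metric.ball_subset_closedBall hb⟩
            obtain ⟨q, hq, hpq⟩ := mem_iUnion₂.1 (hcov hpW)
            refine le_trans ?_ (Finset.single_le_sum (fun _ _ => zero_le) hq)
            rw [indicator_of_mem hpq]
          · rw [hF', indicator_of_notMem hb]
            exact zero_le
        · rw [indicator_of_notMem hp]
          exact zero_le
    _ = ∑ q ∈ t, ∫⁻ p in Metric.ball q (η q), F' (x + e p.1 + e p.2) := by
        rw [lintegral_finset_sum _ fun q _ => mF'.indicator measurableSet_ball]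
        exact Finset.sum_congr rfl fun q _ => lintegral_indicator measurableSet_ball _
    _ ≤ ∑ q ∈ t, K q * ∫⁻ w, F' w := Finset.sum_le_sum fun q hq => hKF q (htW q hq) F' mF
    _ = _ := (Finset.sum_mul _ _ _).symm

end Slice

theorem slice0 (hB : BASIC) (hO : OH) : SLICE0 := by
  intro c hc z X Y _ hne
  obtain ⟨δ, hδ, φ, mφ, bφ, hg, hoh⟩ := Slice.exists_phi hB hO c hc z X Y hne
  refine ⟨δ, hδ, ?_⟩
  have hcore := Slice.core (volume : Measure ℂ) (Y := fun y => y) measurable_id mφ bφ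
    (U := Metric.ball z δ) measurableSet_ball (fun n => by
      refine ⟨volume (Icc (-(n : ℝ)) n), measure_Icc_lt_top.ne, fun F hF => ?_⟩
      have mF : Measurable ((Metric.ball z δ).indicator F) := hF.indicator measurableSet_ball
      rw [lintegral_lintegral_swap]
      · simp only [lintegral_add_right_eq_self]
        rw [setLIntegral_const, mul_comm]
      · exact (mF.comp (measurable_fst.add
          ((continuous_circleMap 0 1).measurable.comp measurable_snd))).aemeasurable) hoh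
  filter_upwards [hcore, ae_circle_of_ae hg] with y h1 h2
  exact Slice.finish (U := Metric.ball z δ) h2 h1

theorem slice (hB : BASIC) (hO : OH) : SLICE := by
  intro c hc x z X Y hzx h2 _ hne
  obtain ⟨δ, hδ, φ, mφ, bφ, hg, hoh⟩ := Slice.exists_phi hB hO c hc z X Y hne
  have hpos : 0 < ‖z - x‖ := norm_pos_iff.2 (sub_ne_zero.2 hzx)
  set δ' := min δ (min (‖z - x‖ / 2) ((2 - ‖z - x‖) / 2)) with hδ'
  have a0 : 0 < δ' := lt_min hδ (lt_min (by linarith) (by linarith))
  have a1 : δ' ≤ δ := min_le_left _ _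
  have a2 : δ' ≤ ‖z - x‖ / 2 := (min_le_right _ _).trans (min_le_left _ _)
  have a3 : δ' ≤ (2 - ‖z - x‖) / 2 := (min_le_right _ _).trans (min_le_right _ _)
  refine ⟨δ', a0, ?_⟩
  have hcore := fun m : ℕ => Slice.core (volume.restrict (Icc (-(m : ℝ)) m))
    (Y := fun α => x + e α) (measurable_const.add (continuous_circleMap 0 1).measurable) mφ bφ
    (U := Metric.ball z δ') measurableSet_ball
    (fun n => Slice.push_box x z (by linarith) (by linarith) m n) (fun ε hε => by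
      obtain ⟨η, hη, h⟩ := hoh ε hε
      exact ⟨η, hη, fun u hu =>
        (lintegral_mono_set (Metric.ball_subset_ball a1)).trans (h u hu)⟩)
  simp only [ae_restrict_iff' measurableSet_Icc] at hcore
  filter_upwards [ae_all_iff.2 hcore, ae_ae_of_ae hg x] with α h1 h2
  obtain ⟨m, hm⟩ := exists_nat_ge |α|
  refine Slice.finish (U := Metric.ball z δ') ?_ (h1 m (abs_le.1 hm))
  filter_upwards [h2] with β hβ hU
  exact hβ (lt_of_lt_of_le hU a1)

end Crest.Agent.R40
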