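import Crest.Agent.R40.DDefs
import Crest.Agent.R40.Cyc1
import Crest.Agent.R40.MCone
import Crest.Agent.R40.MCone2
import Crest.Agent.R40.MOH
import Crest.Agent.R40.MSlice
import Crest.Agent.R40.D2Alt
import Crest.Agent.R40.D2End
import Crest.Agent.R40.D2I10
import Crest.Agent.R40.D2I5
import Crest.Agent.R40.D2I8
import Crest.Agent.R40.D2Inst
import Crest.Agent.R40.D2Loc
import Crest.Agent.R40.D2Npb
import Crest.Agent.R40.D2Path
import Crest.Agent.R40.D2Recip
import Crest.Agent.R40.D2St3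
import Crest.Agent.R40.D2Step
import Crest.Agent.R40.D2Tt2
import Crest.Agent.R40.D2St4
import Crest.Agent.R40.D2Emax
import Crest.Agent.R40.D2Ncx

set_option autoImplicit false

namespace Crest.Agent.R40

theorem hCONE_d2 : CONE := cone basic fan' cone0' hAVAPI

theorem hSLICE_d2 : SLICE := slice basic oh'

theorem D2.inst_all : D2.INST :=
  D2.inst hAV1 hAV2 hAV3 hKEY hNSL hCONE_d2 hAVAPI D2.i5 D2.i7 (D2.i8 hSLICE_d2 D2.loc) D2.i10

theorem thmDD_of (h4 : D2.ST4) (hN : D2.NCX) (hE : D2.EMAX) : THMDD :=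
  D2.thmD2_of hE D2.inst_all
    (D2.end_ hN (D2.step D2.alt D2.path (D2.st3 D2.tt2a) h4) (D2.recip D2.alt) (D2.two D2.tt2a)
      (D2.npb D2.alt) (D2.trans D2.alt))

/-- THEOREM D -/
theorem thmDD : THMDD := thmDD_of (D2.st4 D2.tt2a) (D2.ncx D2.alt) D2.emax

theorem hTRI0 : TRI0 := tri0_of thmDD

theorem hCV0 : CV0 := cv0_of thmDD hCONE_d2

end Crest.Agent.R40
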