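import Crest.Agent.R40.D2Defs

set_option autoImplicit false

namespace Crest.Agent.R40.D2
open MeasureTheory Set Filter Topology

theorem st3_fifth : ∀ s t u v : Fin 5, [s, t, u, v].Nodup → ∃ r : Fin 5,
    (∀ i : Fin 5, i ∉ ({t, u} : Finset (Fin 5)) → i = s ∨ i = v ∨ i = r) ∧
    (∀ i : Fin 5, i ∉ ({u, v} : Finset (Fin 5)) → i = s ∨ i = t ∨ i = r) ∧
    (∀ i : Fin 5, i ∉ ({v, s} : Finset (Fin 5)) → i = t ∨ i = u ∨ i = r) ∧
    (∀ i : Fin 5, i ≠ r → i = s ∨ i = t ∨ i = u ∨ i = v) ∧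
    3 ≤ (({t, v} : Finset (Fin 5)) ∪ {s, u}).card ∧
    3 ≤ (({r} : Finset (Fin 5)) ∪ {t, v}).card ∧
    3 ≤ (({r} : Finset (Fin 5)) ∪ {s, u}).card := by
  decide +kernel

theorem st3 (h : TT2) : ST3 := by
  intro d hd y E s t u v hn hE hs ht n1 n2 n3
  obtain ⟨r, r1, r2, r3, r4, c1, c2, c3⟩ := st3_fifth s t u v hn
  have hL : ∀ᵐ θ : ℝ, ∀ i, d.W y θ i → d.L y θ i := ae_all_iff.2 fun i => hd.a1 y i
  have hoff : ∀ᵐ θ : ℝ, ¬ d.W y θ r →
      (θ ∈ E → d.L y θ t ∧ d.L y θ v) ∧ (θ ∉ E → d.L y θ s ∧ d.L y θ u) := by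
    filter_upwards [hL, hs, ht, hd.a4 y _ n1, hd.a4 y _ n2, hd.a4 y _ n3] with θ h0 h1 h2 h3 h4 h5 hr
    obtain ⟨i, hi, wi⟩ := h3
    obtain ⟨j, hj, wj⟩ := h4
    obtain ⟨k, hk, wk⟩ := h5
    refine ⟨fun hθ => ⟨?_, ?_⟩, fun hθ => ⟨?_, ?_⟩⟩
    · rcases r2 j hj with rfl | rfl | rfl
      · exact absurd wj (h1 hθ)
      · exact h0 _ wj
      · exact absurd wj hr
    · rcases r1 i hi with rfl | rfl | rfl
      · exact absurd wi (h1 hθ)
      · exact h0 _ wi
      · exact absurd wi hr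
    · rcases r2 j hj with rfl | rfl | rfl
      · exact h0 _ wj
      · exact absurd wj (h2 hθ)
      · exact absurd wj hr
    · rcases r3 k hk with rfl | rfl | rfl
      · exact absurd wk (h2 hθ)
      · exact h0 _ wk
      · exact absurd wk hr
  have hE2 : ∀ᵐ θ : ℝ, θ + 2 * Real.pi / 3 ∈ E ↔ θ ∈ E := by
    filter_upwards [hE.2, ae_shift hE.2 pp] with θ h1 h2
    have : θ + 2 * Real.pi / 3 = θ + pp + pp := by simp only [pp]; ring
    rw [this]; tauto
  have hE3 : ∀ᵐ θ : ℝ, θ + Real.pi ∈ E ↔ θ ∉ E := by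
    filter_upwards [hE.2, ae_shift hE2 pp] with θ h1 h2
    have : θ + Real.pi = θ + pp + 2 * Real.pi / 3 := by simp only [pp]; ring
    rw [this]; tauto
  by_cases hc : ∀ᵐ θ : ℝ, d.W y θ r ∨ d.W y (θ + Real.pi) r
  · have hnb : ∀ᵐ θ : ℝ, d.W y θ r → ¬ d.W y (θ + pp) r := by
      filter_upwards [hd.a2 y r, ae_shift hL pp] with θ h1 h2 hw hw'
      exact (h1 hw).1 (h2 r hw')
    have hR : Anti {θ | d.W y θ r} := by
      refine ⟨hd.mW y r, ?_⟩
      filter_upwards [hnb, hc, ae_shift hc pp, ae_shift hnb Real.pi] with θ h1 h2 h3 h4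
      have e1 : θ + Real.pi + pp = θ + pp + Real.pi := by ring
      rw [e1] at h4
      exact ⟨fun hw hw' => h1 hw' hw, fun hw => h3.resolve_right (h4 (h2.resolve_left hw))⟩
    refine h d hd y {θ | d.W y θ r} E {r} {t, v} {s, u} hR hE.1 hE2 c2 c3 ?_ ?_ ?_
    · filter_upwards [hL] with θ h1 hθ i hi
      rw [Finset.mem_singleton] at hi
      subst hi
      exact h1 _ hθ
    · filter_upwards [hoff] with θ h1 hθ hθ' i hi
      have := (h1 hθ).1 hθ'
      rcases Finset.mem_insert.1 hi with rfl | hi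
      · exact this.1
      · rw [Finset.mem_singleton] at hi; subst hi; exact this.2
    · filter_upwards [hoff] with θ h1 hθ hθ' i hi
      have := (h1 hθ).2 hθ'
      rcases Finset.mem_insert.1 hi with rfl | hi
      · exact this.1
      · rw [Finset.mem_singleton] at hi; subst hi; exact this.2
  · have hr : ∀ᵐ θ : ℝ, ¬ d.W y θ r := by
      refine hd.a9 y r fun hcon => hc ?_
      filter_upwards [hcon, hoff, ae_shift hoff Real.pi, hE3] with θ h1 h2 h3 h4
      by_contra hne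
      push Not at hne
      apply h1
      intro i hi
      have h5 := h2 hne.1
      have h6 := h3 hne.2
      by_cases hθ : θ ∈ E
      · have h7 := h5.1 hθ
        have h8 := h6.2 (fun hh => h4.1 hh hθ)
        rcases r4 i hi with rfl | rfl | rfl | rfl
        exacts [Or.inr h8.1, Or.inl h7.1, Or.inr h8.2, Or.inl h7.2]
      · have h7 := h5.2 hθ
        have h8 := h6.1 (h4.2 hθ)
        rcases r4 i hi with rfl | rfl | rfl | rfl
        exacts [Or.inl h7.1, Or.inr h8.1, Or.inl h7.2, Or.inr h8.2]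
    refine h d hd y E univ {t, v} {s, u} {s, u} hE MeasurableSet.univ
      (Eventually.of_forall fun _ => by simp) c1 c1 ?_ ?_ ?_
    · filter_upwards [hoff, hr] with θ h1 h2 hθ i hi
      have := (h1 h2).1 hθ
      rcases Finset.mem_insert.1 hi with rfl | hi
      · exact this.1
      · rw [Finset.mem_singleton] at hi; subst hi; exact this.2
    · filter_upwards [hoff, hr] with θ h1 h2 hθ _ i hi
      have := (h1 h2).2 hθ
      rcases Finset.mem_insert.1 hi with rfl | hi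
      · exact this.1
      · rw [Finset.mem_singleton] at hi; subst hi; exact this.2
    · exact Eventually.of_forall fun θ _ hθ => absurd (mem_univ θ) hθ

end Crest.Agent.R40.D2
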