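import Crest.Agent.R40.DDefs

/-! Row 40, Theorem D: the clean case. -/

set_option autoImplicit false

namespace Crest.Agent.R40
open MeasureTheory Set Filter Topology Real

namespace DAbs1

theorem ae_prj (k : ℝ) {P : ℝ → Prop} (hP : ∀ᵐ s, P s) : ∀ᵐ W : ℂ, P (W.re - W.im * k) := by
  obtain ⟨N, hN, mN, hN0⟩ := exists_measurable_superset_of_null (ae_iff.1 hP)
  have h1 : ∀ᵐ p : ℝ × ℝ, p.1 - p.2 * k ∉ N := by
    have hm : MeasurableSet {p : ℝ × ℝ | p.1 - p.2 * k ∉ N} :=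
      ((measurable_fst.sub (measurable_snd.mul_const k)) mN).compl
    rw [Measure.volume_eq_prod, Measure.ae_prod_iff_ae_ae hm, Measure.ae_ae_comm hm]
    refine Eventually.of_forall fun y => ?_
    exact (measurePreserving_sub_right volume (y * k)).quasiMeasurePreserving.ae
      (measure_eq_zero_iff_ae_notMem.1 hN0)
  have h2 := Complex.volume_preserving_equiv_real_prod.quasiMeasurePreserving.ae h1
  filter_upwards [h2] with W hW
  by_contra h
  exact hW (hN h)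

theorem measurableSet_cone : MeasurableSet Cone60 := by
  have : Measurable fun W : ℂ => sC W * tC W := by unfold sC tC; fun_prop
  exact measurableSet_lt this measurable_const

theorem cone_iff (W : ℂ) : W ∈ Cone60 ↔ 3 * W.re ^ 2 < W.im ^ 2 := by
  have h3 : (√3 : ℝ) ^ 2 = 3 := Real.sq_sqrt (by norm_num)
  have h0 : (√3 : ℝ) ≠ 0 := by positivity
  have : sC W * tC W = (3 * W.re ^ 2 - W.im ^ 2) / 3 := by
    unfold sC tC
    have : (W.re + W.im / √3) * (W.re - W.im / √3) = W.re ^ 2 - W.im ^ 2 / (√3) ^ 2 := by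
      field_simp; ring
    rw [this, h3]; ring
  simp only [Cone60, mem_setOf_eq, this]
  constructor <;> intro h <;> linarith

theorem re_mul (r d : ℝ) : ((r : ℂ) * e d).re = r * cos d := by
  simp [circleMap, Complex.exp_ofReal_mul_I_re, Complex.exp_ofReal_mul_I_im]

theorem im_mul (r d : ℝ) : ((r : ℂ) * e d).im = r * sin d := by
  simp [circleMap, Complex.exp_ofReal_mul_I_re, Complex.exp_ofReal_mul_I_im]

theorem cos_gt {d : ℝ} (h0 : 0 < d) (h1 : d < π / 3) : 1 / 2 < cos d := by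
  rw [← Real.cos_pi_div_three]
  exact Real.cos_lt_cos_of_nonneg_of_le_pi h0.le (by linarith [Real.pi_pos]) h1

theorem mid_cos {d : ℝ} (hd : d ∈ Ioo (π / 3) (2 * π / 3)) : cos d ^ 2 < 1 / 4 ∧ 0 < sin d := by
  have hp := Real.pi_pos
  have h1 : cos d < 1 / 2 := by
    rw [← Real.cos_pi_div_three]
    exact Real.cos_lt_cos_of_nonneg_of_le_pi (by linarith) (by linarith [hd.2]) hd.1
  have h2 : cos (π - d) < 1 / 2 := by
    rw [← Real.cos_pi_div_three]
    exact Real.cos_lt_cos_of_nonneg_of_le_pi (by linarith) (by linarith [hd.1])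
      (by linarith [hd.2])
  rw [Real.cos_pi_sub] at h2
  exact ⟨by nlinarith, Real.sin_pos_of_pos_of_lt_pi (by linarith [hd.1]) (by linarith [hd.2])⟩

theorem ray_cone {d r : ℝ} (hd : d ∈ Ioo (π / 3) (2 * π / 3)) (hr : r ≠ 0) :
    (r : ℂ) * e d ∈ Cone60 := by
  rw [cone_iff, re_mul, im_mul]
  have h1 := (mid_cos hd).1
  have h2 := Real.sin_sq_add_cos_sq d
  have h3 : 0 < r ^ 2 := by positivity
  rw [mul_pow, mul_pow]
  nlinarith

/-- on the upper cone the projection along a flat direction has a sign -/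
theorem prj_neg {d : ℝ} (h0 : 0 < d) (h1 : d < π / 3) {W : ℂ} (hW : W ∈ Cone60) (hi : 0 < W.im) :
    prj d W < 0 := by
  rw [cone_iff] at hW
  have hs : 0 < sin d := Real.sin_pos_of_pos_of_lt_pi h0 (by linarith [Real.pi_pos])
  have hc := cos_gt h0 h1
  have h2 := Real.sin_sq_add_cos_sq d
  unfold prj
  rw [sub_neg, ← mul_div_assoc, lt_div_iff₀ hs]
  refine lt_of_le_of_lt (le_abs_self _) (abs_lt_of_sq_lt_sq ?_ (by positivity))
  rw [mul_pow, mul_pow]
  have h3 : sin d ^ 2 < 3 * cos d ^ 2 := by nlinarith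
  have h4 : 0 < W.im ^ 2 := by positivity
  nlinarith [sq_nonneg W.re, sq_nonneg (sin d), sq_nonneg (cos d)]

theorem prj_pos {d : ℝ} (h0 : 2 * π / 3 < d) (h1 : d < π) {W : ℂ} (hW : W ∈ Cone60)
    (hi : 0 < W.im) : 0 < prj d W := by
  have hW' : (⟨-W.re, W.im⟩ : ℂ) ∈ Cone60 := by
    rw [cone_iff] at hW ⊢
    simpa using hW
  have := prj_neg (d := π - d) (by linarith) (by linarith) hW' hi
  unfold prj at this ⊢
  rw [Real.cos_pi_sub, Real.sin_pi_sub] at this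
  simp only at this
  rw [neg_div] at this
  linarith

theorem third : ∀ a b : Fin 3, a ≠ b → ∃ g : Fin 3, g ≠ a ∧ g ≠ b ∧ ∀ i, i ≠ a → i ≠ b → i = g := by
  decide

theorem key (X : Abs) (hcl : X.Clean) {ψ ψ' : Fin 3} (h1 : Mid X.Λ ψ) (h2 : Mid X.Λ ψ')
    (hne : ψ ≠ ψ') : volume (X.U ψ ∩ Cone60 ∩ {W | 0 < W.im}) = 0 := by
  obtain ⟨γ, hγ1, hγ2, hγ⟩ := third ψ ψ' hne
  have hp := Real.pi_pos
  have sh : ∀ {P : ℝ → Prop} (t : ℝ), (∀ᵐ d, P d) → ∀ᵐ d, P (d + t) := fun t h =>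
    (measurePreserving_add_right volume t).quasiMeasurePreserving.ae h
  have hAu : ∀ᵐ s : ℝ, s < 0 → s ∈ X.Au := by
    filter_upwards [X.cov, measure_eq_zero_iff_ae_notMem.1 hcl.2] with s h h' hs
    exact h.resolve_right fun hv => h' ⟨hv, hs⟩
  have hAv : ∀ᵐ s : ℝ, 0 < s → s ∈ X.Av := by
    filter_upwards [X.cov, measure_eq_zero_iff_ae_notMem.1 hcl.1] with s h h' hs
    exact h.resolve_left fun hv => h' ⟨hv, hs⟩
  have hall := (X.hd.and (sh (2 * π / 3) X.hd)).and (((sh (π / 3) h1).and (sh (π / 3) h2)).and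
    (((sh (-(π / 2)) X.hex).and (sh (-(π / 6)) X.hex)).and
      (((sh (π / 6) X.hex).and (sh (π / 2) X.hex)).and
        ((sh (5 * π / 6) X.hex).and (sh (7 * π / 6) X.hex)))))
  have hfr : ∃ᵐ d : ℝ, d ∈ Ioo 0 (π / 3) := by
    rw [frequently_ae_iff]
    have : {d : ℝ | d ∈ Ioo 0 (π / 3)} = Ioo 0 (π / 3) := rfl
    rw [this, Real.volume_Ioo]
    simp only [ne_eq, ENNReal.ofReal_eq_zero, not_le]
    linarith
  obtain ⟨d, hd, ⟨D1, D2⟩, ⟨M1, M2⟩, ⟨H5, H0⟩, ⟨H1, H2⟩, H3, H4⟩ :=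
    (hfr.and_eventually hall).exists
  have hmid : d + π / 3 ∈ Ioo (π / 3) (2 * π / 3) := ⟨by linarith [hd.1], by linarith [hd.2]⟩
  have M1 := M1 hmid
  have M2 := M2 hmid
  have D1 := D1 ⟨hd.1, by linarith [hd.2]⟩
  have D2 := D2 ⟨by linarith [hd.1], by linarith [hd.2]⟩
  have e3 : d + π / 3 + π / 2 = d + 5 * π / 6 := by ring
  have e0 : d + π / 3 - π / 2 = d + -(π / 6) := by ring
  rw [e3, e0] at M1 M2
  have L3 : X.Λ (d + 5 * π / 6) γ := by
    obtain ⟨i, hi⟩ := H3.2.1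
    have hl := (H3.2.2 i hi).1
    have : i = γ := hγ i (fun h => M1.1 (h ▸ hl)) fun h => M2.1 (h ▸ hl)
    exact this ▸ hl
  have L0 : X.Λ (d + -(π / 6)) γ := by
    obtain ⟨i, hi⟩ := H0.2.1
    have hl := (H0.2.2 i hi).1
    have : i = γ := hγ i (fun h => M1.2 (h ▸ hl)) fun h => M2.2 (h ▸ hl)
    exact this ▸ hl
  have n5 : ¬ X.κ (d + -(π / 2)) γ := fun h =>
    (H5.2.2 γ h).2.1 (by rwa [show d + -(π / 2) + π / 3 = d + -(π / 6) by ring])
  have n1 : ¬ X.κ (d + π / 6) γ := fun h =>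
    (H1.2.2 γ h).2.2 (by rwa [show d + π / 6 - π / 3 = d + -(π / 6) by ring])
  have n2 : ¬ X.κ (d + π / 2) γ := fun h =>
    (H2.2.2 γ h).2.1 (by rwa [show d + π / 2 + π / 3 = d + 5 * π / 6 by ring])
  have n4 : ¬ X.κ (d + 7 * π / 6) γ := fun h =>
    (H4.2.2 γ h).2.2 (by rwa [show d + 7 * π / 6 - π / 3 = d + 5 * π / 6 by ring])
  have a12 : ∀ i, X.κ (d + π / 6) i → ¬ X.κ (d + π / 2) i := fun i h h' =>
    (H1.2.2 i h).2.1 (by
      rw [show d + π / 6 + π / 3 = d + π / 2 by ring]; exact (H2.2.2 i h').1)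
  have a45 : ∀ i, X.κ (d + 7 * π / 6) i → ¬ X.κ (d + -(π / 2)) i := fun i h h' =>
    (H4.2.2 i h).2.1 (by
      rw [show d + 7 * π / 6 + π / 3 = d + -(π / 2) + 2 * π by ring, X.pΛ]
      exact (H5.2.2 i h').1)
  have pair : ∀ A B : Fin 3 → Prop, (∃ i, A i) → (∃ i, B i) → ¬ A γ → ¬ B γ →
      (∀ i, A i → ¬ B i) → (∀ j, A j → j = ψ) ∨ (∀ j, B j → j = ψ) := by
    rintro A B ⟨i, hi⟩ ⟨j, hj⟩ hA hB hAB
    have cases3 : ∀ k, k = ψ ∨ k = ψ' ∨ k = γ := fun k => by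
      by_cases k1 : k = ψ
      · exact Or.inl k1
      · by_cases k2 : k = ψ'
        · exact Or.inr (Or.inl k2)
        · exact Or.inr (Or.inr (hγ k k1 k2))
    by_cases hψ : A ψ'
    · right
      intro k hk
      rcases cases3 k with h | h | h
      · exact h
      · exact absurd (h ▸ hk) (hAB _ hψ)
      · exact absurd (h ▸ hk) hB
    · left
      intro k hk
      rcases cases3 k with h | h | h
      · exact h
      · exact absurd (h ▸ hk) hψ
      · exact absurd (h ▸ hk) hA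
  have killU : (∀ᵐ W : ℂ, W ∈ X.U ψ → prj d W ∉ X.Au) →
      volume (X.U ψ ∩ Cone60 ∩ {W | 0 < W.im}) = 0 := by
    intro h
    rw [measure_eq_zero_iff_ae_notMem]
    filter_upwards [h, ae_prj (cos d / sin d) hAu] with W hW hW' hmem
    exact hW hmem.1.1 (hW' (prj_neg hd.1 hd.2 hmem.1.2 hmem.2))
  have killV : (∀ᵐ W : ℂ, W ∈ X.U ψ → prj (d + 2 * π / 3) W ∉ X.Av) →
      volume (X.U ψ ∩ Cone60 ∩ {W | 0 < W.im}) = 0 := by
    intro h
    rw [measure_eq_zero_iff_ae_notMem]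
    filter_upwards [h, ae_prj (cos (d + 2 * π / 3) / sin (d + 2 * π / 3)) hAv] with W hW hW' hmem
    exact hW hmem.1.1 (hW' (prj_pos (by linarith [hd.1]) (by linarith [hd.2]) hmem.1.2 hmem.2))
  have s12 := H1.1
  rw [show d + π / 6 + π / 3 = d + π / 2 by ring] at s12
  have s23 := H2.1
  rw [show d + π / 2 + π / 3 = d + 5 * π / 6 by ring] at s23
  have s34 := H3.1
  rw [show d + 5 * π / 6 + π / 3 = d + 7 * π / 6 by ring] at s34
  have s45 := H4.1
  rw [show d + 7 * π / 6 + π / 3 = d + -(π / 2) + 2 * π by ring, X.pσ] at s45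
  by_cases hσ : X.σ (d + π / 2)
  · have t4 : X.σ (d + 7 * π / 6) := s34.2 fun h => s23.1 h hσ
    have t5 : ¬ X.σ (d + -(π / 2)) := fun h => s45.1 h t4
    rcases pair _ _ H4.2.1 H5.2.1 n4 n5 a45 with h | h
    · exact killV ((D2 _ (Or.inl (by ring)) ψ h).1 t4)
    · exact killU ((D1 _ (Or.inr (by ring)) ψ h).2 t5)
  · have t1 : X.σ (d + π / 6) := by
      by_contra h
      exact hσ (s12.2 h)
    rcases pair _ _ H1.2.1 H2.2.1 n1 n2 a12 with h | h
    · exact killV ((D2 _ (Or.inr (by ring)) ψ h).1 t1)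
    · exact killU ((D1 _ (Or.inl rfl) ψ h).2 hσ)

theorem null_rays (hP : POL) {S : Set ℂ} (hS : MeasurableSet S) :
    ∀ᵐ d : ℝ, volume S = 0 → ∀ᵐ r : ℝ, (r : ℂ) * e d ∉ S := by
  by_cases h : volume S = 0
  · have := ((hP (fun W => W ∉ S) hS.compl).1).1 (measure_eq_zero_iff_ae_notMem.1 h)
    exact this.mono fun d hd _ => hd
  · exact Eventually.of_forall fun _ h' => absurd h' h

end DAbs1

open DAbs1 in
theorem abs1 (hM : ABSM) (hA : ABS1A) (hP : POL) : ABS1 := by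
  intro X hcl
  obtain ⟨⟨α, hα⟩, ⟨β, hβ⟩⟩ := hA X hcl
  have hp := Real.pi_pos
  have mup : ∀ i, MeasurableSet (X.U i ∩ Cone60 ∩ {W | 0 < W.im}) := fun i =>
    ((X.mU i).inter measurableSet_cone).inter
      (measurableSet_lt measurable_const Complex.measurable_im)
  have mlo : ∀ i, MeasurableSet (X.U i ∩ Cone60 ∩ {W | W.im < 0}) := fun i =>
    ((X.mU i).inter measurableSet_cone).inter
      (measurableSet_lt Complex.measurable_im measurable_const)
  have hup : ∀ᵐ d : ℝ, d ∈ Ioo (π / 3) (2 * π / 3) → ∃ i,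
      (¬ X.Λ (d + π / 2) i ∧ ¬ X.Λ (d - π / 2) i) ∧
        volume (X.U i ∩ Cone60 ∩ {W | 0 < W.im}) ≠ 0 := by
    filter_upwards [hM X, ae_all_iff.2 fun i => null_rays hP (mup i)] with d h1 h2 hd
    obtain ⟨i, a, b, hv⟩ := (h1 hd).1
    refine ⟨i, ⟨a, b⟩, fun h0 => hv ?_⟩
    rw [measure_eq_zero_iff_ae_notMem]
    filter_upwards [h2 i h0] with r hr hmem
    refine hr ⟨⟨hmem.2.1, ray_cone hd hmem.1.ne'⟩, ?_⟩
    simp only [mem_setOf_eq, im_mul]
    exact mul_pos hmem.1 (mid_cos hd).2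
  have hlo : ∀ᵐ d : ℝ, d ∈ Ioo (π / 3) (2 * π / 3) → ∃ i,
      (¬ X.Λ (d + π / 2) i ∧ ¬ X.Λ (d - π / 2) i) ∧
        volume (X.U i ∩ Cone60 ∩ {W | W.im < 0}) ≠ 0 := by
    filter_upwards [hM X, ae_all_iff.2 fun i => null_rays hP (mlo i)] with d h1 h2 hd
    obtain ⟨i, a, b, hv⟩ := (h1 hd).2
    refine ⟨i, ⟨a, b⟩, fun h0 => hv ?_⟩
    rw [measure_eq_zero_iff_ae_notMem]
    filter_upwards [h2 i h0] with r hr hmem
    refine hr ⟨⟨hmem.2.1, ray_cone hd hmem.1.ne⟩, ?_⟩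
    simp only [mem_setOf_eq, im_mul]
    exact mul_neg_of_neg_of_pos hmem.1 (mid_cos hd).2
  have midα : Mid X.Λ α := by
    filter_upwards [hup] with d h hd
    obtain ⟨i, a, hv⟩ := h hd
    have : i = α := by by_contra hne; exact hv (hα i hne)
    exact this ▸ a
  have midβ : Mid X.Λ β := by
    filter_upwards [hlo] with d h hd
    obtain ⟨i, a, hv⟩ := h hd
    have : i = β := by by_contra hne; exact hv (hβ i hne)
    exact this ▸ a
  have nnα : volume (X.U α ∩ Cone60 ∩ {W | 0 < W.im}) ≠ 0 := by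
    have hfr : ∃ᵐ d : ℝ, d ∈ Ioo (π / 3) (2 * π / 3) := by
      rw [frequently_ae_iff]
      have : {d : ℝ | d ∈ Ioo (π / 3) (2 * π / 3)} = Ioo (π / 3) (2 * π / 3) := rfl
      rw [this, Real.volume_Ioo]
      simp only [ne_eq, ENNReal.ofReal_eq_zero, not_le]
      linarith
    obtain ⟨d, hd, h⟩ := (hfr.and_eventually hup).exists
    obtain ⟨i, -, hv⟩ := h hd
    have : i = α := by by_contra hne; exact hv (hα i hne)
    exact this ▸ hv
  have uniq : ∀ ψ', Mid X.Λ ψ' → ψ' = α := fun ψ' h => by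
    by_contra hne
    exact nnα (key X hcl midα h (Ne.symm hne))
  have hβα : β = α := uniq β midβ
  refine ⟨α, fun i hi => ?_, midα, uniq⟩
  refine measure_mono_null (fun W hW => ?_)
    (measure_union_null (hα i hi) (hβ i (hβα ▸ hi)))
  rcases lt_trichotomy W.im 0 with h | h | h
  · exact Or.inr ⟨hW, h⟩
  · have := (cone_iff W).1 hW.2
    rw [h] at this
    nlinarith [sq_nonneg W.re]
  · exact Or.inl ⟨hW, h⟩

end Crest.Agent.R40
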