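import Crest.Agent.R40.DDefs

/-! Row 40: clean case, each of the two cones is monochromatic. -/

set_option autoImplicit false

namespace Crest.Agent.R40
open MeasureTheory Set Filter Topology Real

namespace A1a

theorem third (h1 h2 : Fin 3) (h : h1 ≠ h2) :
    ∃ h3 : Fin 3, h3 ≠ h1 ∧ h3 ≠ h2 ∧ ∀ i, i = h1 ∨ i = h2 ∨ i = h3 := by
  revert h1 h2; decide

theorem comb (κp κq κp' κq' Λq Λp' Λq' : Fin 3 → Prop) (h1 h2 : Fin 3) (h : h1 ≠ h2)
    (np : ∃ i, κp i) (nq : ∃ i, κq i) (np' : ∃ i, κp' i) (nq' : ∃ i, κq' i)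
    (a1 : ∀ i, κp i → ¬ Λq i) (a2 : ∀ i, κq i → Λq i) (a3 : ∀ i, κp i → ¬ Λp' i)
    (a4 : ∀ i, κq i → ¬ Λq' i) (a5 : ∀ i, κp' i → Λp' i) (a6 : ∀ i, κq' i → Λq' i)
    (m : ∃ i, ¬ Λp' i ∧ ¬ Λq' i)
    (k1 : ¬ ∀ j, κp j → j = h1) (k2 : ¬ ∀ j, κp j → j = h2)
    (k3 : ¬ ∀ j, κq j → j = h1) (k4 : ¬ ∀ j, κq j → j = h2) :
    ∃ ha hb, ((ha = h1 ∧ hb = h2) ∨ (ha = h2 ∧ hb = h1)) ∧
      (∀ i, ¬ Λp' i → ¬ Λq' i → i = hb) ∧
      ((∀ j, κp' j → j = ha) ∨ (∀ j, κq' j → j = ha)) := by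
  obtain ⟨h3, n1, n2, hall⟩ := third h1 h2 h
  have fa : ∀ P : Fin 3 → Prop, (∀ i, P i) ↔ P h1 ∧ P h2 ∧ P h3 := fun P =>
    ⟨fun H => ⟨H _, H _, H _⟩, fun H i => by
      rcases hall i with rfl | rfl | rfl
      exacts [H.1, H.2.1, H.2.2]⟩
  have ex : ∀ P : Fin 3 → Prop, (∃ i, P i) ↔ P h1 ∨ P h2 ∨ P h3 := fun P =>
    ⟨fun ⟨i, H⟩ => by
      rcases hall i with rfl | rfl | rfl
      exacts [Or.inl H, Or.inr (Or.inl H), Or.inr (Or.inr H)],
     fun H => by rcases H with H | H | H <;> exact ⟨_, H⟩⟩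
  rw [ex] at np nq np' nq' m
  rw [fa] at a1 a2 a3 a4 a5 a6 k1 k2 k3 k4
  have h' := h.symm
  simp only [h, h', n1, n2, imp_false, imp_true_iff, true_and, and_true] at k1 k2 k3 k4
  by_cases hm : ¬ Λp' h1 ∧ ¬ Λq' h1
  · refine ⟨h2, h1, Or.inr ⟨rfl, rfl⟩, ?_, ?_⟩
    · rw [fa]; simp only [h, h', n1, n2, imp_false, imp_true_iff, true_and, and_true]; grind
    · rw [fa, fa]; simp only [h, h', n1, n2, imp_false, imp_true_iff, true_and, and_true]; grind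
  · refine ⟨h1, h2, Or.inl ⟨rfl, rfl⟩, ?_, ?_⟩
    · rw [fa]; simp only [h, h', n1, n2, imp_false, imp_true_iff, true_and, and_true]; grind
    · rw [fa, fa]; simp only [h, h', n1, n2, imp_false, imp_true_iff, true_and, and_true]; grind

theorem ae_lin (k : ℝ) {P : ℝ → Prop} (h : ∀ᵐ s : ℝ, P s) : ∀ᵐ W : ℂ, P (W.re - W.im * k) := by
  obtain ⟨N, hN, hNm, hN0⟩ := exists_measurable_superset_of_null (ae_iff.1 h)
  have h1 : ∀ᵐ p : ℝ × ℝ, p.1 - p.2 * k ∉ N := by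
    have hm : MeasurableSet {p : ℝ × ℝ | p.1 - p.2 * k ∉ N} :=
      ((measurable_fst.sub (measurable_snd.mul_const k)) hNm).compl
    rw [Measure.volume_eq_prod, Measure.ae_prod_iff_ae_ae hm,
      Measure.ae_ae_comm (p := fun x y : ℝ => x - y * k ∉ N) hm]
    refine Eventually.of_forall fun y => ?_
    have := (measurePreserving_sub_right volume (y * k)).quasiMeasurePreserving.ae
      (p := fun s => s ∉ N) (measure_eq_zero_iff_ae_notMem.1 hN0)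
    exact this
  have h2 := Complex.volume_preserving_equiv_real_prod.quasiMeasurePreserving.ae h1
  filter_upwards [h2] with W hW
  by_contra hP
  exact hW (hN hP)

theorem ae_arg (hP : POL) {Q : ℝ → Prop} (h : ∀ᵐ θ : ℝ, Q θ) : ∀ᵐ W : ℂ, Q (Complex.arg W) := by
  obtain ⟨N, hN, hNm, hN0⟩ := exists_measurable_superset_of_null (ae_iff.1 h)
  have hm : MeasurableSet {W : ℂ | Complex.arg W ∉ N} := (Complex.measurable_arg hNm).compl
  have h0 : ∀ᵐ θ : ℝ, θ ∉ N := measure_eq_zero_iff_ae_notMem.1 hN0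
  have h1 : ∀ᵐ θ : ℝ, θ - π ∉ N :=
    (measurePreserving_sub_right volume π).quasiMeasurePreserving.ae h0
  have h2 : ∀ᵐ W : ℂ, Complex.arg W ∉ N := by
    rw [(hP _ hm).2]
    filter_upwards [h0, h1] with d hd0 hd1 hd
    have hne : ∀ᵐ r : ℝ, r ≠ 0 := by simp [ae_iff]
    filter_upwards [hne] with r hr
    rcases lt_or_gt_of_ne hr with hr | hr
    · have : ((r : ℂ) * e d) = ((-r : ℝ) : ℂ) * (Complex.cos (d - π : ℝ) +
          Complex.sin (d - π : ℝ) * Complex.I) := by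
        simp only [e, circleMap, Complex.exp_mul_I]
        push_cast
        rw [Complex.cos_sub_pi, Complex.sin_sub_pi]; ring
      rw [this, Complex.arg_mul_cos_add_sin_mul_I (by linarith)
        ⟨by linarith [hd.1], by linarith [hd.2, pi_pos]⟩]
      exact hd1
    · have : ((r : ℂ) * e d) = (r : ℂ) * (Complex.cos (d : ℝ) +
          Complex.sin (d : ℝ) * Complex.I) := by
        simp only [e, circleMap, Complex.exp_mul_I]
        push_cast; ring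
      rw [this, Complex.arg_mul_cos_add_sin_mul_I hr
        ⟨by linarith [hd.1, pi_pos], hd.2.le⟩]
      exact hd0
  filter_upwards [h2] with W hW
  by_contra hQ
  exact hW (hN hQ)

theorem cone_iff (W : ℂ) : W ∈ Cone60 ↔ 3 * W.re ^ 2 < W.im ^ 2 := by
  have h3 : (√3 : ℝ) ^ 2 = 3 := Real.sq_sqrt (by norm_num)
  have h0 : (0 : ℝ) < √3 := Real.sqrt_pos.2 (by norm_num)
  have : sC W * tC W = W.re ^ 2 - W.im ^ 2 / 3 := by
    unfold sC tC
    have : (W.im / √3) ^ 2 = W.im ^ 2 / 3 := by rw [div_pow, h3]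
    rw [← this]; ring
  simp only [Cone60, mem_setOf_eq, this]
  constructor <;> intro h <;> linarith

theorem arg_mem (W : ℂ) (hW : W ∈ Cone60) (hi : 0 < W.im) :
    Complex.arg W ∈ Ioo (π / 3) (2 * π / 3) := by
  rw [cone_iff] at hW
  have hW0 : W ≠ 0 := by rintro rfl; simp at hi
  have hn : 0 < ‖W‖ := norm_pos_iff.2 hW0
  have hc := Complex.cos_arg hW0
  have hsq : ‖W‖ ^ 2 = W.re ^ 2 + W.im ^ 2 := by
    rw [Complex.sq_norm, Complex.normSq_apply]; ring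
  have habs : |2 * W.re| < ‖W‖ := by
    apply abs_lt_of_sq_lt_sq' _ hn.le |> fun h => abs_lt.2 h
    nlinarith
  have h1 : W.re / ‖W‖ < 1 / 2 := by
    rw [div_lt_iff₀ hn]; linarith [(abs_lt.1 habs).2]
  have h2 : -(1 / 2) < W.re / ‖W‖ := by
    rw [lt_div_iff₀ hn]; linarith [(abs_lt.1 habs).1]
  have ha0 : 0 ≤ Complex.arg W := Complex.arg_nonneg_iff.2 hi.le
  have haπ : Complex.arg W ≤ π := Complex.arg_le_pi W
  constructor
  · by_contra hh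
    push Not at hh
    have := Real.cos_le_cos_of_nonneg_of_le_pi ha0 (by linarith [pi_pos]) hh
    rw [Real.cos_pi_div_three, hc] at this
    linarith
  · by_contra hh
    push Not at hh
    have := Real.cos_le_cos_of_nonneg_of_le_pi (by linarith [pi_pos]) haπ hh
    have e1 : Real.cos (2 * π / 3) = -(1 / 2) := by
      rw [show 2 * π / 3 = π - π / 3 by ring, Real.cos_pi_sub, Real.cos_pi_div_three]
    rw [e1, hc] at this
    linarith

theorem neg_cone {W : ℂ} (hW : W ∈ Cone60) : -W ∈ Cone60 := by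
  rw [cone_iff] at hW ⊢; simpa using hW

theorem im_ne {W : ℂ} (hW : W ∈ Cone60) : W.im ≠ 0 := by
  rw [cone_iff] at hW
  intro h; rw [h] at hW; nlinarith [sq_nonneg W.re]

theorem cot_gt {d : ℝ} (hd : d ∈ Ioo 0 (π / 3)) : 0 < cos d / sin d ∧ 1 < 3 * (cos d / sin d) ^ 2 := by
  have hs : 0 < sin d := sin_pos_of_pos_of_lt_pi hd.1 (by linarith [hd.2, pi_pos])
  have hc : 1 / 2 < cos d := by
    rw [← Real.cos_pi_div_three]
    exact Real.cos_lt_cos_of_nonneg_of_le_pi hd.1.le (by linarith [pi_pos]) hd.2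
  refine ⟨div_pos (by linarith) hs, ?_⟩
  rw [div_pow, ← mul_div_assoc, lt_div_iff₀ (by positivity)]
  nlinarith [sin_sq_add_cos_sq d]

theorem prj_neg_of {d : ℝ} (hd : d ∈ Ioo 0 (π / 3)) {W : ℂ} (hW : W ∈ Cone60) (hi : 0 < W.im) :
    prj d W < 0 := by
  rw [cone_iff] at hW
  obtain ⟨h1, h2⟩ := cot_gt hd
  unfold prj
  set k := cos d / sin d
  have h3 : 0 < W.im * k := mul_pos hi h1
  have h4 : W.re ^ 2 < (W.im * k) ^ 2 := by
    have : 0 < W.im ^ 2 := by positivity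
    nlinarith
  have := abs_lt_of_sq_lt_sq' h4 h3.le
  linarith [this.2]

theorem prj_pos_of {d : ℝ} (hd : d ∈ Ioo (2 * π / 3) π) {W : ℂ} (hW : W ∈ Cone60)
    (hi : 0 < W.im) : 0 < prj d W := by
  rw [cone_iff] at hW
  obtain ⟨h1, h2⟩ := cot_gt (d := π - d) ⟨by linarith [hd.2], by linarith [hd.1]⟩
  rw [Real.cos_pi_sub, Real.sin_pi_sub, neg_div] at h1 h2
  unfold prj
  set k := cos d / sin d
  have h3 : 0 < W.im * -k := mul_pos hi h1
  have h4 : W.re ^ 2 < (W.im * -k) ^ 2 := by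
    have : 0 < W.im ^ 2 := by positivity
    nlinarith
  have := abs_lt_of_sq_lt_sq' h4 h3.le
  linarith [this.1]

theorem prj_neg (d : ℝ) (W : ℂ) : prj d (-W) = -prj d W := by
  simp [prj]; ring

/-- colour `i` is missing from both normals of the direction `θ` -/
def Ms (X : Abs) (θ : ℝ) (i : Fin 3) : Prop := ¬ X.Λ (θ + π / 2) i ∧ ¬ X.Λ (θ - π / 2) i

theorem Ms_add_pi (X : Abs) (θ : ℝ) (i : Fin 3) : Ms X (θ + π) i ↔ Ms X θ i := by
  unfold Ms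
  rw [show θ + π + π / 2 = θ - π / 2 + 2 * π by ring, X.pΛ,
    show θ + π - π / 2 = θ + π / 2 by ring, and_comm]

theorem Ms_neg (X : Abs) {W : ℂ} (hW : W.im ≠ 0) (i : Fin 3) :
    Ms X (Complex.arg (-W)) i ↔ Ms X (Complex.arg W) i := by
  rcases lt_or_gt_of_ne hW with h | h
  · rw [Complex.arg_neg_eq_arg_add_pi_of_im_neg h, Ms_add_pi]
  · rw [Complex.arg_neg_eq_arg_sub_pi_of_im_pos h, ← Ms_add_pi, sub_add_cancel]

/-- pull back a statement about middle directions to the double cone -/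
theorem ae_cone (hP : POL) (X : Abs) {Q : (Fin 3 → Prop) → Prop}
    (h : ∀ᵐ θ : ℝ, θ ∈ Ioo (π / 3) (2 * π / 3) → Q (Ms X θ)) :
    ∀ᵐ W : ℂ, W ∈ Cone60 → Q (Ms X (Complex.arg W)) := by
  have h1 := ae_arg hP h
  have h2 := (Measure.measurePreserving_neg (volume : Measure ℂ)).quasiMeasurePreserving.ae h1
  filter_upwards [h1, h2] with W a1 a2 hW
  rcases lt_or_gt_of_ne (im_ne hW) with hi | hi
  · have := a2 (arg_mem (-W) (neg_cone hW) (by simpa using hi))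
    have e1 : Ms X (Complex.arg (-W)) = Ms X (Complex.arg W) :=
      funext fun i => propext (Ms_neg X hi.ne i)
    rwa [e1] at this
  · exact a1 (arg_mem W hW hi)

theorem core (hM : ABSM) (hP : POL) (X : Abs) (hX : X.Clean) (C : Set ℂ) (hC : C ⊆ Cone60)
    (hK : ∀ᵐ θ : ℝ, θ ∈ Ioo (π / 3) (2 * π / 3) →
      ((∀ i, (∀ j, X.κ (θ + π / 6) j → j = i) → volume (X.U i ∩ C) = 0) ∧
        (∀ i, (∀ j, X.κ (θ - π / 6) j → j = i) → volume (X.U i ∩ C) = 0)) ∨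
      ((∀ i, (∀ j, X.κ (θ + 5 * π / 6) j → j = i) → volume (X.U i ∩ C) = 0) ∧
        (∀ i, (∀ j, X.κ (θ - 5 * π / 6) j → j = i) → volume (X.U i ∩ C) = 0))) :
    ∃ α : Fin 3, ∀ i, i ≠ α → volume (X.U i ∩ C) = 0 := by
  by_contra hcon
  push Not at hcon
  obtain ⟨h1, -, n1⟩ := hcon 0
  obtain ⟨h2, h21, n2⟩ := hcon h1
  have h12 : h1 ≠ h2 := h21.symm
  have hAv : ∀ᵐ s : ℝ, s ∉ X.Av → s ≤ 0 := by
    filter_upwards [X.cov, measure_eq_zero_iff_ae_notMem.1 hX.1] with s a1 a2 a3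
    by_contra hs
    push Not at hs
    exact a2 ⟨a1.resolve_right a3, hs⟩
  have hAu : ∀ᵐ s : ℝ, s ∉ X.Au → 0 ≤ s := by
    filter_upwards [X.cov, measure_eq_zero_iff_ae_notMem.1 hX.2] with s a1 a2 a3
    by_contra hs
    push Not at hs
    exact a2 ⟨a1.resolve_left a3, hs⟩
  have sh : ∀ t : ℝ, ∀ᵐ θ : ℝ, (X.σ (θ + t + π / 3) ↔ ¬ X.σ (θ + t)) ∧ (∃ i, X.κ (θ + t) i) ∧
      ∀ i, X.κ (θ + t) i → X.Λ (θ + t) i ∧ ¬ X.Λ (θ + t + π / 3) i ∧ ¬ X.Λ (θ + t - π / 3) i :=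
    fun t => (measurePreserving_add_right volume t).quasiMeasurePreserving.ae X.hex
  have hT : ∀ᵐ θ : ℝ, θ ∈ Ioo (π / 3) (2 * π / 3) →
      ∃ ha hb, ((ha = h1 ∧ hb = h2) ∨ (ha = h2 ∧ hb = h1)) ∧ (∀ i, Ms X θ i → i = hb) ∧
        ((∀ᵐ W : ℂ, W ∈ X.U ha → prj θ W ≤ 0) ∨ (∀ᵐ W : ℂ, W ∈ X.U ha → 0 ≤ prj θ W)) := by
    filter_upwards [hK, hM X, X.hd, sh (π / 6), sh (-(π / 6)), sh (π / 2), sh (-(π / 2)),
      sh (5 * π / 6), sh (-(5 * π / 6))] with θ k m d s1 s2 s3 s4 s5 s6 hθ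
    have hθ' : θ ∈ Ioo 0 π := ⟨by linarith [hθ.1, pi_pos], by linarith [hθ.2, pi_pos]⟩
    obtain ⟨⟨i0, m1, m2, -⟩, -⟩ := m hθ
    rw [show θ + π / 6 + π / 3 = θ + π / 2 by ring,
      show θ + π / 6 - π / 3 = θ - π / 6 by ring] at s1
    rw [show θ + -(π / 6) = θ - π / 6 by ring,
      show θ - π / 6 - π / 3 = θ - π / 2 by ring] at s2
    rw [show θ + -(π / 2) = θ - π / 2 by ring] at s4
    rw [show θ + 5 * π / 6 + π / 3 = θ - 5 * π / 6 + 2 * π by ring,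
      show θ + 5 * π / 6 - π / 3 = θ + π / 2 by ring] at s5
    rw [show θ + -(5 * π / 6) = θ - 5 * π / 6 by ring,
      show θ - 5 * π / 6 + π / 3 = θ - π / 2 by ring] at s6
    have fin : ∃ ha hb, ((ha = h1 ∧ hb = h2) ∨ (ha = h2 ∧ hb = h1)) ∧
        (∀ i, ¬ X.Λ (θ + π / 2) i → ¬ X.Λ (θ - π / 2) i → i = hb) ∧
        ((∀ j, X.κ (θ + π / 2) j → j = ha) ∨ (∀ j, X.κ (θ - π / 2) j → j = ha)) := by
      rcases k hθ with ⟨k1, k2⟩ | ⟨k1, k2⟩
      · exact comb (X.κ (θ + π / 6)) (X.κ (θ - π / 6)) _ _ (X.Λ (θ - π / 6)) _ _ h1 h2 h12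
          s1.2.1 s2.2.1 s3.2.1 s4.2.1 (fun i h => (s1.2.2 i h).2.2) (fun i h => (s2.2.2 i h).1)
          (fun i h => (s1.2.2 i h).2.1) (fun i h => (s2.2.2 i h).2.2)
          (fun i h => (s3.2.2 i h).1) (fun i h => (s4.2.2 i h).1) ⟨i0, m1, m2⟩
          (fun h => n1 (k1 _ h)) (fun h => n2 (k1 _ h)) (fun h => n1 (k2 _ h))
          (fun h => n2 (k2 _ h))
      · exact comb (X.κ (θ + 5 * π / 6)) (X.κ (θ - 5 * π / 6)) _ _ (X.Λ (θ - 5 * π / 6)) _ _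
          h1 h2 h12 s5.2.1 s6.2.1 s3.2.1 s4.2.1
          (fun i h => by have := (s5.2.2 i h).2.1; rwa [X.pΛ] at this)
          (fun i h => (s6.2.2 i h).1)
          (fun i h => (s5.2.2 i h).2.2) (fun i h => (s6.2.2 i h).2.1)
          (fun i h => (s3.2.2 i h).1) (fun i h => (s4.2.2 i h).1) ⟨i0, m1, m2⟩
          (fun h => n1 (k1 _ h)) (fun h => n2 (k1 _ h)) (fun h => n1 (k2 _ h))
          (fun h => n2 (k2 _ h))
    obtain ⟨ha, hb, f1, f2, f3⟩ := fin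
    refine ⟨ha, hb, f1, fun i hi => f2 i hi.1 hi.2, ?_⟩
    have key : ∀ φ, φ = θ + π / 2 ∨ φ = θ - π / 2 → (∀ j, X.κ φ j → j = ha) →
        ((∀ᵐ W : ℂ, W ∈ X.U ha → prj θ W ≤ 0) ∨ (∀ᵐ W : ℂ, W ∈ X.U ha → 0 ≤ prj θ W)) := by
      intro φ hφ hκ
      obtain ⟨d1, d2⟩ := d hθ' φ hφ ha hκ
      by_cases hσ : X.σ φ
      · left
        filter_upwards [d1 hσ, ae_lin (cos θ / sin θ) hAv] with W b1 b2 hW
        exact b2 (b1 hW)
      · right
        filter_upwards [d2 hσ, ae_lin (cos θ / sin θ) hAu] with W b1 b2 hW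
        exact b2 (b1 hW)
    rcases f3 with f3 | f3
    · exact key _ (Or.inl rfl) f3
    · exact key _ (Or.inr rfl) f3
  -- a direction missing `h2`
  have hex2 : ∃ᵐ θ : ℝ, θ ∈ Ioo (π / 3) (2 * π / 3) ∧ Ms X θ h2 := by
    intro hno
    have hno' : ∀ᵐ θ : ℝ, θ ∈ Ioo (π / 3) (2 * π / 3) → ¬ Ms X θ h2 :=
      hno.mono fun θ h a b => h ⟨a, b⟩
    have := ae_cone hP X (Q := fun M => ¬ M h2) hno'
    apply n2
    rw [measure_eq_zero_iff_ae_notMem]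
    filter_upwards [this, X.hc] with W b1 b2 hW
    exact b1 (hC hW.2) (b2 h2 hW.1)
  obtain ⟨θ₀, ⟨hθ₀, hm₀⟩, hT₀⟩ := (hex2.and_eventually hT).exists
  obtain ⟨ha, hb, f1, f2, f3⟩ := hT₀ hθ₀
  have hb2 : h2 = hb := f2 h2 hm₀
  have ha1 : ha = h1 := by
    rcases f1 with ⟨a, -⟩ | ⟨-, b⟩
    · exact a
    · exact absurd (hb2.trans b) h21
  subst ha1
  -- the symmetric set
  have huniq : ∀ᵐ W : ℂ, W ∈ Cone60 →
      ∀ i j, Ms X (Complex.arg W) i → Ms X (Complex.arg W) j → i = j := by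
    refine ae_cone hP X (Q := fun M => ∀ i j, M i → M j → i = j) ?_
    filter_upwards [hT] with θ a hθ i j hi hj
    obtain ⟨_, hb', -, g2, -⟩ := a hθ
    rw [g2 i hi, g2 j hj]
  have hcov : ∀ᵐ W : ℂ, W ∈ Cone60 → ∃ i, W ∈ X.U i := by
    have hpos : ∀ᵐ s : ℝ, 0 < s → s ∈ X.Av := hAv.mono fun s h hs => by
      by_contra hh; exact absurd (h hh) (not_le.2 hs)
    have hneg : ∀ᵐ s : ℝ, s < 0 → s ∈ X.Au := hAu.mono fun s h hs => by
      by_contra hh; exact absurd (h hh) (not_le.2 hs)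
    filter_upwards [X.hb, ae_lin (-(1 / √3)) hpos, ae_lin (-(1 / √3)) hneg,
      ae_lin (1 / √3) hpos, ae_lin (1 / √3) hneg] with W b0 b1 b2 b3 b4 hW
    have es : W.re - W.im * -(1 / √3) = sC W := by unfold sC; ring
    have et : W.re - W.im * (1 / √3) = tC W := by unfold tC; ring
    rw [es] at b1 b2
    rw [et] at b3 b4
    apply b0
    rcases mul_neg_iff.1 (show sC W * tC W < 0 from hW) with ⟨p, q⟩ | ⟨p, q⟩
    · exact Or.inr ⟨b1 p, b4 q⟩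
    · exact Or.inl ⟨b2 p, b3 q⟩
  have hS : ∀ᵐ W : ℂ, W ∈ Cone60 → Ms X (Complex.arg W) ha → W ∈ X.U ha := by
    filter_upwards [huniq, hcov, X.hc] with W b1 b2 b3 hW hm
    obtain ⟨i, hi⟩ := b2 hW
    rwa [← b1 hW i ha (b3 i hi) hm]
  have hS' := (Measure.measurePreserving_neg (volume : Measure ℂ)).quasiMeasurePreserving.ae hS
  have hnz : ∀ᵐ W : ℂ, prj θ₀ W ≠ 0 :=
    ae_lin (cos θ₀ / sin θ₀) (P := fun s => s ≠ 0) (by simp [ae_iff])
  apply n1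
  rw [measure_eq_zero_iff_ae_notMem]
  rcases f3 with f3 | f3
  · have f4 := (Measure.measurePreserving_neg (volume : Measure ℂ)).quasiMeasurePreserving.ae f3
    filter_upwards [f3, f4, hS', hnz, X.hc] with W b1 b2 b3 b4 b5 hW
    have hWc := hC hW.2
    have c1 := b1 hW.1
    have c2 := b2 (b3 (neg_cone hWc) ((Ms_neg X (im_ne hWc) ha).2 (b5 ha hW.1)))
    rw [prj_neg] at c2
    exact b4 (by linarith)
  · have f4 := (Measure.measurePreserving_neg (volume : Measure ℂ)).quasiMeasurePreserving.ae f3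
    filter_upwards [f3, f4, hS', hnz, X.hc] with W b1 b2 b3 b4 b5 hW
    have hWc := hC hW.2
    have c1 := b1 hW.1
    have c2 := b2 (b3 (neg_cone hWc) ((Ms_neg X (im_ne hWc) ha).2 (b5 ha hW.1)))
    rw [prj_neg] at c2
    exact b4 (by linarith)

/-- killing a colour on a set where the projection has a fixed sign -/
theorem kill (X : Abs) (hX : X.Clean) (C : Set ℂ) (d : ℝ) (i : Fin 3) :
    ((∀ W ∈ C, prj d W < 0) → (∀ᵐ W : ℂ, W ∈ X.U i → prj d W ∉ X.Au) →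
      volume (X.U i ∩ C) = 0) ∧
    ((∀ W ∈ C, 0 < prj d W) → (∀ᵐ W : ℂ, W ∈ X.U i → prj d W ∉ X.Av) →
      volume (X.U i ∩ C) = 0) := by
  have hAv : ∀ᵐ s : ℝ, s ∉ X.Av → s ≤ 0 := by
    filter_upwards [X.cov, measure_eq_zero_iff_ae_notMem.1 hX.1] with s a1 a2 a3
    by_contra hs
    push Not at hs
    exact a2 ⟨a1.resolve_right a3, hs⟩
  have hAu : ∀ᵐ s : ℝ, s ∉ X.Au → 0 ≤ s := by
    filter_upwards [X.cov, measure_eq_zero_iff_ae_notMem.1 hX.2] with s a1 a2 a3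
    by_contra hs
    push Not at hs
    exact a2 ⟨a1.resolve_left a3, hs⟩
  constructor
  · intro h1 h2
    rw [measure_eq_zero_iff_ae_notMem]
    filter_upwards [h2, ae_lin (cos d / sin d) hAu] with W b1 b2 hW
    exact absurd (b2 (b1 hW.1)) (not_le.2 (h1 W hW.2))
  · intro h1 h2
    rw [measure_eq_zero_iff_ae_notMem]
    filter_upwards [h2, ae_lin (cos d / sin d) hAv] with W b1 b2 hW
    exact absurd (b2 (b1 hW.1)) (not_le.2 (h1 W hW.2))

end A1a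
open A1a

theorem abs1a (hM : ABSM) (hP : POL) : ABS1A := by
  intro X hX
  have sh : ∀ t : ℝ, ∀ᵐ θ : ℝ, (X.σ (θ + t + π / 3) ↔ ¬ X.σ (θ + t)) :=
    fun t => ((measurePreserving_add_right volume t).quasiMeasurePreserving.ae X.hex).mono
      fun _ h => h.1
  have d1 := (measurePreserving_sub_right volume (π / 3)).quasiMeasurePreserving.ae X.hd
  have d2 := (measurePreserving_add_right volume (π / 3)).quasiMeasurePreserving.ae X.hd
  have hall : ∀ᵐ θ : ℝ, θ ∈ Ioo (π / 3) (2 * π / 3) →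
      (X.σ (θ - π / 6) ↔ ¬ X.σ (θ + π / 6)) ∧ (X.σ (θ + 5 * π / 6) ↔ X.σ (θ + π / 6)) ∧
      (X.σ (θ - 5 * π / 6) ↔ ¬ X.σ (θ + π / 6)) ∧
      (∀ φ, φ = θ + π / 6 ∨ φ = θ - 5 * π / 6 → ∀ i, (∀ j, X.κ φ j → j = i) →
        (X.σ φ → ∀ᵐ W : ℂ, W ∈ X.U i → prj (θ - π / 3) W ∉ X.Av) ∧
        (¬ X.σ φ → ∀ᵐ W : ℂ, W ∈ X.U i → prj (θ - π / 3) W ∉ X.Au)) ∧
      (∀ φ, φ = θ + 5 * π / 6 ∨ φ = θ - π / 6 → ∀ i, (∀ j, X.κ φ j → j = i) →
        (X.σ φ → ∀ᵐ W : ℂ, W ∈ X.U i → prj (θ + π / 3) W ∉ X.Av) ∧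
        (¬ X.σ φ → ∀ᵐ W : ℂ, W ∈ X.U i → prj (θ + π / 3) W ∉ X.Au)) := by
    filter_upwards [d1, d2, sh (-(π / 6)), sh (π / 6), sh (π / 2), sh (5 * π / 6)]
      with θ a1 a2 s1 s2 s3 s4 hθ
    rw [show θ + -(π / 6) + π / 3 = θ + π / 6 by ring, show θ + -(π / 6) = θ - π / 6 by ring] at s1
    rw [show θ + π / 6 + π / 3 = θ + π / 2 by ring] at s2
    rw [show θ + π / 2 + π / 3 = θ + 5 * π / 6 by ring] at s3
    rw [show θ + 5 * π / 6 + π / 3 = θ - 5 * π / 6 + 2 * π by ring, X.pσ] at s4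
    refine ⟨by tauto, by tauto, by tauto, ?_, ?_⟩
    · intro φ hφ
      refine a1 ⟨by linarith [hθ.1], by linarith [hθ.2, pi_pos]⟩ φ ?_
      rcases hφ with h | h
      · left; rw [h]; ring
      · right; rw [h]; ring
    · intro φ hφ
      refine a2 ⟨by linarith [hθ.1, pi_pos], by linarith [hθ.2]⟩ φ ?_
      rcases hφ with h | h
      · left; rw [h]; ring
      · right; rw [h]; ring
  constructor
  · simp_rw [inter_assoc]
    refine core hM hP X hX (Cone60 ∩ {W | 0 < W.im}) inter_subset_left ?_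
    filter_upwards [hall] with θ a hθ
    obtain ⟨s1, s2, s3, a1, a2⟩ := a hθ
    have p1 : ∀ W ∈ Cone60 ∩ {W : ℂ | 0 < W.im}, prj (θ - π / 3) W < 0 := fun W hW =>
      prj_neg_of ⟨by linarith [hθ.1], by linarith [hθ.2]⟩ hW.1 hW.2
    have p2 : ∀ W ∈ Cone60 ∩ {W : ℂ | 0 < W.im}, 0 < prj (θ + π / 3) W := fun W hW =>
      prj_pos_of ⟨by linarith [hθ.1], by linarith [hθ.2]⟩ hW.1 hW.2
    by_cases hs : X.σ (θ + π / 6)
    · right
      exact ⟨fun i hi => (kill X hX _ _ i).2 p2 ((a2 _ (Or.inl rfl) i hi).1 (s2.2 hs)),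
        fun i hi => (kill X hX _ _ i).1 p1 ((a1 _ (Or.inr rfl) i hi).2 (fun h => s3.1 h hs))⟩
    · left
      exact ⟨fun i hi => (kill X hX _ _ i).1 p1 ((a1 _ (Or.inl rfl) i hi).2 hs),
        fun i hi => (kill X hX _ _ i).2 p2 ((a2 _ (Or.inr rfl) i hi).1 (s1.2 hs))⟩
  · simp_rw [inter_assoc]
    refine core hM hP X hX (Cone60 ∩ {W | W.im < 0}) inter_subset_left ?_
    filter_upwards [hall] with θ a hθ
    obtain ⟨s1, s2, s3, a1, a2⟩ := a hθ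
    have p1 : ∀ W ∈ Cone60 ∩ {W : ℂ | W.im < 0}, 0 < prj (θ - π / 3) W := fun W hW => by
      have := prj_neg_of (d := θ - π / 3) ⟨by linarith [hθ.1], by linarith [hθ.2]⟩
        (neg_cone hW.1) (by simpa using hW.2)
      rw [prj_neg] at this; linarith
    have p2 : ∀ W ∈ Cone60 ∩ {W : ℂ | W.im < 0}, prj (θ + π / 3) W < 0 := fun W hW => by
      have := prj_pos_of (d := θ + π / 3) ⟨by linarith [hθ.1], by linarith [hθ.2]⟩
        (neg_cone hW.1) (by simpa using hW.2)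
      rw [prj_neg] at this; linarith
    by_cases hs : X.σ (θ + π / 6)
    · left
      exact ⟨fun i hi => (kill X hX _ _ i).2 p1 ((a1 _ (Or.inl rfl) i hi).1 hs),
        fun i hi => (kill X hX _ _ i).1 p2 ((a2 _ (Or.inr rfl) i hi).2 (fun h => s1.1 h hs))⟩
    · right
      exact ⟨fun i hi => (kill X hX _ _ i).1 p2 ((a2 _ (Or.inl rfl) i hi).2 (fun h => hs (s2.1 h))),
        fun i hi => (kill X hX _ _ i).2 p1 ((a1 _ (Or.inr rfl) i hi).1 (s3.2 hs))⟩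

end Crest.Agent.R40
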