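import Crest.Agent.R40.DDefs

set_option autoImplicit false

namespace Crest.Agent.R40
open MeasureTheory Set Filter Topology Real

theorem abs2_shift {P : ℝ → Prop} (h : ∀ᵐ x : ℝ, P x) (c : ℝ) : ∀ᵐ x : ℝ, P (x + c) :=
  (measurePreserving_add_right (volume : Measure ℝ) c).quasiMeasurePreserving.ae h

theorem abs2_pol (hP : POL) {P : ℂ → Prop} (h : ∀ᵐ W : ℂ, P W) :
    ∀ᵐ d : ℝ, ∀ᵐ r : ℝ, P (r * e d) := by
  set N := toMeasurable volume {z | ¬ P z} with hN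
  have hN0 : volume N = 0 := by rw [hN, measure_toMeasurable]; exact ae_iff.1 h
  have hNm : MeasurableSet N := measurableSet_toMeasurable _ _
  have h1 : ∀ᵐ W : ℂ, W ∉ N := by rw [ae_iff]; simpa using hN0
  have h2 := ((hP (fun W => W ∉ N) hNm.compl).1).1 h1
  filter_upwards [h2] with d hd
  filter_upwards [hd] with r hr
  by_contra hc
  exact hr (subset_toMeasurable _ _ hc)

theorem abs2_prj (d : ℝ) (S : Set ℝ) (hS : MeasurableSet S) (h : ∀ᵐ s : ℝ, s ∈ S) :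
    ∀ᵐ W : ℂ, prj d W ∈ S := by
  set k := cos d / sin d with hk
  have hm : MeasurableSet {p : ℝ × ℝ | p.1 - p.2 * k ∈ S} :=
    (measurable_fst.sub (measurable_snd.mul_const k)) hS
  have hm' : MeasurableSet {p : ℝ × ℝ | p.2 - p.1 * k ∈ S} :=
    (measurable_snd.sub (measurable_fst.mul_const k)) hS
  have h1 : ∀ᵐ y : ℝ, ∀ᵐ x : ℝ, x - y * k ∈ S := ae_of_all _ fun y => by
    have := abs2_shift h (-(y * k))
    simpa [sub_eq_add_neg] using this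
  have h2 : ∀ᵐ x : ℝ, ∀ᵐ y : ℝ, x - y * k ∈ S :=
    (Measure.ae_ae_comm (p := fun (y : ℝ) (x : ℝ) => x - y * k ∈ S) hm').1 h1
  have h3 : ∀ᵐ p : ℝ × ℝ, p.1 - p.2 * k ∈ S := by
    rw [Measure.volume_eq_prod]
    exact (Measure.ae_prod_iff_ae_ae hm).2 h2
  exact Complex.volume_preserving_equiv_real_prod.quasiMeasurePreserving.ae h3

theorem abs2_ex {S : Set ℝ} {P : ℝ → Prop} (h0 : volume S ≠ 0) (h : ∀ᵐ r : ℝ, P r) :
    ∃ r ∈ S, P r := by
  by_contra hno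
  apply h0
  refine measure_mono_null (fun r hr => ?_) (ae_iff.1 h)
  exact fun hp => hno ⟨r, hr, hp⟩

theorem abs2_per {P : ℝ → Prop} (hp : ∀ φ, P (φ + 2 * π) ↔ P φ)
    (h : ∀ᵐ φ : ℝ, φ ∈ Ioo (-(π / 2)) (3 * π / 2) → P φ) : ∀ᵐ φ : ℝ, P φ := by
  have hper : Function.Periodic P (2 * π) := fun φ => propext (hp φ)
  have hne : ∀ᵐ φ : ℝ, φ ≠ -(π / 2) := by
    rw [ae_iff]; simp
  have h1 : ∀ n : ℤ, ∀ᵐ φ : ℝ, φ - n • (2 * π) ∈ Ico (-(π / 2)) (3 * π / 2) → P φ := by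
    intro n
    filter_upwards [abs2_shift h (-(n • (2 * π))), abs2_shift hne (-(n • (2 * π)))] with φ a b hc
    rw [← sub_eq_add_neg] at a b
    have := a ⟨lt_of_le_of_ne hc.1 (Ne.symm b), hc.2⟩
    rwa [hper.sub_zsmul_eq n] at this
  filter_upwards [ae_all_iff.2 h1] with φ hφ
  have h2 := sub_toIcoDiv_zsmul_mem_Ico two_pi_pos (-(π / 2)) φ
  refine hφ (toIcoDiv two_pi_pos (-(π / 2)) φ) ?_
  have e3 : -(π / 2) + 2 * π = 3 * π / 2 := by ring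
  rwa [e3] at h2

theorem abs2_three : ∀ α β : Fin 3, α ≠ β →
    ∀ γ j : Fin 3, γ ≠ α → γ ≠ β → j ≠ γ → j = α ∨ j = β := by decide

theorem abs2_flip {p q r s : Prop} (a : q ↔ ¬ p) (b : r ↔ ¬ q) (c : s ↔ ¬ r) : s ↔ ¬ p := by
  tauto

set_option maxHeartbeats 400000 in
theorem abs2 (hM : ABSM) (hO : ABSO) (hA : ABS2A) (hP : POL) : ABS2 := by
  intro X hX
  obtain ⟨α, β, hα, hβ⟩ := hA X hX
  have hα' := abs2_pol hP hα
  have hβ' := abs2_pol hP hβ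
  have mid : ∀ᵐ d : ℝ, d ∈ Ioo (π / 3) (2 * π / 3) →
      (¬ X.Λ (d + π / 2) α ∧ ¬ X.Λ (d - π / 2) α) ∧ (¬ X.Λ (d + π / 2) β ∧ ¬ X.Λ (d - π / 2) β) ∧
      volume {r : ℝ | (r * e d : ℂ) ∈ X.U α} ≠ 0 := by
    filter_upwards [hM X, hα', hβ'] with d h1 h2 h3 hd
    obtain ⟨⟨i, i1, i2, i3⟩, ⟨j, j1, j2, j3⟩⟩ := h1 hd
    obtain ⟨r, hr, hr'⟩ := abs2_ex i3 h2
    obtain ⟨r2, hr2, hr2'⟩ := abs2_ex j3 h3
    obtain rfl := hr' hr.2.2.1 hr.2.2.2 i hr.2.1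
    obtain rfl := hr2' hr2.2.2.1 hr2.2.2.2 j hr2.2.1
    exact ⟨⟨i1, i2⟩, ⟨j1, j2⟩, fun h0 => i3 (measure_mono_null (fun r hr => hr.2.1) h0)⟩
  have out : ∀ᵐ d : ℝ, d ∈ Ioo 0 π →
      (¬ X.Λ (d + π / 2) α ∧ ¬ X.Λ (d - π / 2) α) ∨
        (¬ X.Λ (d + π / 2) β ∧ ¬ X.Λ (d - π / 2) β) := by
    filter_upwards [hO X hX, hα', hβ'] with d h1 h2 h3 hd
    obtain ⟨i, i1, i2, i3⟩ := h1 hd
    obtain ⟨r, hr, hr', hr''⟩ := abs2_ex i3 (h2.and h3)
    rcases hr.2 with h | h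
    · obtain rfl := hr' h.1 h.2 i hr.1
      exact Or.inl ⟨i1, i2⟩
    · obtain rfl := hr'' h.1 h.2 i hr.1
      exact Or.inr ⟨i1, i2⟩
  by_cases hab : α = β
  · subst hab
    refine ⟨α, abs2_per (fun φ => not_congr (X.pΛ φ α)) ?_⟩
    have hne : ∀ᵐ φ : ℝ, φ ≠ π / 2 := by
      rw [ae_iff]; simp
    filter_upwards [abs2_shift out (π / 2), abs2_shift out (-(π / 2)), hne] with φ h1 h2 h3 hφ
    rcases lt_or_gt_of_ne h3 with h | h
    · have := h1 ⟨by linarith [hφ.1], by linarith⟩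
      rw [or_self] at this
      simpa using this.2
    · have := h2 ⟨by linarith, by linarith [hφ.2]⟩
      rw [or_self] at this
      simpa using this.1
  exfalso
  -- `U α` is not null
  have hU : ¬ ∀ᵐ W : ℂ, W ∉ X.U α := by
    intro h0
    have h1 := abs2_pol hP h0
    have hI : volume (Ioo (π / 3) (2 * π / 3)) ≠ 0 := by
      rw [Real.volume_Ioo]
      have : 0 < 2 * π / 3 - π / 3 := by linarith [pi_pos]
      simpa using this
    obtain ⟨d, hd, h2, h3⟩ := abs2_ex hI (mid.and h1)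
    apply (h2 hd).2.2
    have := ae_iff.1 h3
    simpa using this
  have kill : ∀ d : ℝ, (σp : X.σ (d + π / 2) ↔ ¬ X.σ (d - π / 2)) →
      (∀ φ, φ = d + π / 2 ∨ φ = d - π / 2 → ∀ i, (∀ j, X.κ φ j → j = i) →
        (X.σ φ → ∀ᵐ W : ℂ, W ∈ X.U i → prj d W ∉ X.Av) ∧
        (¬ X.σ φ → ∀ᵐ W : ℂ, W ∈ X.U i → prj d W ∉ X.Au)) →
      (∀ j, X.κ (d + π / 2) j → j = α) → (∀ j, X.κ (d - π / 2) j → j = α) → False := by
    intro d σp hd k1 k2
    have c0 := abs2_prj d (X.Au ∪ X.Av) (X.mAu.union X.mAv) X.cov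
    have a1 := hd _ (Or.inl rfl) α k1
    have a2 := hd _ (Or.inr rfl) α k2
    apply hU
    by_cases hs : X.σ (d + π / 2)
    · filter_upwards [c0, a1.1 hs, a2.2 (σp.1 hs)] with W w0 w1 w2 hW
      exact w0.elim (w2 hW) (w1 hW)
    · have hs' : X.σ (d - π / 2) := by
        by_contra h; exact hs (σp.2 h)
      filter_upwards [c0, a1.2 hs, a2.1 hs'] with W w0 w1 w2 hW
      exact w0.elim (w1 hW) (w2 hW)
  have hI : volume (Ioo 0 (π / 3)) ≠ 0 := by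
    rw [Real.volume_Ioo]
    have : 0 < π / 3 - 0 := by linarith [pi_pos]
    simpa using this
  obtain ⟨d, hd, ⟨x0, x1, x2, x3, x4, x5⟩, m1, o0, o2, d0, d2⟩ := abs2_ex hI
    (((abs2_shift X.hex (-(π / 2))).and ((abs2_shift X.hex (-(π / 6))).and
      ((abs2_shift X.hex (π / 6)).and ((abs2_shift X.hex (π / 2)).and
      ((abs2_shift X.hex (5 * π / 6)).and (abs2_shift X.hex (7 * π / 6))))))).and
      ((abs2_shift mid (π / 3)).and (out.and ((abs2_shift out (2 * π / 3)).and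
      (X.hd.and (abs2_shift X.hd (2 * π / 3)))))))
  have hp := pi_pos
  replace m1 := m1 ⟨by linarith [hd.1], by linarith [hd.2]⟩
  replace o0 := o0 ⟨hd.1, by linarith [hd.2]⟩
  replace o2 := o2 ⟨by linarith [hd.1], by linarith [hd.2]⟩
  replace d0 := kill d
    (by
      have e1 : d + -(π / 2) + π / 3 = d + -(π / 6) := by ring
      have e2 : d + -(π / 6) + π / 3 = d + π / 6 := by ring
      have e3 : d + π / 6 + π / 3 = d + π / 2 := by ring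
      have a := x0.1; have b := x1.1; have c := x2.1
      rw [e1] at a; rw [e2] at b; rw [e3] at c
      rw [sub_eq_add_neg]; exact abs2_flip a b c)
    (d0 ⟨hd.1, by linarith [hd.2]⟩)
  replace d2 := kill (d + 2 * π / 3)
    (by
      have e1 : d + π / 6 + π / 3 = d + π / 2 := by ring
      have e2 : d + π / 2 + π / 3 = d + 5 * π / 6 := by ring
      have e3 : d + 5 * π / 6 + π / 3 = d + 2 * π / 3 + π / 2 := by ring
      have e4 : d + 2 * π / 3 - π / 2 = d + π / 6 := by ring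
      have a := x2.1; have b := x3.1; have c := x4.1
      rw [e1] at a; rw [e2] at b; rw [e3] at c
      rw [e4]; exact abs2_flip a b c)
    (d2 ⟨by linarith [hd.1], by linarith [hd.2]⟩)
  have f0 : d - π / 2 = d + -(π / 2) := by ring
  have f1 : d + π / 3 - π / 2 = d + -(π / 6) := by ring
  have f2 : d + 2 * π / 3 - π / 2 = d + π / 6 := by ring
  have f4 : d + π / 3 + π / 2 = d + 5 * π / 6 := by ring
  have f5 : d + 2 * π / 3 + π / 2 = d + 7 * π / 6 := by ring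
  rw [f1, f4] at m1
  rw [f0] at o0 d0
  rw [f2, f5] at o2 d2
  have g1 : d + -(π / 6) + π / 3 = d + π / 6 := by ring
  have g1' : d + -(π / 6) - π / 3 = d + -(π / 2) := by ring
  have g2 : d + π / 6 + π / 3 = d + π / 2 := by ring
  have g4 : d + 5 * π / 6 + π / 3 = d + 7 * π / 6 := by ring
  have g4' : d + 5 * π / 6 - π / 3 = d + π / 2 := by ring
  rw [g1, g1'] at x1
  rw [g2] at x2
  rw [g4, g4'] at x4
  obtain ⟨-, ⟨i1, k1⟩, l1⟩ := x1
  obtain ⟨-, ⟨i4, k4⟩, l4⟩ := x4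
  obtain ⟨-, ⟨i2, k2⟩, l2⟩ := x2
  obtain ⟨-, ⟨i3, k3⟩, l3⟩ := x3
  obtain ⟨-, -, l0⟩ := x0
  obtain ⟨-, -, l5⟩ := x5
  have three : ∀ γ j : Fin 3, γ ≠ α → γ ≠ β → j ≠ γ → j = α ∨ j = β := abs2_three α β hab
  have n1α : i1 ≠ α := fun h => m1.1.2 (h ▸ (l1 i1 k1).1)
  have n1β : i1 ≠ β := fun h => m1.2.1.2 (h ▸ (l1 i1 k1).1)
  have n4α : i4 ≠ α := fun h => m1.1.1 (h ▸ (l4 i4 k4).1)
  have n4β : i4 ≠ β := fun h => m1.2.1.1 (h ▸ (l4 i4 k4).1)
  have L0 : ∀ j, X.Λ (d + -(π / 2)) j → j = α ∨ j = β := fun j hj =>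
    three i1 j n1α n1β fun h => (l1 i1 k1).2.2 (h ▸ hj)
  have L2 : ∀ j, X.Λ (d + π / 6) j → j = α ∨ j = β := fun j hj =>
    three i1 j n1α n1β fun h => (l1 i1 k1).2.1 (h ▸ hj)
  have L3 : ∀ j, X.Λ (d + π / 2) j → j = α ∨ j = β := fun j hj =>
    three i4 j n4α n4β fun h => (l4 i4 k4).2.2 (h ▸ hj)
  have L5 : ∀ j, X.Λ (d + 7 * π / 6) j → j = α ∨ j = β := fun j hj =>
    three i4 j n4α n4β fun h => (l4 i4 k4).2.1 (h ▸ hj)
  rcases o0 with o0 | o0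
  · rcases o2 with o2 | o2
    · -- both miss `α`: adjacent normals carry `β`
      have e2 : i2 = β := (L2 i2 (l2 i2 k2).1).resolve_left fun h => o2.2 (h ▸ (l2 i2 k2).1)
      have e3 : i3 = β := (L3 i3 (l3 i3 k3).1).resolve_left fun h => o0.1 (h ▸ (l3 i3 k3).1)
      exact (l2 i2 k2).2.1 (by rw [e2, ← e3]; exact (l3 i3 k3).1)
    · exact d2 (fun j hj => (L5 j (l5 j hj).1).resolve_right fun h => o2.1 (h ▸ (l5 j hj).1))
        (fun j hj => (L2 j (l2 j hj).1).resolve_right fun h => o2.2 (h ▸ (l2 j hj).1))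
  · exact d0 (fun j hj => (L3 j (l3 j hj).1).resolve_right fun h => o0.1 (h ▸ (l3 j hj).1))
      (fun j hj => (L0 j (l0 j hj).1).resolve_right fun h => o0.2 (h ▸ (l0 j hj).1))

end Crest.Agent.R40
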