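import Crest.Agent.R40.DDefs

/-! Row 40: `ABS2A`. -/

set_option autoImplicit false

namespace Crest.Agent.R40
open MeasureTheory Set Filter Topology Real


theorem abs2a_fin (L0 L1 L2 L3 L4 L5 K0 K1 K2 K3 K4 K5 aI aII : Fin 3 → Prop) (s1 s2 s4 s5 : Prop)
    (e0 : ∃ i, K0 i) (e1 : ∃ i, K1 i) (e2 : ∃ i, K2 i) (e3 : ∃ i, K3 i) (e4 : ∃ i, K4 i)
    (e5 : ∃ i, K5 i)
    (h0 : ∀ i, K0 i → L0 i ∧ ¬ L1 i ∧ ¬ L5 i) (h1 : ∀ i, K1 i → L1 i ∧ ¬ L2 i ∧ ¬ L0 i)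
    (h2 : ∀ i, K2 i → L2 i ∧ ¬ L3 i ∧ ¬ L1 i) (h3 : ∀ i, K3 i → L3 i ∧ ¬ L4 i ∧ ¬ L2 i)
    (h4 : ∀ i, K4 i → L4 i ∧ ¬ L5 i ∧ ¬ L3 i) (h5 : ∀ i, K5 i → L5 i ∧ ¬ L0 i ∧ ¬ L4 i)
    (t2 : s2 ↔ ¬ s1) (t4 : s4 ↔ ¬ s1) (t5 : s5 ↔ s1)
    (m0 : ∃ i, ¬ L3 i ∧ ¬ L0 i) (m2 : ∃ i, ¬ L5 i ∧ ¬ L2 i)
    (mI : ∃ i, ¬ L4 i ∧ ¬ L1 i ∧ aI i) (mII : ∃ i, ¬ L4 i ∧ ¬ L1 i ∧ aII i)
    (xI : ∀ a, aI a → ((∀ j, K1 j → j = a) → s1) ∧ ((∀ j, K4 j → j = a) → s4) ∧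
      ((∀ j, K2 j → j = a) → ¬ s2) ∧ ((∀ j, K5 j → j = a) → ¬ s5))
    (xII : ∀ a, aII a → ((∀ j, K1 j → j = a) → ¬ s1) ∧ ((∀ j, K4 j → j = a) → ¬ s4) ∧
      ((∀ j, K2 j → j = a) → s2) ∧ ((∀ j, K5 j → j = a) → s5)) :
    (∃ α, ∀ a, aI a → a = α) ∧ (∃ β, ∀ a, aII a → a = β) := by
  simp only [Fin.forall_fin_succ, Fin.exists_fin_succ, IsEmpty.forall_iff, IsEmpty.exists_iff,
    Fin.succ_zero_eq_one, Fin.succ_one_eq_two, or_false, and_true] at *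
  simp only [show ((0 : Fin 3) = 1) = False from by decide, show ((0 : Fin 3) = 2) = False from by decide,
    show ((1 : Fin 3) = 0) = False from by decide, show ((1 : Fin 3) = 2) = False from by decide,
    show ((2 : Fin 3) = 0) = False from by decide, show ((2 : Fin 3) = 1) = False from by decide,
    implies_true, true_and, and_true, imp_false] at *
  grind (splits := 60)

theorem abs2a_prj1 (W : ℂ) : prj (π / 3) W = tC W := by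
  unfold prj tC
  rw [cos_pi_div_three, sin_pi_div_three]
  have : (√3 : ℝ) ≠ 0 := by positivity
  field_simp

theorem abs2a_prj2 (W : ℂ) : prj (2 * π / 3) W = sC W := by
  unfold prj sC
  have h1 : (2 * π / 3 : ℝ) = π - π / 3 := by ring
  rw [h1, cos_pi_sub, sin_pi_sub, cos_pi_div_three, sin_pi_div_three]
  have : (√3 : ℝ) ≠ 0 := by positivity
  field_simp
  ring

theorem abs2a_ms : Measurable sC := by
  unfold sC; fun_prop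

theorem abs2a_mt : Measurable tC := by
  unfold tC; fun_prop

theorem abs2a_sh {p : ℝ → Prop} (a : ℝ) (h : ∀ᵐ x : ℝ, p x) : ∀ᵐ x : ℝ, p (x + a) :=
  (measurePreserving_add_right volume a).quasiMeasurePreserving.ae h

theorem abs2a_excl (hL : DLIM) (A : Set ℝ) (U : Set ℂ) (d₀ : ℝ) (hA : MeasurableSet A)
    (hU : MeasurableSet U) (hd : d₀ ∈ Ioo 0 π) (q : Prop)
    (h : q → ¬ ∀ᵐ W : ℂ, W ∈ U → prj d₀ W ∉ A) :
    ∀ᶠ ε in 𝓝 (0 : ℝ), q → ¬ ∀ᵐ W : ℂ, W ∈ U → prj (ε + d₀) W ∉ A := by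
  by_cases hq : q
  · have h1 : ¬ ∀ δ : ℝ, 0 < δ → ∃ d, |d - d₀| < δ ∧ ∀ᵐ W : ℂ, W ∈ U → prj d W ∉ A :=
      fun hh => h hq (hL A U d₀ hA hU hd hh)
    rw [not_forall] at h1
    obtain ⟨δ, hδ⟩ := h1
    rw [Classical.not_imp] at hδ
    obtain ⟨hδ0, hδ⟩ := hδ
    filter_upwards [Metric.ball_mem_nhds (0 : ℝ) hδ0] with ε hε _ hh
    apply hδ
    refine ⟨ε + d₀, ?_, hh⟩
    simpa using hε
  · exact Filter.Eventually.of_forall fun _ h => absurd h hq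

theorem abs2a_pol (hP : POL) (U : Set ℂ) (A B : Set ℝ) (hU : MeasurableSet U)
    (hA : MeasurableSet A) (hB : MeasurableSet B) :
    ∀ᵐ d : ℝ, ∀ Q : ℝ → Prop,
      volume {r : ℝ | Q r ∧ (r * e d : ℂ) ∈ U ∧ sC (r * e d) ∈ A ∧ tC (r * e d) ∈ B} ≠ 0 →
      volume {W : ℂ | W ∈ U ∧ sC W ∈ A ∧ tC W ∈ B} ≠ 0 := by
  by_cases h0 : volume {W : ℂ | W ∈ U ∧ sC W ∈ A ∧ tC W ∈ B} = 0
  · have hm : MeasurableSet {W : ℂ | ¬ (W ∈ U ∧ sC W ∈ A ∧ tC W ∈ B)} :=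
      (hU.inter ((abs2a_ms hA).inter (abs2a_mt hB))).compl
    have h1 : ∀ᵐ W : ℂ, ¬ (W ∈ U ∧ sC W ∈ A ∧ tC W ∈ B) := by
      rw [ae_iff]; simpa using h0
    filter_upwards [(hP _ hm).1.1 h1] with d hd Q hQ
    exfalso
    apply hQ
    rw [ae_iff] at hd
    refine measure_mono_null ?_ hd
    intro r hr hn
    exact hn hr.2
  · exact Filter.Eventually.of_forall fun _ _ _ => h0

theorem abs2a (hM : ABSM) (hO : ABSO) (hL : DLIM) (hP : POL) : ABS2A := by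
  intro X hX
  have hpi := pi_pos
  let aI : Fin 3 → Prop := fun a => volume {W : ℂ | W ∈ X.U a ∧ sC W ∈ X.Av ∧ tC W ∈ X.Au} ≠ 0
  let aII : Fin 3 → Prop := fun a => volume {W : ℂ | W ∈ X.U a ∧ sC W ∈ X.Au ∧ tC W ∈ X.Av} ≠ 0
  suffices H : (∃ α, ∀ a, aI a → a = α) ∧ (∃ β, ∀ a, aII a → a = β) by
    obtain ⟨⟨α, hα⟩, ⟨β, hβ⟩⟩ := H
    refine ⟨α, β, ?_, ?_⟩
    · have : ∀ i, ∀ᵐ W : ℂ, sC W ∈ X.Av → tC W ∈ X.Au → W ∈ X.U i → i = α := by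
        intro i
        by_cases hi : i = α
        · exact Filter.Eventually.of_forall fun _ _ _ _ => hi
        · have h0 : ¬ aI i := fun h => hi (hα i h)
          simp only [aI, ne_eq, not_not] at h0
          filter_upwards [measure_eq_zero_iff_ae_notMem.1 h0] with W hW a b c
          exact absurd ⟨c, a, b⟩ hW
      filter_upwards [ae_all_iff.2 this] with W hW a b i c
      exact hW i a b c
    · have : ∀ i, ∀ᵐ W : ℂ, sC W ∈ X.Au → tC W ∈ X.Av → W ∈ X.U i → i = β := by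
        intro i
        by_cases hi : i = β
        · exact Filter.Eventually.of_forall fun _ _ _ _ => hi
        · have h0 : ¬ aII i := fun h => hi (hβ i h)
          simp only [aII, ne_eq, not_not] at h0
          filter_upwards [measure_eq_zero_iff_ae_notMem.1 h0] with W hW a b c
          exact absurd ⟨c, a, b⟩ hW
      filter_upwards [ae_all_iff.2 this] with W hW a b i c
      exact hW i a b c
  have d1 : π / 3 ∈ Ioo 0 π := ⟨by linarith, by linarith⟩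
  have d2 : 2 * π / 3 ∈ Ioo 0 π := ⟨by linarith, by linarith⟩
  have x1 : ∀ a, ∀ᶠ ε in 𝓝 (0 : ℝ), aI a → ¬ ∀ᵐ W : ℂ, W ∈ X.U a → prj (ε + π / 3) W ∉ X.Au :=
    fun a => abs2a_excl hL _ _ _ X.mAu (X.mU a) d1 _ fun h hh => h (by
      refine measure_eq_zero_iff_ae_notMem.2 ?_
      filter_upwards [hh] with W hW hc
      rw [abs2a_prj1] at hW
      exact hW hc.1 hc.2.2)
  have x2 : ∀ a, ∀ᶠ ε in 𝓝 (0 : ℝ), aI a → ¬ ∀ᵐ W : ℂ, W ∈ X.U a → prj (ε + 2 * π / 3) W ∉ X.Av :=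
    fun a => abs2a_excl hL _ _ _ X.mAv (X.mU a) d2 _ fun h hh => h (by
      refine measure_eq_zero_iff_ae_notMem.2 ?_
      filter_upwards [hh] with W hW hc
      rw [abs2a_prj2] at hW
      exact hW hc.1 hc.2.1)
  have x3 : ∀ a, ∀ᶠ ε in 𝓝 (0 : ℝ), aII a → ¬ ∀ᵐ W : ℂ, W ∈ X.U a → prj (ε + π / 3) W ∉ X.Av :=
    fun a => abs2a_excl hL _ _ _ X.mAv (X.mU a) d1 _ fun h hh => h (by
      refine measure_eq_zero_iff_ae_notMem.2 ?_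
      filter_upwards [hh] with W hW hc
      rw [abs2a_prj1] at hW
      exact hW hc.1 hc.2.2)
  have x4 : ∀ a, ∀ᶠ ε in 𝓝 (0 : ℝ), aII a → ¬ ∀ᵐ W : ℂ, W ∈ X.U a → prj (ε + 2 * π / 3) W ∉ X.Au :=
    fun a => abs2a_excl hL _ _ _ X.mAu (X.mU a) d2 _ fun h hh => h (by
      refine measure_eq_zero_iff_ae_notMem.2 ?_
      filter_upwards [hh] with W hW hc
      rw [abs2a_prj2] at hW
      exact hW hc.1 hc.2.1)
  have x5 : ∀ᶠ ε in 𝓝 (0 : ℝ), ε < π / 3 := gt_mem_nhds (by linarith)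
  have xall := (((Filter.eventually_all.2 x1).and (Filter.eventually_all.2 x2)).and
    ((Filter.eventually_all.2 x3).and (Filter.eventually_all.2 x4))).and x5
  obtain ⟨δ, hδ, hxall⟩ := Metric.eventually_nhds_iff.1 xall
  have p1 := abs2a_sh (π / 3) (ae_all_iff.2 fun a =>
    abs2a_pol hP (X.U a) X.Av X.Au (X.mU a) X.mAv X.mAu)
  have p2 := abs2a_sh (π / 3) (ae_all_iff.2 fun a =>
    abs2a_pol hP (X.U a) X.Au X.Av (X.mU a) X.mAu X.mAv)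
  have hall := ((((abs2a_sh (-(π / 2)) X.hex).and (abs2a_sh (-(π / 6)) X.hex)).and
    ((abs2a_sh (π / 6) X.hex).and (abs2a_sh (π / 2) X.hex))).and
    (((abs2a_sh (5 * π / 6) X.hex).and (abs2a_sh (7 * π / 6) X.hex)).and
    ((hO X hX).and (abs2a_sh (2 * π / 3) (hO X hX))))).and
    (((abs2a_sh (π / 3) (hM X)).and (p1.and p2)).and
    ((abs2a_sh (π / 3) X.hd).and (abs2a_sh (2 * π / 3) X.hd)))
  have hvol : volume (Ioo (0 : ℝ) δ) ≠ 0 := by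
    rw [Real.volume_Ioo]; simpa using hδ
  obtain ⟨ε, hε, ⟨⟨⟨y0, y1⟩, y2, y3⟩, ⟨y4, y5⟩, o0, o2⟩, ⟨mm, q1, q2⟩, g1, g2⟩ :=
    Measure.exists_mem_of_measure_ne_zero_of_ae hvol (ae_restrict_of_ae hall)
  obtain ⟨⟨⟨z1, z2⟩, z3, z4⟩, z5⟩ := hxall (y := ε) (by
    rw [Real.dist_eq, sub_zero, abs_of_pos hε.1]; exact hε.2)
  have hε0 := hε.1
  have a01 : ε + -(π / 2) + π / 3 = ε + -(π / 6) := by ring
  have a12 : ε + -(π / 6) + π / 3 = ε + π / 6 := by ring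
  have a23 : ε + π / 6 + π / 3 = ε + π / 2 := by ring
  have a34 : ε + π / 2 + π / 3 = ε + 5 * π / 6 := by ring
  have a45 : ε + 5 * π / 6 + π / 3 = ε + 7 * π / 6 := by ring
  have a50 : ε + 7 * π / 6 + π / 3 = ε + -(π / 2) + 2 * π := by ring
  have b10 : ε + -(π / 6) - π / 3 = ε + -(π / 2) := by ring
  have b21 : ε + π / 6 - π / 3 = ε + -(π / 6) := by ring
  have b32 : ε + π / 2 - π / 3 = ε + π / 6 := by ring
  have b43 : ε + 5 * π / 6 - π / 3 = ε + π / 2 := by ring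
  have b54 : ε + 7 * π / 6 - π / 3 = ε + 5 * π / 6 := by ring
  have b05 : ∀ i, X.Λ (ε + -(π / 2) - π / 3) i ↔ X.Λ (ε + 7 * π / 6) i := fun i => by
    rw [← X.pΛ, show ε + -(π / 2) - π / 3 + 2 * π = ε + 7 * π / 6 by ring]
  have c0 : ε - π / 2 = ε + -(π / 2) := by ring
  have c1 : ε + π / 3 - π / 2 = ε + -(π / 6) := by ring
  have c2 : ε + 2 * π / 3 - π / 2 = ε + π / 6 := by ring
  have c4 : ε + π / 3 + π / 2 = ε + 5 * π / 6 := by ring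
  have c5 : ε + 2 * π / 3 + π / 2 = ε + 7 * π / 6 := by ring
  rw [a01] at y0
  simp only [b05] at y0
  rw [a12, b10] at y1
  rw [a23, b21] at y2
  rw [a34, b32] at y3
  rw [a45, b43] at y4
  rw [a50, b54] at y5
  simp only [X.pΛ] at y5
  have o0' := o0 ⟨hε0, by linarith⟩
  have o2' := o2 ⟨by linarith, by linarith⟩
  have mm' := mm ⟨by linarith, by linarith⟩
  have g1' := g1 ⟨by linarith, by linarith⟩
  have g2' := g2 ⟨by linarith, by linarith⟩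
  rw [c0] at o0'
  rw [c2, c5] at o2' g2'
  rw [c1, c4] at mm' g1'
  refine abs2a_fin (X.Λ (ε + -(π / 2))) (X.Λ (ε + -(π / 6))) (X.Λ (ε + π / 6)) (X.Λ (ε + π / 2))
    (X.Λ (ε + 5 * π / 6)) (X.Λ (ε + 7 * π / 6))
    (X.κ (ε + -(π / 2))) (X.κ (ε + -(π / 6))) (X.κ (ε + π / 6)) (X.κ (ε + π / 2))
    (X.κ (ε + 5 * π / 6)) (X.κ (ε + 7 * π / 6)) aI aII
    (X.σ (ε + -(π / 6))) (X.σ (ε + π / 6)) (X.σ (ε + 5 * π / 6)) (X.σ (ε + 7 * π / 6))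
    y0.2.1 y1.2.1 y2.2.1 y3.2.1 y4.2.1 y5.2.1 y0.2.2 y1.2.2 y2.2.2 y3.2.2 y4.2.2 y5.2.2
    y1.1 ?_ ?_ ?_ ?_ ?_ ?_ ?_ ?_
  · rw [y3.1, y2.1, y1.1, not_not]
  · rw [y4.1, y3.1, y2.1, y1.1, not_not, not_not]
  · obtain ⟨i, h1, h2, -⟩ := o0'
    exact ⟨i, h1, h2⟩
  · obtain ⟨i, h1, h2, -⟩ := o2'
    exact ⟨i, h1, h2⟩
  · obtain ⟨i, h1, h2, h3⟩ := mm'.1
    exact ⟨i, h1, h2, q1 i _ h3⟩
  · obtain ⟨i, h1, h2, h3⟩ := mm'.2
    exact ⟨i, h1, h2, q2 i _ h3⟩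
  · intro a ha
    refine ⟨fun hs => ?_, fun hs => ?_, fun hs hσ => ?_, fun hs hσ => ?_⟩
    · by_contra hσ
      exact z1 a ha ((g1' _ (Or.inr rfl) a hs).2 hσ)
    · by_contra hσ
      exact z1 a ha ((g1' _ (Or.inl rfl) a hs).2 hσ)
    · exact z2 a ha ((g2' _ (Or.inr rfl) a hs).1 hσ)
    · exact z2 a ha ((g2' _ (Or.inl rfl) a hs).1 hσ)
  · intro a ha
    refine ⟨fun hs hσ => ?_, fun hs hσ => ?_, fun hs => ?_, fun hs => ?_⟩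
    · exact z3 a ha ((g1' _ (Or.inr rfl) a hs).1 hσ)
    · exact z3 a ha ((g1' _ (Or.inl rfl) a hs).1 hσ)
    · by_contra hσ
      exact z4 a ha ((g2' _ (Or.inr rfl) a hs).2 hσ)
    · by_contra hσ
      exact z4 a ha ((g2' _ (Or.inl rfl) a hs).2 hσ)

end Crest.Agent.R40
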