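import Crest.Agent.R40.DDefs

/-! Row 40: C4P (both alternating hexagon types are non-null). -/

set_option autoImplicit false

namespace Crest.Agent.R40
open MeasureTheory Set Filter Topology Real

namespace C4p

abbrev X6 := Fin 3 × Fin 3 × Fin 3 × Fin 3 × Fin 3 × Fin 3

def inP (a0 a1 a2 a3 a4 a5 : Fin 3) : Prop :=
  a1 ≠ a0 ∧ a2 ≠ a1 ∧ a3 ≠ a2 ∧ a4 ≠ a3 ∧ a5 ≠ a4 ∧ a0 ≠ a5 ∧
  ¬ (a0 = 0 ∧ a3 = 1) ∧ ¬ (a1 = 0 ∧ a4 = 1) ∧ ¬ (a2 = 0 ∧ a5 = 1) ∧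
  ¬ (a3 = 0 ∧ a0 = 1) ∧ ¬ (a4 = 0 ∧ a1 = 1) ∧ ¬ (a5 = 0 ∧ a2 = 1)

instance (a0 a1 a2 a3 a4 a5 : Fin 3) : Decidable (inP a0 a1 a2 a3 a4 a5) := by
  unfold inP; infer_instance

def ok (a b : Fin 3) : Prop := a = b → a = 2

instance (a b : Fin 3) : Decidable (ok a b) := by unfold ok; infer_instance

def cmp (a0 a1 a2 a3 a4 a5 b0 b1 b2 b3 b4 b5 : Fin 3) : Prop :=
  ok a0 b1 ∧ ok a1 b2 ∧ ok a2 b3 ∧ ok a3 b4 ∧ ok a4 b5 ∧ ok a5 b0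

instance (a0 a1 a2 a3 a4 a5 b0 b1 b2 b3 b4 b5 : Fin 3) :
    Decidable (cmp a0 a1 a2 a3 a4 a5 b0 b1 b2 b3 b4 b5) := by unfold cmp; infer_instance

def phi (a0 a1 a2 a3 a4 a5 : Fin 3) : ℕ :=
  if a0 = a3 ∧ a1 = a4 ∧ a2 = a5 then 2 + a0.val + 3 * a1.val
  else if a0 = 2 ∨ a2 = 2 ∨ a4 = 2 then 0 else 1

def alt (k a0 a1 a2 a3 a4 a5 : Fin 3) : Prop :=
  (a0 = k ∧ a1 = 2 ∧ a2 = k ∧ a3 = 2 ∧ a4 = k ∧ a5 = 2) ∨
  (a0 = 2 ∧ a1 = k ∧ a2 = 2 ∧ a3 = k ∧ a4 = 2 ∧ a5 = k)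

instance (k a0 a1 a2 a3 a4 a5 : Fin 3) : Decidable (alt k a0 a1 a2 a3 a4 a5) := by
  unfold alt; infer_instance

theorem pair_cases : ∀ a0 a1 a2 a3 a4 a5 : Fin 3, inP a0 a1 a2 a3 a4 a5 →
    ∀ b0 b1 b2 b3 b4 b5 : Fin 3, inP b0 b1 b2 b3 b4 b5 →
    cmp a0 a1 a2 a3 a4 a5 b0 b1 b2 b3 b4 b5 → cmp b0 b1 b2 b3 b4 b5 a0 a1 a2 a3 a4 a5 →
    phi a0 a1 a2 a3 a4 a5 = phi b0 b1 b2 b3 b4 b5 ∨
      ((alt 0 a0 a1 a2 a3 a4 a5 ∨ alt 0 b0 b1 b2 b3 b4 b5) ∧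
        (alt 1 a0 a1 a2 a3 a4 a5 ∨ alt 1 b0 b1 b2 b3 b4 b5)) := by
  decide +kernel

theorem shift_ne : ∀ a0 a1 a2 a3 a4 a5 : Fin 3, inP a0 a1 a2 a3 a4 a5 →
    phi a1 a2 a3 a4 a5 a0 ≠ phi a0 a1 a2 a3 a4 a5 := by
  decide +kernel

theorem ae_sh {p : ℝ → Prop} (h : ∀ᵐ θ : ℝ, p θ) (a : ℝ) : ∀ᵐ θ : ℝ, p (θ + a) :=
  (measurePreserving_add_right volume a).quasiMeasurePreserving.ae h

theorem freq_sh {p : ℝ → Prop} {θ₀ a : ℝ} (h : ∃ᶠ θ in nae θ₀, p (θ + a)) :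
    ∃ᶠ θ in nae (θ₀ + a), p θ := by
  rw [frequently_nae] at h ⊢
  intro δ hδ
  rw [← measure_preimage_add_right volume a]
  convert h δ hδ using 2
  ext y
  simp

/-- the six classes around the hexagon -/
noncomputable def pat (cl : ℝ → Fin 3) (θ : ℝ) : X6 :=
  (cl θ, cl (θ + π / 3), cl (θ + 2 * (π / 3)), cl (θ + 3 * (π / 3)), cl (θ + 4 * (π / 3)),
    cl (θ + 5 * (π / 3)))

def Phi (τ : X6) : ℕ := phi τ.1 τ.2.1 τ.2.2.1 τ.2.2.2.1 τ.2.2.2.2.1 τ.2.2.2.2.2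
def InP (τ : X6) : Prop := inP τ.1 τ.2.1 τ.2.2.1 τ.2.2.2.1 τ.2.2.2.2.1 τ.2.2.2.2.2
def Alt (k : Fin 3) (τ : X6) : Prop := alt k τ.1 τ.2.1 τ.2.2.1 τ.2.2.2.1 τ.2.2.2.2.1 τ.2.2.2.2.2

theorem main (hC : CONNL) (cl : ℝ → Fin 3) (hper : ∀ θ, cl (θ + 2 * π) = cl θ)
    (hae : ∀ᵐ θ : ℝ, cl (θ + π / 3) ≠ cl θ ∧ ¬ (cl θ = 0 ∧ cl (θ + π) = 1))
    (hNP : ∀ (θ₀ : ℝ) (k : Fin 3), k ≠ 2 → (∃ᶠ θ in nae θ₀, cl θ = k) →
      (∃ᶠ θ in nae (θ₀ + π / 3), cl θ = k) → False)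
    (k : Fin 3) (hk : k = 0 ∨ k = 1) :
    volume {θ : ℝ | ∀ j : ℤ, cl (θ + j * (2 * π / 3)) = k ∧
      cl (θ + π / 3 + j * (2 * π / 3)) = 2} ≠ 0 := by
  intro h0
  have hP : Function.Periodic cl (2 * π) := hper
  have hpat : ∀ θ, pat cl (θ + π / 3) = (cl (θ + π / 3), cl (θ + 2 * (π / 3)),
      cl (θ + 3 * (π / 3)), cl (θ + 4 * (π / 3)), cl (θ + 5 * (π / 3)), cl θ) := by
    intro θ
    simp only [pat]
    rw [show θ + π / 3 + π / 3 = θ + 2 * (π / 3) by ring,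
      show θ + π / 3 + 2 * (π / 3) = θ + 3 * (π / 3) by ring,
      show θ + π / 3 + 3 * (π / 3) = θ + 4 * (π / 3) by ring,
      show θ + π / 3 + 4 * (π / 3) = θ + 5 * (π / 3) by ring,
      show θ + π / 3 + 5 * (π / 3) = θ + 2 * π by ring, hper]
  -- a.e. pattern is admissible
  have hInP : ∀ᵐ θ : ℝ, InP (pat cl θ) := by
    filter_upwards [hae, ae_sh hae (π / 3), ae_sh hae (2 * (π / 3)), ae_sh hae (3 * (π / 3)),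
      ae_sh hae (4 * (π / 3)), ae_sh hae (5 * (π / 3))] with θ h0 h1 h2 h3 h4 h5
    rw [show θ + π = θ + 3 * (π / 3) by ring] at h0
    rw [show θ + π / 3 + π / 3 = θ + 2 * (π / 3) by ring,
      show θ + π / 3 + π = θ + 4 * (π / 3) by ring] at h1
    rw [show θ + 2 * (π / 3) + π / 3 = θ + 3 * (π / 3) by ring,
      show θ + 2 * (π / 3) + π = θ + 5 * (π / 3) by ring] at h2
    rw [show θ + 3 * (π / 3) + π / 3 = θ + 4 * (π / 3) by ring,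
      show θ + 3 * (π / 3) + π = θ + 2 * π by ring, hper] at h3
    rw [show θ + 4 * (π / 3) + π / 3 = θ + 5 * (π / 3) by ring,
      show θ + 4 * (π / 3) + π = θ + π / 3 + 2 * π by ring, hper] at h4
    rw [show θ + 5 * (π / 3) + π / 3 = θ + 2 * π by ring,
      show θ + 5 * (π / 3) + π = θ + 2 * (π / 3) + 2 * π by ring, hper, hper] at h5
    exact ⟨h0.1, h1.1, h2.1, h3.1, h4.1, h5.1, h0.2, h1.2, h2.2, h3.2, h4.2, h5.2⟩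
  -- the even alternating pattern lies in the null set
  have heven : ∀ θ, cl θ = k → cl (θ + π / 3) = 2 → cl (θ + 2 * (π / 3)) = k →
      cl (θ + 3 * (π / 3)) = 2 → cl (θ + 4 * (π / 3)) = k → cl (θ + 5 * (π / 3)) = 2 →
      ∀ j : ℤ, cl (θ + j * (2 * π / 3)) = k ∧ cl (θ + π / 3 + j * (2 * π / 3)) = 2 := by
    intro θ a0 a1 a2 a3 a4 a5 j
    obtain ⟨q, hq⟩ : ∃ q : ℤ, j = 3 * q ∨ j = 3 * q + 1 ∨ j = 3 * q + 2 := ⟨j / 3, by omega⟩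
    rcases hq with rfl | rfl | rfl
    · rw [show θ + ((3 * q : ℤ) : ℝ) * (2 * π / 3) = θ + q * (2 * π) by push_cast; ring,
        show θ + π / 3 + ((3 * q : ℤ) : ℝ) * (2 * π / 3) = θ + π / 3 + q * (2 * π) by
          push_cast; ring, hP.int_mul q, hP.int_mul q]
      exact ⟨a0, a1⟩
    · rw [show θ + ((3 * q + 1 : ℤ) : ℝ) * (2 * π / 3) = θ + 2 * (π / 3) + q * (2 * π) by
          push_cast; ring,
        show θ + π / 3 + ((3 * q + 1 : ℤ) : ℝ) * (2 * π / 3) = θ + 3 * (π / 3) + q * (2 * π) by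
          push_cast; ring, hP.int_mul q, hP.int_mul q]
      exact ⟨a2, a3⟩
    · rw [show θ + ((3 * q + 2 : ℤ) : ℝ) * (2 * π / 3) = θ + 4 * (π / 3) + q * (2 * π) by
          push_cast; ring,
        show θ + π / 3 + ((3 * q + 2 : ℤ) : ℝ) * (2 * π / 3) = θ + 5 * (π / 3) + q * (2 * π) by
          push_cast; ring, hP.int_mul q, hP.int_mul q]
      exact ⟨a4, a5⟩
  have hnull : ∀ᵐ θ : ℝ, ¬ ∀ j : ℤ, cl (θ + j * (2 * π / 3)) = k ∧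
      cl (θ + π / 3 + j * (2 * π / 3)) = 2 := by
    rw [ae_iff]
    simpa using h0
  have hnAlt : ∀ᵐ θ : ℝ, ¬ Alt k (pat cl θ) := by
    filter_upwards [hnull, ae_sh hnull (π / 3)] with θ h1 h2
    rintro (⟨a0, a1, a2, a3, a4, a5⟩ | ⟨a0, a1, a2, a3, a4, a5⟩)
    · exact h1 (heven θ a0 a1 a2 a3 a4 a5)
    · refine h2 (heven (θ + π / 3) a1 ?_ ?_ ?_ ?_ ?_)
      · rw [show θ + π / 3 + π / 3 = θ + 2 * (π / 3) by ring]; exact a2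
      · rw [show θ + π / 3 + 2 * (π / 3) = θ + 3 * (π / 3) by ring]; exact a3
      · rw [show θ + π / 3 + 3 * (π / 3) = θ + 4 * (π / 3) by ring]; exact a4
      · rw [show θ + π / 3 + 4 * (π / 3) = θ + 5 * (π / 3) by ring]; exact a5
      · rw [show θ + π / 3 + 5 * (π / 3) = θ + 2 * π by ring, hper]; exact a0
  -- compatibility of frequent patterns
  have hok : ∀ (θ₀ a b : ℝ) (u v : Fin 3), b = a + π / 3 → (∃ᶠ θ in nae θ₀, cl (θ + a) = u) →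
      (∃ᶠ θ in nae θ₀, cl (θ + b) = v) → ok u v := by
    intro θ₀ a b u v hb h1 h2 huv
    by_contra hu
    subst huv
    refine hNP (θ₀ + a) u hu (freq_sh (p := fun θ => cl θ = u) h1) ?_
    rw [show θ₀ + a + π / 3 = θ₀ + b by rw [hb]; ring]
    exact freq_sh (p := fun θ => cl θ = u) h2
  have hcmp : ∀ (θ₀ : ℝ) (τ τ' : X6), (∃ᶠ θ in nae θ₀, pat cl θ = τ) →
      (∃ᶠ θ in nae θ₀, pat cl θ = τ') →
      cmp τ.1 τ.2.1 τ.2.2.1 τ.2.2.2.1 τ.2.2.2.2.1 τ.2.2.2.2.2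
        τ'.1 τ'.2.1 τ'.2.2.1 τ'.2.2.2.1 τ'.2.2.2.2.1 τ'.2.2.2.2.2 := by
    intro θ₀ τ τ' h h'
    refine ⟨hok θ₀ 0 (π / 3) _ _ (by ring) (h.mono fun θ hθ => by rw [← hθ, add_zero]; rfl)
        (h'.mono fun θ hθ => by rw [← hθ]; rfl),
      hok θ₀ (π / 3) (2 * (π / 3)) _ _ (by ring) (h.mono fun θ hθ => by rw [← hθ]; rfl)
        (h'.mono fun θ hθ => by rw [← hθ]; rfl),
      hok θ₀ (2 * (π / 3)) (3 * (π / 3)) _ _ (by ring) (h.mono fun θ hθ => by rw [← hθ]; rfl)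
        (h'.mono fun θ hθ => by rw [← hθ]; rfl),
      hok θ₀ (3 * (π / 3)) (4 * (π / 3)) _ _ (by ring) (h.mono fun θ hθ => by rw [← hθ]; rfl)
        (h'.mono fun θ hθ => by rw [← hθ]; rfl),
      hok θ₀ (4 * (π / 3)) (5 * (π / 3)) _ _ (by ring) (h.mono fun θ hθ => by rw [← hθ]; rfl)
        (h'.mono fun θ hθ => by rw [← hθ]; rfl),
      hok θ₀ (5 * (π / 3)) (2 * π) _ _ (by ring) (h.mono fun θ hθ => by rw [← hθ]; rfl)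
        (h'.mono fun θ hθ => by rw [← hθ, hper]; rfl)⟩
  obtain ⟨y, hy⟩ := hC X6 ℕ (pat cl) Phi (by
    intro θ₀ τ τ' h h'
    obtain ⟨θ₁, rfl, hp1, hn1⟩ := (h.and_eventually (eventually_nae_of_ae (hInP.and hnAlt))).exists
    obtain ⟨θ₂, rfl, hp2, hn2⟩ :=
      (h'.and_eventually (eventually_nae_of_ae (hInP.and hnAlt))).exists
    rcases pair_cases _ _ _ _ _ _ hp1 _ _ _ _ _ _ hp2 (hcmp θ₀ _ _ h h') (hcmp θ₀ _ _ h' h) with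
      hh | ⟨h0', h1'⟩
    · exact hh
    · exfalso
      rcases hk with rfl | rfl
      · exact h0'.elim hn1 hn2
      · exact h1'.elim hn1 hn2)
  obtain ⟨θ, h1, h2, h3⟩ := (hy.and ((ae_sh hy (π / 3)).and hInP)).exists
  rw [hpat, ← h1] at h2
  exact shift_ne _ _ _ _ _ _ h3 h2

end C4p

theorem c4p (hC : CONNL) : C4P := fun cl _ hper hae hNP =>
  ⟨C4p.main hC cl hper hae hNP 0 (Or.inl rfl), C4p.main hC cl hper hae hNP 1 (Or.inr rfl)⟩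

end Crest.Agent.R40
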