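import Crest.Agent.R40.DC4p
import Crest.Agent.R40.C4End
import Crest.Agent.R40.MBasic

/-! Row 40: the 4-cycle case. -/

set_option autoImplicit false

namespace Crest.Agent.R40
open MeasureTheory Set Filter Topology Real

namespace DCf
open C4p

def AltZ (cl : ℝ → Fin 3) (k : Fin 3) (θ : ℝ) : Prop :=
  ∀ j : ℤ, cl (θ + 2 * j * (π / 3)) = k ∧ cl (θ + (2 * j + 1) * (π / 3)) = 2

set_option synthInstance.maxSize 100000 in
set_option synthInstance.maxHeartbeats 400000 in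
theorem pair2 : ∀ a0 a1 a2 a3 a4 a5 : Fin 3, inP a0 a1 a2 a3 a4 a5 →
    ∀ b0 b1 b2 b3 b4 b5 : Fin 3, inP b0 b1 b2 b3 b4 b5 →
    cmp a0 a1 a2 a3 a4 a5 b0 b1 b2 b3 b4 b5 → cmp b0 b1 b2 b3 b4 b5 a0 a1 a2 a3 a4 a5 →
    phi a0 a1 a2 a3 a4 a5 = phi b0 b1 b2 b3 b4 b5 ∨
      (((a0, a1, a2, a3, a4, a5) = (0, 2, 0, 2, 0, 2) ∧ (b0, b1, b2, b3, b4, b5) = (2, 1, 2, 1, 2, 1)) ∨
       ((b0, b1, b2, b3, b4, b5) = (0, 2, 0, 2, 0, 2) ∧ (a0, a1, a2, a3, a4, a5) = (2, 1, 2, 1, 2, 1)) ∨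
       ((a0, a1, a2, a3, a4, a5) = (2, 0, 2, 0, 2, 0) ∧ (b0, b1, b2, b3, b4, b5) = (1, 2, 1, 2, 1, 2)) ∨
       ((b0, b1, b2, b3, b4, b5) = (2, 0, 2, 0, 2, 0) ∧ (a0, a1, a2, a3, a4, a5) = (1, 2, 1, 2, 1, 2))) := by
  decide +kernel

set_option synthInstance.maxSize 100000 in
set_option synthInstance.maxHeartbeats 400000 in
theorem both : ∀ a0 a1 a2 a3 a4 a5 : Fin 3, inP a0 a1 a2 a3 a4 a5 →
    cmp a0 a1 a2 a3 a4 a5 0 2 0 2 0 2 → cmp a0 a1 a2 a3 a4 a5 2 1 2 1 2 1 →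
    (a0, a1, a2, a3, a4, a5) = (0, 2, 0, 2, 0, 2) ∨ (a0, a1, a2, a3, a4, a5) = (2, 1, 2, 1, 2, 1) := by
  decide +kernel

theorem c4q (hC : CONNL) (cl : ℝ → Fin 3) (hper : ∀ θ, cl (θ + 2 * π) = cl θ)
    (hae : ∀ᵐ θ : ℝ, cl (θ + π / 3) ≠ cl θ ∧ ¬ (cl θ = 0 ∧ cl (θ + π) = 1))
    (hNP : ∀ (θ₀ : ℝ) (k : Fin 3), k ≠ 2 → (∃ᶠ θ in nae θ₀, cl θ = k) →
      (∃ᶠ θ in nae (θ₀ + π / 3), cl θ = k) → False) :
    ∃ t, (∃ᶠ θ in nae t, AltZ cl 0 θ) ∧ (∃ᶠ θ in nae t, AltZ cl 1 (θ + π / 3)) ∧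
      ∀ᶠ θ in nae t, AltZ cl 0 θ ∨ AltZ cl 1 (θ + π / 3) := by
  have hP : Function.Periodic cl (2 * π) := hper
  have hpat : ∀ θ, pat cl (θ + π / 3) = (cl (θ + π / 3), cl (θ + 2 * (π / 3)),
      cl (θ + 3 * (π / 3)), cl (θ + 4 * (π / 3)), cl (θ + 5 * (π / 3)), cl θ) := by
    intro θ
    simp only [pat]
    rw [show θ + π / 3 + π / 3 = θ + 2 * (π / 3) by ring,
      show θ + π / 3 + 2 * (π / 3) = θ + 3 * (π / 3) by ring,
      show θ + π / 3 + 3 * (π / 3) = θ + 4 * (π / 3) by ring,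
      show θ + π / 3 + 4 * (π / 3) = θ + 5 * (π / 3) by ring,
      show θ + π / 3 + 5 * (π / 3) = θ + 2 * π by ring, hper]
  have hInP : ∀ᵐ θ : ℝ, InP (pat cl θ) := by
    filter_upwards [hae, ae_sh hae (π / 3), ae_sh hae (2 * (π / 3)), ae_sh hae (3 * (π / 3)),
      ae_sh hae (4 * (π / 3)), ae_sh hae (5 * (π / 3))] with θ h0 h1 h2 h3 h4 h5
    rw [show θ + π = θ + 3 * (π / 3) by ring] at h0
    rw [show θ + π / 3 + π / 3 = θ + 2 * (π / 3) by ring,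
      show θ + π / 3 + π = θ + 4 * (π / 3) by ring] at h1
    rw [show θ + 2 * (π / 3) + π / 3 = θ + 3 * (π / 3) by ring,
      show θ + 2 * (π / 3) + π = θ + 5 * (π / 3) by ring] at h2
    rw [show θ + 3 * (π / 3) + π / 3 = θ + 4 * (π / 3) by ring,
      show θ + 3 * (π / 3) + π = θ + 2 * π by ring, hper] at h3
    rw [show θ + 4 * (π / 3) + π / 3 = θ + 5 * (π / 3) by ring,
      show θ + 4 * (π / 3) + π = θ + π / 3 + 2 * π by ring, hper] at h4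
    rw [show θ + 5 * (π / 3) + π / 3 = θ + 2 * π by ring,
      show θ + 5 * (π / 3) + π = θ + 2 * (π / 3) + 2 * π by ring, hper, hper] at h5
    exact ⟨h0.1, h1.1, h2.1, h3.1, h4.1, h5.1, h0.2, h1.2, h2.2, h3.2, h4.2, h5.2⟩
  have heven : ∀ (k : Fin 3) θ, pat cl θ = (k, 2, k, 2, k, 2) → AltZ cl k θ := by
    intro k θ h j
    simp only [pat, Prod.mk.injEq] at h
    obtain ⟨a0, a1, a2, a3, a4, a5⟩ := h
    obtain ⟨q, hq⟩ : ∃ q : ℤ, j = 3 * q ∨ j = 3 * q + 1 ∨ j = 3 * q + 2 := ⟨j / 3, by omega⟩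
    rcases hq with rfl | rfl | rfl
    · rw [show θ + 2 * ((3 * q : ℤ) : ℝ) * (π / 3) = θ + q * (2 * π) by push_cast; ring,
        show θ + (2 * ((3 * q : ℤ) : ℝ) + 1) * (π / 3) = θ + π / 3 + q * (2 * π) by
          push_cast; ring, hP.int_mul q, hP.int_mul q]
      exact ⟨a0, a1⟩
    · rw [show θ + 2 * ((3 * q + 1 : ℤ) : ℝ) * (π / 3) = θ + 2 * (π / 3) + q * (2 * π) by
          push_cast; ring,
        show θ + (2 * ((3 * q + 1 : ℤ) : ℝ) + 1) * (π / 3) = θ + 3 * (π / 3) + q * (2 * π) by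
          push_cast; ring, hP.int_mul q, hP.int_mul q]
      exact ⟨a2, a3⟩
    · rw [show θ + 2 * ((3 * q + 2 : ℤ) : ℝ) * (π / 3) = θ + 4 * (π / 3) + q * (2 * π) by
          push_cast; ring,
        show θ + (2 * ((3 * q + 2 : ℤ) : ℝ) + 1) * (π / 3) = θ + 5 * (π / 3) + q * (2 * π) by
          push_cast; ring, hP.int_mul q, hP.int_mul q]
      exact ⟨a4, a5⟩
  have hodd : ∀ (k : Fin 3) θ, pat cl θ = (2, k, 2, k, 2, k) →
      pat cl (θ + π / 3) = (k, 2, k, 2, k, 2) := by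
    intro k θ h
    rw [hpat]
    simp only [pat, Prod.mk.injEq] at h ⊢
    tauto
  have hodd' : ∀ (k : Fin 3) θ, pat cl θ = (k, 2, k, 2, k, 2) →
      pat cl (θ + π / 3) = (2, k, 2, k, 2, k) := by
    intro k θ h
    rw [hpat]
    simp only [pat, Prod.mk.injEq] at h ⊢
    tauto
  have hok : ∀ (θ₀ a b : ℝ) (u v : Fin 3), b = a + π / 3 → (∃ᶠ θ in nae θ₀, cl (θ + a) = u) →
      (∃ᶠ θ in nae θ₀, cl (θ + b) = v) → ok u v := by
    intro θ₀ a b u v hb h1 h2 huv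
    by_contra hu
    subst huv
    refine hNP (θ₀ + a) u hu (freq_sh (p := fun θ => cl θ = u) h1) ?_
    rw [show θ₀ + a + π / 3 = θ₀ + b by rw [hb]; ring]
    exact freq_sh (p := fun θ => cl θ = u) h2
  have hcmp : ∀ (θ₀ : ℝ) (τ τ' : X6), (∃ᶠ θ in nae θ₀, pat cl θ = τ) →
      (∃ᶠ θ in nae θ₀, pat cl θ = τ') →
      cmp τ.1 τ.2.1 τ.2.2.1 τ.2.2.2.1 τ.2.2.2.2.1 τ.2.2.2.2.2
        τ'.1 τ'.2.1 τ'.2.2.1 τ'.2.2.2.1 τ'.2.2.2.2.1 τ'.2.2.2.2.2 := by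
    intro θ₀ τ τ' h h'
    refine ⟨hok θ₀ 0 (π / 3) _ _ (by ring) (h.mono fun θ hθ => by rw [← hθ, add_zero]; rfl)
        (h'.mono fun θ hθ => by rw [← hθ]; rfl),
      hok θ₀ (π / 3) (2 * (π / 3)) _ _ (by ring) (h.mono fun θ hθ => by rw [← hθ]; rfl)
        (h'.mono fun θ hθ => by rw [← hθ]; rfl),
      hok θ₀ (2 * (π / 3)) (3 * (π / 3)) _ _ (by ring) (h.mono fun θ hθ => by rw [← hθ]; rfl)
        (h'.mono fun θ hθ => by rw [← hθ]; rfl),
      hok θ₀ (3 * (π / 3)) (4 * (π / 3)) _ _ (by ring) (h.mono fun θ hθ => by rw [← hθ]; rfl)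
        (h'.mono fun θ hθ => by rw [← hθ]; rfl),
      hok θ₀ (4 * (π / 3)) (5 * (π / 3)) _ _ (by ring) (h.mono fun θ hθ => by rw [← hθ]; rfl)
        (h'.mono fun θ hθ => by rw [← hθ]; rfl),
      hok θ₀ (5 * (π / 3)) (2 * π) _ _ (by ring) (h.mono fun θ hθ => by rw [← hθ]; rfl)
        (h'.mono fun θ hθ => by rw [← hθ, hper]; rfl)⟩
  have hex : ∃ t, (∃ᶠ θ in nae t, pat cl θ = (0, 2, 0, 2, 0, 2)) ∧
      ∃ᶠ θ in nae t, pat cl θ = (2, 1, 2, 1, 2, 1) := by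
    by_contra hne
    have n1 : ∀ t, (∃ᶠ θ in nae t, pat cl θ = (0, 2, 0, 2, 0, 2)) →
        (∃ᶠ θ in nae t, pat cl θ = (2, 1, 2, 1, 2, 1)) → False := fun t a b => hne ⟨t, a, b⟩
    have n2 : ∀ t, (∃ᶠ θ in nae t, pat cl θ = (2, 0, 2, 0, 2, 0)) →
        (∃ᶠ θ in nae t, pat cl θ = (1, 2, 1, 2, 1, 2)) → False := fun t a b =>
      n1 (t + π / 3) (freq_sh (p := fun θ => pat cl θ = (0, 2, 0, 2, 0, 2))
          (a.mono fun θ h => hodd 0 θ h))
        (freq_sh (p := fun θ => pat cl θ = (2, 1, 2, 1, 2, 1)) (b.mono fun θ h => hodd' 1 θ h))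
    obtain ⟨y, hy⟩ := hC X6 ℕ (pat cl) Phi (by
      intro θ₀ τ τ' h h'
      obtain ⟨θ₁, e1, hp1⟩ := (h.and_eventually (eventually_nae_of_ae hInP)).exists
      obtain ⟨θ₂, e2, hp2⟩ := (h'.and_eventually (eventually_nae_of_ae hInP)).exists
      rw [e1] at hp1; rw [e2] at hp2
      rcases pair2 _ _ _ _ _ _ hp1 _ _ _ _ _ _ hp2 (hcmp θ₀ _ _ h h') (hcmp θ₀ _ _ h' h) with
        hh | ⟨a, b⟩ | ⟨a, b⟩ | ⟨a, b⟩ | ⟨a, b⟩
      · exact hh
      · exact (n1 θ₀ (a ▸ h) (b ▸ h')).elim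
      · exact (n1 θ₀ (a ▸ h') (b ▸ h)).elim
      · exact (n2 θ₀ (a ▸ h) (b ▸ h')).elim
      · exact (n2 θ₀ (a ▸ h') (b ▸ h)).elim)
    obtain ⟨θ, h1, h2, h3⟩ := (hy.and ((ae_sh hy (π / 3)).and hInP)).exists
    rw [hpat, ← h1] at h2
    exact shift_ne _ _ _ _ _ _ h3 h2
  obtain ⟨t, ha, hb⟩ := hex
  refine ⟨t, ha.mono fun θ h => heven 0 θ h, hb.mono fun θ h => heven 1 _ (hodd 1 θ h), ?_⟩
  have hfin : ∀ᶠ θ in nae t, ∀ τ : X6, pat cl θ = τ → ∃ᶠ θ' in nae t, pat cl θ' = τ := by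
    rw [eventually_all]
    intro τ
    by_cases h : ∃ᶠ θ' in nae t, pat cl θ' = τ
    · exact Eventually.of_forall fun _ _ => h
    · rw [not_frequently] at h
      exact h.mono fun θ hθ h' => absurd h' hθ
  filter_upwards [hfin, eventually_nae_of_ae hInP] with θ h1 h2
  have h3 := h1 _ rfl
  rcases both _ _ _ _ _ _ h2 (hcmp t _ _ h3 ha) (hcmp t _ _ h3 hb) with h | h
  · exact Or.inl (heven 0 θ h)
  · exact Or.inr (heven 1 _ (hodd 1 θ h))

set_option synthInstance.maxSize 100000 in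
set_option synthInstance.maxHeartbeats 400000 in
theorem struct : ∀ v l : Fin 5 → Bool, (∀ i, v i = true → l i = true) →
    (∀ i j k : Fin 5, i ≠ j → i ≠ k → j ≠ k → ¬ (l i = true ∧ l j = true ∧ l k = true)) →
    (∃ i, i ∉ ({0, 1} : Finset (Fin 5)) ∧ v i = true) →
    (∃ i, i ∉ ({1, 2} : Finset (Fin 5)) ∧ v i = true) →
    (∃ i, i ∉ ({2, 3} : Finset (Fin 5)) ∧ v i = true) →
    (∃ i, i ∉ ({3, 0} : Finset (Fin 5)) ∧ v i = true) →
    ((l 0 = true ∧ l 2 = true) → v 0 = true ∧ v 2 = true ∧ l 1 = false ∧ l 3 = false) ∧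
    ((l 1 = true ∧ l 3 = true) → v 1 = true ∧ v 3 = true ∧ l 0 = false ∧ l 2 = false) ∧
    (¬ (l 0 = true ∧ l 2 = true) → ¬ (l 1 = true ∧ l 3 = true) → v 4 = true) := by
  decide +kernel

end DCf

open DCf C4p C4E in
theorem cf0 (hV : VRULE) (hL : LTWO) (hC : CONE) (hT : TRIP) (h3 : TRI0) (hNP : NP) (hCo : CONNL)
    (hK : KEY) (h1 : AV1) (hA : AVAPI) (hSl : SLICE) (hN : NSL) : CF0 := by
  classical
  intro c hc x h01 h12 h23 h30
  set F : ℝ → Fin 5 → Prop := fun θ i => Free c i (x + e θ) with hF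
  let cl : ℝ → Fin 3 := fun θ => if F θ 0 ∧ F θ 2 then 0 else if F θ 1 ∧ F θ 3 then 1 else 2
  have hFper : ∀ θ i, F (θ + 2 * π) i ↔ F θ i := fun θ i => by
    simp only [hF, e_periodic θ]
  have hper : ∀ θ, cl (θ + 2 * π) = cl θ := fun θ => by simp only [cl, hFper]
  have c0 : ∀ θ, cl θ = 0 → F θ 0 ∧ F θ 2 := fun θ h => by
    by_contra hn
    simp only [cl, if_neg hn] at h
    split_ifs at h <;> exact absurd h (by decide)
  have c1 : ∀ θ, cl θ = 1 → F θ 1 ∧ F θ 3 := fun θ h => by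
    by_contra hn
    simp only [cl, if_neg hn] at h
    split_ifs at h <;> exact absurd h (by decide)
  have c2 : ∀ θ, cl θ = 2 → ¬ (F θ 0 ∧ F θ 2) ∧ ¬ (F θ 1 ∧ F θ 3) := fun θ h => by
    constructor
    · intro hn
      simp only [cl, if_pos hn] at h
      exact absurd h (by decide)
    · intro hn
      simp only [cl, if_pos hn] at h
      split_ifs at h <;> exact absurd h (by decide)
  have tri : ∀ k : Fin 3, k = 0 ∨ k = 1 ∨ k = 2 := by decide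
  let W : ℝ → Fin 5 → Prop := fun θ i => F θ i ∧ ¬ F (θ + π / 3) i ∧ ¬ F (θ - π / 3) i
  have hW : ∀ S, NS c x S → ∀ᵐ θ : ℝ, ∃ i, i ∉ S ∧ W θ i := fun S hS =>
    (hV c hc x S ∅ (by simp) hS).mono fun θ ⟨i, hi, h⟩ => ⟨i, hi, h.1, h.2.1, h.2.2.1⟩
  have hS : ∀ᵐ θ : ℝ, (cl θ = 0 → W θ 0 ∧ W θ 2 ∧ ¬ F θ 1 ∧ ¬ F θ 3) ∧
      (cl θ = 1 → W θ 1 ∧ W θ 3 ∧ ¬ F θ 0 ∧ ¬ F θ 2) ∧ (cl θ = 2 → W θ 4) := by
    filter_upwards [hW _ h01, hW _ h12, hW _ h23, hW _ h30, hL c hc x] with θ a b d f g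
    have := struct (fun i => decide (W θ i)) (fun i => decide (F θ i))
      (fun i h => by simpa using (of_decide_eq_true h).1)
      (fun i j k p q r h => g i j k p q r (by simpa using h))
      (by simpa using a) (by simpa using b) (by simpa using d) (by simpa using f)
    simp only [decide_eq_true_eq, decide_eq_false_iff_not] at this
    exact ⟨fun h => this.1 (c0 θ h), fun h => this.2.1 (c1 θ h),
      fun h => this.2.2 (c2 θ h).1 (c2 θ h).2⟩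
  have hcone : ∀ m : Fin 5, ∀ᵐ θ : ℝ, ¬ ∀ i, i ≠ m → F θ i ∨ F (θ + π) i := by
    intro m
    by_contra hne
    have h := (hC c hc x m hne).2
    fin_cases m
    · exact hT c hc x _ (by decide) (h _ h12)
    · exact hT c hc x _ (by decide) (h _ h23)
    · exact hT c hc x _ (by decide) (h _ h30)
    · exact hT c hc x _ (by decide) (h _ h01)
    · exact hT c hc x _ (by decide) (h _ h01)
  have five : ∀ i : Fin 5, i = 0 ∨ i = 1 ∨ i = 2 ∨ i = 3 ∨ i = 4 := by decide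
  have hae : ∀ᵐ θ : ℝ, cl (θ + π / 3) ≠ cl θ ∧ ¬ (cl θ = 0 ∧ cl (θ + π) = 1) := by
    filter_upwards [hS, ae_sh hS (π / 3), hcone 4] with θ a b d
    constructor
    · intro h
      rcases tri (cl θ) with q | q | q
      · exact (a.1 q).1.2.1 (c0 _ (h.trans q)).1
      · exact (a.2.1 q).1.2.1 (c1 _ (h.trans q)).1
      · exact (a.2.2 q).2.1 (b.2.2 (h.trans q)).1
    · rintro ⟨p, q⟩
      apply d
      intro i hi
      rcases five i with rfl | rfl | rfl | rfl | rfl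
      exacts [Or.inl (c0 _ p).1, Or.inr (c1 _ q).1, Or.inl (c0 _ p).2, Or.inr (c1 _ q).2,
        absurd rfl hi]
  -- lists at `F` positions
  have hFa : ∀ᵐ φ : ℝ, cl φ = 2 → cl (φ + π) = 0 → ¬ F φ 1 ∧ ¬ F φ 3 := by
    filter_upwards [hS, hcone 3, hcone 1] with φ a b d p q
    have h4 := (a.2.2 p).1
    obtain ⟨q0, q2⟩ := c0 _ q
    constructor
    · intro h
      apply b
      intro i hi
      rcases five i with rfl | rfl | rfl | rfl | rfl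
      exacts [Or.inr q0, Or.inl h, Or.inr q2, absurd rfl hi, Or.inl h4]
    · intro h
      apply d
      intro i hi
      rcases five i with rfl | rfl | rfl | rfl | rfl
      exacts [Or.inr q0, absurd rfl hi, Or.inr q2, Or.inl h, Or.inl h4]
  have hFb : ∀ᵐ φ : ℝ, cl φ = 2 → cl (φ + π) = 1 → ¬ F φ 0 ∧ ¬ F φ 2 := by
    filter_upwards [hS, hcone 2, hcone 0] with φ a b d p q
    have h4 := (a.2.2 p).1
    obtain ⟨q1, q3⟩ := c1 _ q
    constructor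
    · intro h
      apply b
      intro i hi
      rcases five i with rfl | rfl | rfl | rfl | rfl
      exacts [Or.inl h, Or.inr q1, absurd rfl hi, Or.inr q3, Or.inl h4]
    · intro h
      apply d
      intro i hi
      rcases five i with rfl | rfl | rfl | rfl | rfl
      exacts [absurd rfl hi, Or.inr q1, Or.inl h, Or.inr q3, Or.inl h4]
  have dead : ∀ m : Fin 5, (∀ᵐ θ : ℝ, ¬ F θ m) → ∀ S, NS c x S → NS c x (insert m S) := by
    intro m h
    have api := hA c hc x m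
    exact api.2.2.2.2.2 (api.2.2.2.2.1.1 (api.1 _ _ (h1 c hc x m) (h.mono fun θ hθ _ => hθ)))
  have chain : ∀ k k' : Fin 3, (∀ j : Fin 3, j = k ∨ j = k' ∨ j = 2) → (∀ᵐ θ : ℝ, cl θ ≠ k') →
      ∀ᵐ θ : ℝ, cl θ = 2 → cl (θ + π) = k := by
    intro k k' hk h
    filter_upwards [hae, ae_sh hae (π / 3), ae_sh hae (2 * (π / 3)), ae_sh h (π / 3),
      ae_sh h (2 * (π / 3)), ae_sh h π] with θ a b d p q r h2
    rw [show θ + π / 3 + π / 3 = θ + 2 * (π / 3) by ring] at b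
    rw [show θ + 2 * (π / 3) + π / 3 = θ + π by ring] at d
    have e1 : cl (θ + π / 3) = k := by
      rcases hk (cl (θ + π / 3)) with h | h | h
      exacts [h, absurd h p, absurd (h.trans h2.symm) a.1]
    have e2 : cl (θ + 2 * (π / 3)) = 2 := by
      rcases hk (cl (θ + 2 * (π / 3))) with h | h | h
      exacts [absurd (h.trans e1.symm) b.1, absurd h q, h]
    rcases hk (cl (θ + π)) with h | h | h
    exacts [h, absurd h r, absurd (h.trans e2.symm) d.1]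
  have hB : volume {θ : ℝ | Free c 1 (x + e θ) ∧ Free c 3 (x + e θ)} ≠ 0 := by
    intro h0
    have hn : ∀ᵐ θ : ℝ, cl θ ≠ 1 := by
      have : ∀ᵐ θ : ℝ, ¬ (F θ 1 ∧ F θ 3) := by rw [ae_iff]; simpa using h0
      exact this.mono fun θ h h' => h (c1 θ h')
    refine hT c hc x _ (by decide) (dead 1 ?_ _ h23)
    filter_upwards [hn, chain 0 1 tri hn, hS, hFa] with θ a b d f
    rcases tri (cl θ) with q | q | q
    exacts [(d.1 q).2.2.1, absurd q a, (f q (b q)).1]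
  have hA' : volume {θ : ℝ | Free c 0 (x + e θ) ∧ Free c 2 (x + e θ)} ≠ 0 := by
    intro h0
    have hn : ∀ᵐ θ : ℝ, cl θ ≠ 0 := by
      have : ∀ᵐ θ : ℝ, ¬ (F θ 0 ∧ F θ 2) := by rw [ae_iff]; simpa using h0
      exact this.mono fun θ h h' => h (c0 θ h')
    refine hT c hc x _ (by decide) (dead 0 ?_ _ h12)
    filter_upwards [hn, chain 1 0 (by decide) hn, hS, hFb] with θ a b d f
    rcases tri (cl θ) with q | q | q
    exacts [absurd q a, (d.2.1 q).2.2.1, (f q (b q)).1]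
  obtain ⟨t, ha, hb, hcov⟩ := c4q hCo cl hper hae (by
    intro θ₀ k hk p q
    rcases tri k with rfl | rfl | rfl
    · exact hNP c hc x 0 2 1 3 θ₀ (by decide) hB (p.mono fun θ h => c0 θ h)
        (q.mono fun θ h => c0 θ h)
    · exact hNP c hc x 1 3 0 2 θ₀ (by decide) hA' (p.mono fun θ h => c1 θ h)
        (q.mono fun θ h => c1 θ h)
    · exact hk rfl)
  have tpa : ∀ᵐ θ : ℝ, AltZ cl 0 θ → TP c x 0 2 4 θ := by
    have q1 : ∀ᵐ θ : ℝ, ∀ k : ℤ, _ := ae_all_iff.2 fun k : ℤ => ae_sh hS (2 * k * (π / 3))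
    have q2 : ∀ᵐ θ : ℝ, ∀ k : ℤ, _ := ae_all_iff.2 fun k : ℤ => ae_sh hS ((2 * k + 1) * (π / 3))
    have q3 : ∀ᵐ θ : ℝ, ∀ k : ℤ, _ := ae_all_iff.2 fun k : ℤ => ae_sh hFa ((2 * k + 1) * (π / 3))
    filter_upwards [q1, q2, q3] with θ a b d h k
    refine ⟨c0 _ (h k).1, fun i => ?_⟩
    have w := (a k).1 (h k).1
    have e1 : θ + 2 * (k : ℝ) * (π / 3) + π / 3 = θ + (2 * k + 1) * (π / 3) := by ring
    have e2 : θ + (2 * (k : ℝ) + 1) * (π / 3) + π = θ + 2 * ((k + 2 : ℤ) : ℝ) * (π / 3) := by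
      push_cast; ring
    have w0 := w.1.2.1
    have w2 := w.2.1.2.1
    rw [e1] at w0 w2
    have u := d k (h k).2 (by rw [e2]; exact (h (k + 2)).1)
    have v4 := ((b k).2.2 (h k).2).1
    rcases five i with rfl | rfl | rfl | rfl | rfl
    exacts [iff_of_false w0 (by decide), iff_of_false u.1 (by decide), iff_of_false w2 (by decide),
      iff_of_false u.2 (by decide), iff_of_true v4 rfl]
  have tpb : ∀ᵐ θ : ℝ, AltZ cl 1 θ → TP c x 1 3 4 θ := by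
    have q1 : ∀ᵐ θ : ℝ, ∀ k : ℤ, _ := ae_all_iff.2 fun k : ℤ => ae_sh hS (2 * k * (π / 3))
    have q2 : ∀ᵐ θ : ℝ, ∀ k : ℤ, _ := ae_all_iff.2 fun k : ℤ => ae_sh hS ((2 * k + 1) * (π / 3))
    have q3 : ∀ᵐ θ : ℝ, ∀ k : ℤ, _ := ae_all_iff.2 fun k : ℤ => ae_sh hFb ((2 * k + 1) * (π / 3))
    filter_upwards [q1, q2, q3] with θ a b d h k
    refine ⟨c1 _ (h k).1, fun i => ?_⟩
    have w := (a k).2.1 (h k).1
    have e1 : θ + 2 * (k : ℝ) * (π / 3) + π / 3 = θ + (2 * k + 1) * (π / 3) := by ring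
    have e2 : θ + (2 * (k : ℝ) + 1) * (π / 3) + π = θ + 2 * ((k + 2 : ℤ) : ℝ) * (π / 3) := by
      push_cast; ring
    have w0 := w.1.2.1
    have w2 := w.2.1.2.1
    rw [e1] at w0 w2
    have u := d k (h k).2 (by rw [e2]; exact (h (k + 2)).1)
    have v4 := ((b k).2.2 (h k).2).1
    rcases five i with rfl | rfl | rfl | rfl | rfl
    exacts [iff_of_false u.1 (by decide), iff_of_false w0 (by decide), iff_of_false u.2 (by decide),
      iff_of_false w2 (by decide), iff_of_true v4 rfl]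
  have tpb' := eventually_nae_of_ae (x := t) (ae_sh tpb (π / 3))
  have tpa' := eventually_nae_of_ae (x := t) tpa
  refine c4end h3 hK h1 hSl hV hN hc h01 h12 h23 h30 (t := t)
    ((ha.and_eventually tpa').mono fun θ h => h.2 h.1)
    ((hb.and_eventually tpb').mono fun θ h => h.2 h.1) ?_
  filter_upwards [hcov, tpa', tpb'] with θ h p q
  exact h.imp p q

end Crest.Agent.R40
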