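import Crest.Agent.R40.DDefs

/-! Row 40, task COMP. -/

set_option autoImplicit false

namespace Crest.Agent.R40
open MeasureTheory Set Filter Topology

theorem comp : COMP := by
  intro X Y _ _ _ _ _ _ _ μ _ l Ψ Φ C hC hl hΨ hΦ hlim hpush J hJ
  refine Tendsto.mono_left ?_ hl
  rw [ENNReal.tendsto_nhds_zero]
  intro ε hε
  have hε3 : 0 < ε / 3 := ENNReal.div_pos hε.ne' (by simp)
  obtain ⟨δ, hδ0, hδ⟩ : ∃ δ : ENNReal, δ ≠ 0 ∧ C * δ ≤ ε / 3 := by
    obtain ⟨δ, h1, h2⟩ := ENNReal.exists_nnreal_pos_mul_lt (a := C) (b := ε / 3) hC hε3.ne'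
    exact ⟨δ, by simpa using h1.ne', by rw [mul_comm]; exact h2.le⟩
  -- cut in a big ball
  have hcut : Tendsto (fun k : ℕ => μ (Φ ⁻¹' (Metric.ball 0 k)ᶜ)) atTop (𝓝 0) := by
    have h := tendsto_measure_iInter_atTop (μ := μ)
      (s := fun k : ℕ => Φ ⁻¹' (Metric.ball (0 : Y) k)ᶜ)
      (fun k => (hΦ Metric.isOpen_ball.measurableSet.compl).nullMeasurableSet)
      (fun a b hab => preimage_mono (compl_subset_compl.2
        (Metric.ball_subset_ball (by exact_mod_cast hab)))) ⟨0, measure_ne_top _ _⟩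
    have h0 : (⋂ k : ℕ, Φ ⁻¹' (Metric.ball (0 : Y) k)ᶜ) = ∅ := by
      refine eq_empty_of_forall_notMem fun x hx => ?_
      obtain ⟨k, hk⟩ := exists_nat_gt ‖Φ x‖
      exact mem_iInter.1 hx k (by simpa using hk)
    rw [h0, measure_empty] at h
    exact h
  obtain ⟨k, hk⟩ := ((ENNReal.tendsto_nhds_zero.1 hcut) _ hε3).exists
  have hfin : volume (J ∩ Metric.ball (0 : Y) k) ≠ ⊤ :=
    ne_top_of_le_ne_top (measure_ball_lt_top).ne (measure_mono inter_subset_right)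
  obtain ⟨U, hU1, hU2, -, hU3⟩ :=
    (hJ.inter Metric.isOpen_ball.measurableSet).exists_isOpen_sdiff_lt hfin hδ0
  have hB : ∀ n, MeasurableSet {x | Φ x ∈ U ∧ Ψ n x ∉ U} := fun n =>
    (hΦ hU2.measurableSet).inter (hΨ n hU2.measurableSet.compl)
  have h1 := tendsto_measure_of_ae_tendsto_indicator_of_isFiniteMeasure (μ := μ)
    atTop (A := ∅) MeasurableSet.empty hB (by
      filter_upwards [hlim] with x hx
      simp only [mem_empty_iff_false, iff_false]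
      by_cases hxU : Φ x ∈ U
      · filter_upwards [hx.eventually (hU2.mem_nhds hxU)] with n hn h
        exact h.2 hn
      · exact Eventually.of_forall fun n h => hxU h.1)
  rw [measure_empty] at h1
  filter_upwards [(ENNReal.tendsto_nhds_zero.1 h1) _ hε3, hpush] with n hn hn'
  have hsub : {x | Φ x ∈ J ∧ Ψ n x ∉ J} ⊆ (Φ ⁻¹' (Metric.ball 0 k)ᶜ ∪ {x | Φ x ∈ U ∧ Ψ n x ∉ U}) ∪
      Ψ n ⁻¹' (U \ (J ∩ Metric.ball 0 k)) := by
    rintro x ⟨h2, h3⟩
    by_cases h4 : Φ x ∈ Metric.ball (0 : Y) k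
    · by_cases h5 : Ψ n x ∈ U
      · exact Or.inr ⟨h5, fun h6 => h3 h6.1⟩
      · exact Or.inl (Or.inr ⟨hU1 ⟨h2, h4⟩, h5⟩)
    · exact Or.inl (Or.inl h4)
  have h6 : μ (Ψ n ⁻¹' (U \ (J ∩ Metric.ball 0 k))) ≤ ε / 3 := by
    refine (hn' _ (hU2.measurableSet.diff (hJ.inter Metric.isOpen_ball.measurableSet))).trans
      (le_trans ?_ hδ)
    gcongr
  calc _ ≤ _ := measure_mono hsub
    _ ≤ _ := measure_union_le _ _
    _ ≤ (ε / 3 + ε / 3) + ε / 3 :=
        add_le_add ((measure_union_le _ _).trans (add_le_add hk hn)) h6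
    _ = ε := ENNReal.add_thirds ε

end Crest.Agent.R40
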