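import Crest.Agent.R40.DDefs
import Crest.Agent.R40.MBasic

/-! Row 40: the five-cycle case `CV0`. -/

set_option autoImplicit false

namespace Crest.Agent.R40
open MeasureTheory Set Filter Topology Real

private theorem cv_pair (L W : Fin 5 → Prop) (hW : ∀ i, W i → L i)
    (h2 : ∀ i j k : Fin 5, i ≠ j → i ≠ k → j ≠ k → ¬ (L i ∧ L j ∧ L k))
    (h01 : ∃ i, i ∉ ({0, 1} : Finset (Fin 5)) ∧ W i)
    (h12 : ∃ i, i ∉ ({1, 2} : Finset (Fin 5)) ∧ W i)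
    (h23 : ∃ i, i ∉ ({2, 3} : Finset (Fin 5)) ∧ W i)
    (h34 : ∃ i, i ∉ ({3, 4} : Finset (Fin 5)) ∧ W i)
    (h40 : ∃ i, i ∉ ({4, 0} : Finset (Fin 5)) ∧ W i) :
    ∃ a : Fin 5, W a ∧ W (a + 2) ∧ ∀ i, L i ↔ (i = a ∨ i = a + 2) := by
  have key : ∃ a : Fin 5, W a ∧ W (a + 2) := by
    obtain ⟨i1, n1, w1⟩ := h01
    obtain ⟨i2, n2, w2⟩ := h12
    obtain ⟨i3, n3, w3⟩ := h23
    obtain ⟨i4, n4, w4⟩ := h34
    obtain ⟨i5, n5, w5⟩ := h40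
    have fin : ∀ i1 : Fin 5, i1 ∉ ({0, 1} : Finset (Fin 5)) →
        ∀ i2 : Fin 5, i2 ∉ ({1, 2} : Finset (Fin 5)) →
        ∀ i3 : Fin 5, i3 ∉ ({2, 3} : Finset (Fin 5)) →
        ∀ i4 : Fin 5, i4 ∉ ({3, 4} : Finset (Fin 5)) →
        ∀ i5 : Fin 5, i5 ∉ ({4, 0} : Finset (Fin 5)) →
        ∃ a : Fin 5, (a = i1 ∨ a = i2 ∨ a = i3 ∨ a = i4 ∨ a = i5) ∧
          (a + 2 = i1 ∨ a + 2 = i2 ∨ a + 2 = i3 ∨ a + 2 = i4 ∨ a + 2 = i5) := by
      decide +kernel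
    obtain ⟨a, ha, hb⟩ := fin i1 n1 i2 n2 i3 n3 i4 n4 i5 n5
    refine ⟨a, ?_, ?_⟩
    · rcases ha with h | h | h | h | h <;> rw [h] <;> assumption
    · rcases hb with h | h | h | h | h <;> rw [h] <;> assumption
  obtain ⟨a, ha, hb⟩ := key
  refine ⟨a, ha, hb, fun i => ⟨fun hi => ?_, ?_⟩⟩
  · by_contra hne
    push Not at hne
    have h3 : ∀ a : Fin 5, a ≠ a + 2 := by decide
    exact h2 i a (a + 2) hne.1 hne.2 (h3 a) ⟨hi, hW _ ha, hW _ hb⟩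
  · rintro (rfl | rfl)
    · exact hW _ ha
    · exact hW _ hb

private def cvDis (a b : Fin 5) : Prop := ¬ (a = b ∨ a = b + 2) ∧ ¬ (a + 2 = b ∨ a + 2 = b + 2)

private instance (a b : Fin 5) : Decidable (cvDis a b) := by unfold cvDis; infer_instance

private def cvCov (a b : Fin 5) : Prop :=
  ∃ m : Fin 5, ∀ i, i ≠ m → (i = a ∨ i = a + 2) ∨ (i = b ∨ i = b + 2)

private instance (a b : Fin 5) : Decidable (cvCov a b) := by unfold cvCov; infer_instance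

private theorem cv_walk : ∀ a0 a1 : Fin 5, cvDis a0 a1 → ∀ a2, cvDis a1 a2 → ∀ a3, cvDis a2 a3 →
    ∀ a4, cvDis a3 a4 → ∀ a5, cvDis a4 a5 → cvDis a5 a0 →
    cvCov a0 a3 ∨ cvCov a1 a4 ∨ cvCov a2 a5 := by
  decide +kernel

theorem cv0 (h1 : VRULE) (h2 : LTWO) (h3 : CONE) (h4 : TRIP) : CV0 := by
  intro c hc x n01 n12 n23 n34 n40
  -- no antipodal pair of `L`'s covers four colours
  have hcone : ∀ᵐ θ : ℝ, ∀ m : Fin 5,
      ¬ ∀ i, i ≠ m → Free c i (x + e θ) ∨ Free c i (x + e (θ + π)) := by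
    rw [ae_all_iff]
    intro m
    by_contra hm
    have hi := (h3 c hc x m hm).2
    fin_cases m
    · exact h4 c hc x _ (by decide) (hi _ n12)
    · exact h4 c hc x _ (by decide) (hi _ n23)
    · exact h4 c hc x _ (by decide) (hi _ n34)
    · exact h4 c hc x _ (by decide) (hi _ n40)
    · exact h4 c hc x _ (by decide) (hi _ n01)
  have hT : ∀ x' ∈ (∅ : Finset ℂ), ‖x' - x‖ = 1 := by simp
  have hpair : ∀ᵐ θ : ℝ, ∃ a : Fin 5, V c x ∅ θ a ∧ V c x ∅ θ (a + 2) ∧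
      ∀ i, Free c i (x + e θ) ↔ (i = a ∨ i = a + 2) := by
    filter_upwards [h2 c hc x, h1 c hc x _ ∅ hT n01, h1 c hc x _ ∅ hT n12, h1 c hc x _ ∅ hT n23,
      h1 c hc x _ ∅ hT n34, h1 c hc x _ ∅ hT n40] with θ a b1 b2 b3 b4 b5
    exact cv_pair (fun i => Free c i (x + e θ)) (V c x ∅ θ) (fun i hi => hi.1) a b1 b2 b3 b4 b5
  have hboth := hcone.and hpair
  have hshift : ∀ᵐ θ : ℝ, ∀ k : ℕ, (∀ m : Fin 5, ¬ ∀ i, i ≠ m →
      Free c i (x + e (θ + k * (π / 3))) ∨ Free c i (x + e (θ + k * (π / 3) + π))) ∧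
      ∃ a : Fin 5, V c x ∅ (θ + k * (π / 3)) a ∧ V c x ∅ (θ + k * (π / 3)) (a + 2) ∧
        ∀ i, Free c i (x + e (θ + k * (π / 3))) ↔ (i = a ∨ i = a + 2) := by
    rw [ae_all_iff]
    intro k
    exact (measurePreserving_add_right volume (k * (π / 3) : ℝ)).quasiMeasurePreserving.ae hboth
  obtain ⟨θ, hθ⟩ := hshift.exists
  choose hm a ha hb hL using hθ
  have hdis : ∀ k : ℕ, cvDis (a k) (a (k + 1)) := by
    intro k
    have e1 : θ + k * (π / 3) + π / 3 = θ + ((k + 1 : ℕ) : ℝ) * (π / 3) := by push_cast; ring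
    refine ⟨fun h => (ha k).2.1 ?_, fun h => (hb k).2.1 ?_⟩
    · rw [e1]; exact (hL (k + 1) _).2 h
    · rw [e1]; exact (hL (k + 1) _).2 h
  have hlast : cvDis (a 5) (a 0) := by
    have e1 : e (θ + ((5 : ℕ) : ℝ) * (π / 3) + π / 3) = e (θ + ((0 : ℕ) : ℝ) * (π / 3)) := by
      rw [← e_periodic (θ + ((0 : ℕ) : ℝ) * (π / 3))]
      congr 1; push_cast; ring
    refine ⟨fun h => (ha 5).2.1 ?_, fun h => (hb 5).2.1 ?_⟩
    · rw [e1]; exact (hL 0 _).2 h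
    · rw [e1]; exact (hL 0 _).2 h
  have hcov : ∀ k : ℕ, ¬ cvCov (a k) (a (k + 3)) := by
    rintro k ⟨m, hmm⟩
    have e1 : θ + k * (π / 3) + π = θ + ((k + 3 : ℕ) : ℝ) * (π / 3) := by push_cast; ring
    refine hm k m fun i hi => ?_
    rw [e1, hL k i, hL (k + 3) i]
    exact hmm i hi
  rcases cv_walk (a 0) (a 1) (hdis 0) (a 2) (hdis 1) (a 3) (hdis 2) (a 4) (hdis 3) (a 5) (hdis 4)
    hlast with h | h | h
  · exact hcov 0 h
  · exact hcov 1 h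
  · exact hcov 2 h

end Crest.Agent.R40
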