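import Crest.Agent.R40.DDefs

set_option autoImplicit false

namespace Crest.Agent.R40

/-- Theorem D for one colouring (`THMDD` is `∀ c, Good c → ThmD c`) -/
def ThmD (c : ℂ → Fin 5) : Prop := ∀ x s t, ¬ DD c x s t

end Crest.Agent.R40
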