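import Crest.Agent.R40.MDefs

/-! Row 40, measurable part: Theorem D (blow-up route) and the cycle cases. Task statements. -/

set_option autoImplicit false

namespace Crest.Agent.R40
open MeasureTheory Set Filter Topology Real

/-- `x` is trichromatic with pair `u, v`: exactly one of `u, v` lies in `L_x(θ)` and it alternates -/
def Tri (c : ℂ → Fin 5) (x : ℂ) (u v : Fin 5) : Prop := u ≠ v ∧ ∀ᵐ θ : ℝ,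
  (Free c u (x + e θ) ↔ ¬ Free c v (x + e θ)) ∧
  (Free c u (x + e (θ + π / 3)) ↔ ¬ Free c u (x + e θ))

/-- THEOREM D -/
def THMD : Prop := ∀ c : ℂ → Fin 5, Good c → ∀ x u v, ¬ Tri c x u v

/-- intrinsic form (helper19): `s` or `t` is really seen in a.e. direction -/
def DD (c : ℂ → Fin 5) (x : ℂ) (s t : Fin 5) : Prop := s ≠ t ∧ ∀ Es Et : Set ℝ,
  MeasurableSet Es → MeasurableSet Et → Avoid c x s Es → Avoid c x t Et →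
  ∀ᵐ θ : ℝ, θ ∉ Es ∨ θ ∉ Et

/-- THEOREM D, common form used by the cycle cases (both routes prove it) -/
def THMDD : Prop := ∀ c : ℂ → Fin 5, Good c → ∀ x s t, ¬ DD c x s t

/-- rising-sun point -/
def RS (c : ℂ → Fin 5) (x : ℂ) (u v : Fin 5) (a : ℝ) : Prop := ∀ r : ℝ, 0 < r →
  ENNReal.ofReal (r / 2) ≤ volume {θ | θ ∈ Ioo (a - r) a ∧ Free c u (x + e θ)} ∧
  ENNReal.ofReal (r / 2) ≤ volume {θ | θ ∈ Ioo a (a + r) ∧ Free c v (x + e θ)}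

/-- for `0 < ‖w - y‖ ≤ 2`, `s = ±1`, the unit circle centred `y + e (nrm s y w)` passes through `y`, `w` -/
noncomputable def nrm (s : ℝ) (y w : ℂ) : ℝ := Complex.arg (w - y) + s * arccos (‖w - y‖ / 2)

/-- strong avoidance: all `y → z`, off one null set -/
def SAv (c : ℂ → Fin 5) (z : ℂ) (i : Fin 5) (E : Set ℝ) : Prop := ∃ Z : Set ℂ, volume Z = 0 ∧ ∀ R : ℝ,
  Tendsto (fun y => volume {θ : ℝ | |θ| ≤ R ∧ θ ∈ E ∧ c (y + e θ) = i ∧ y + e θ ∉ Z}) (𝓝 z) (𝓝 0)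

def Periodic2 (J : Set ℝ) : Prop := ∀ θ, θ + 2 * π ∈ J ↔ θ ∈ J

/-- the fixed non-principal ultrafilter -/
noncomputable abbrev hyp : Filter ℕ := (hyperfilter ℕ : Filter ℕ)

/-- `U` is the support of the weak limit of the indicators of `S n` along `hyp` -/
def Lim {X : Type} [MeasureSpace X] (S : ℕ → Set X) (U : Set X) : Prop :=
  MeasurableSet U ∧ ∀ E : Set X, MeasurableSet E → volume E < ⊤ →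
    (Tendsto (fun n => volume (E ∩ S n)) hyp (𝓝 0) ↔ volume (E ∩ U) = 0)

def Scales (ρ : ℕ → ℝ) : Prop := (∀ n, 0 < ρ n) ∧ Tendsto ρ atTop (𝓝 0)

/-- rescaled colour class at `z`, rotated by `b` -/
def Bl (c : ℂ → Fin 5) (z : ℂ) (b : ℝ) (ρ : ℕ → ℝ) (i : Fin 5) (n : ℕ) : Set ℂ :=
  {W | c (z + ρ n * e b * W) = i}

/-- rescaled set `{k ∈ L_x}` at the angle `a` -/
def Bq (c : ℂ → Fin 5) (x : ℂ) (a : ℝ) (ρ : ℕ → ℝ) (k : Fin 5) (n : ℕ) : Set ℝ :=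
  {s | Free c k (x + e (a + ρ n * s))}

noncomputable def sC (W : ℂ) : ℝ := W.re + W.im / √3
noncomputable def tC (W : ℂ) : ℝ := W.re - W.im / √3
/-- point where the line through `W` with direction `d` meets the real axis -/
noncomputable def prj (d : ℝ) (W : ℂ) : ℝ := W.re - W.im * (cos d / sin d)
def Fan (D : Set ℝ) : Set ℂ := {W | Complex.arg W ∈ D}
def Cone60 : Set ℂ := {W | sC W * tC W < 0}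

/-! ### Tools -/

def WL1 : Prop := ∀ (X : Type) [MeasureSpace X] [SigmaFinite (volume : Measure X)]
  (S : ℕ → Set X), (∀ n, MeasurableSet (S n)) → ∃ U, Lim S U

def WL2 : Prop := ∀ (X Y : Type) [MeasureSpace X] [MeasureSpace Y]
  [SigmaFinite (volume : Measure X)] [SigmaFinite (volume : Measure Y)]
  (S : ℕ → Set X) (S' : ℕ → Set Y) (U : Set X) (U' : Set Y),
  (∀ n, MeasurableSet (S n)) → (∀ n, MeasurableSet (S' n)) → Lim S U → Lim S' U' →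
  ∀ Q : Set (X × Y), MeasurableSet Q → volume Q < ⊤ →
    Tendsto (fun n => volume (Q ∩ S n ×ˢ S' n)) hyp (𝓝 0) → volume (Q ∩ U ×ˢ U') = 0

def COMP : Prop := ∀ (X Y : Type) [MeasurableSpace X] [NormedAddCommGroup Y] [NormedSpace ℝ Y]
  [FiniteDimensional ℝ Y] [MeasureSpace Y] [BorelSpace Y]
  [IsLocallyFiniteMeasure (volume : Measure Y)] (μ : Measure X) [IsFiniteMeasure μ]
  (l : Filter ℕ) (Ψ : ℕ → X → Y) (Φ : X → Y) (C : ENNReal), C ≠ ⊤ → l ≤ atTop →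
  (∀ n, Measurable (Ψ n)) → Measurable Φ →
  (∀ᵐ x ∂μ, Tendsto (fun n => Ψ n x) atTop (𝓝 (Φ x))) →
  (∀ᶠ n in atTop, ∀ N : Set Y, MeasurableSet N → μ (Ψ n ⁻¹' N) ≤ C * volume N) →
  ∀ J : Set Y, MeasurableSet J →
    Tendsto (fun n => μ {x | Φ x ∈ J ∧ Ψ n x ∉ J}) l (𝓝 0)

/-- basic facts on `nrm` -/
def NRM : Prop :=
  (∀ s : ℝ, Measurable fun p : ℂ × ℂ => nrm s p.1 p.2) ∧
  (∀ (s : ℝ) (y w : ℂ), s = 1 ∨ s = -1 → w ≠ y → ‖w - y‖ ≤ 2 → ‖w - (y + e (nrm s y w))‖ = 1) ∧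
  (∀ (y w : ℂ) (α : ℝ), w ≠ y → ‖w - (y + e α)‖ = 1 → e α = e (nrm 1 y w) ∨ e α = e (nrm (-1) y w)) ∧
  (∀ (s : ℝ) (y : ℂ) (r : ℝ) (N : Set ℝ), s = 1 ∨ s = -1 → 0 < r → MeasurableSet N →
    volume {w : ℂ | ‖w - y‖ ≤ r ∧ nrm s y w ∈ N} ≤ ENNReal.ofReal (r ^ 2) * volume (N ∩ Icc (-5) 5)) ∧
  (∀ (c : ℂ → Fin 5) (i : Fin 5) (s : ℝ) (y : ℂ), Measurable c → s = 1 ∨ s = -1 →
    ∀ᵐ w : ℂ, ‖w - y‖ ≤ 2 → Free c i (y + e (nrm s y w)) → c w ≠ i)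

/-- strong forms of the avoidance rules -/
def SAV : Prop := ∀ c : ℂ → Fin 5, Good c → ∀ z i,
  SAv c z i {θ | ¬ Free c i (z + e θ)} ∧ SAv c z i {θ | Free c i (z + e (θ + π / 3))} ∧
  SAv c z i {θ | Free c i (z + e (θ - π / 3))} ∧
  (∀ x : ℂ, ‖x - z‖ = 1 → SAv c z i {θ | Free c i (x + e θ)}) ∧
  (∀ E E' : Set ℝ, SAv c z i E → SAv c z i E' → ∀ F ⊆ E ∪ E', SAv c z i F) ∧
  (∀ E : Set ℝ, SAv c z i E → Avoid c z i E)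

/-- existence of the local unit-distance correspondence; it pulls non-null sets back to non-null sets -/
def EXA : Prop := ∀ (x z : ℂ) (β₀ α₀ : ℝ), ‖z + e β₀ - x - e α₀‖ = 1 →
  ((z + e β₀ - x - e α₀) * (starRingEnd ℂ) (e α₀)).im ≠ 0 →
  ((z + e β₀ - x - e α₀) * (starRingEnd ℂ) (e β₀)).im ≠ 0 →
  ∃ A : ℝ → ℝ, Measurable A ∧ ContinuousAt A β₀ ∧ A β₀ = α₀ ∧
    (∀ᶠ b in 𝓝 β₀, ‖z + e b - x - e (A b)‖ = 1) ∧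
    ∀ P : ℝ → Prop, (∃ᶠ α in nae α₀, P α) → ∃ᶠ β in nae β₀, P (A β)

/-- area form of the cone lemma -/
def CONEA : Prop := ∀ c : ℂ → Fin 5, Good c → ∀ (x : ℂ) (b : ℝ) (m : Fin 5) (D : Set ℝ),
  MeasurableSet D → (∀ θ, θ + π ∈ D ↔ θ ∈ D) → volume D ≠ 0 →
  Tendsto (fun ρ : ℝ => volume {W : ℂ | W ∈ Metric.ball (0 : ℂ) 1 ∧ W ∈ Fan D ∧
    c (x + ρ * e b * W) ≠ m}) (𝓝[>] 0) (𝓝 0) →
  Tendsto (G c m) (nae x) (𝓝 0)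

/-- polar coordinates for null sets -/
def POL : Prop := ∀ P : ℂ → Prop, MeasurableSet {W | P W} →
  ((∀ᵐ W : ℂ, P W) ↔ ∀ᵐ d : ℝ, ∀ᵐ r : ℝ, P (r * e d)) ∧
  ((∀ᵐ W : ℂ, P W) ↔ ∀ᵐ d : ℝ, d ∈ Ioo 0 π → ∀ᵐ r : ℝ, P (r * e d))

/-! ### Blow-up rules -/

/-- cone rule -/
def BLC : Prop := ∀ c : ℂ → Fin 5, Good c → ∀ (z : ℂ) (b : ℝ) (ρ : ℕ → ℝ) (i : Fin 5) (U : Set ℂ),
  Scales ρ → Lim (Bl c z b ρ i) U → ∀ᵐ W : ℂ, W ∈ U →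
    ¬ Free c i (z + e (Complex.arg W + b + π / 2)) ∧ ¬ Free c i (z + e (Complex.arg W + b - π / 2))

/-- two-colour line rule -/
def BLE : Prop := ∀ c : ℂ → Fin 5, Good c → ∀ (x : ℂ) (ρ : ℕ → ℝ) (i j : Fin 5) (U U' : Set ℂ)
  (J : Set ℝ), Scales ρ → Lim (Bl c x 0 ρ i) U → Lim (Bl c x 0 ρ j) U' → MeasurableSet J →
  Periodic2 J → (∀ k, k ≠ i → k ≠ j → Avoid c x k J) →
  ∀ᵐ p : ℂ × ℂ, p.1 ∈ U → p.2 ∈ U' →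
    Complex.arg (p.2 - p.1) + π / 2 ∉ J ∧ Complex.arg (p.2 - p.1) - π / 2 ∉ J

/-- axis line rule -/
def BLD : Prop := ∀ c : ℂ → Fin 5, Good c → ∀ (x : ℂ) (a : ℝ) (ρ : ℕ → ℝ) (k i : Fin 5)
  (A : Set ℝ) (U : Set ℂ) (J : Set ℝ), Scales ρ → Lim (Bq c x a ρ k) A →
  Lim (Bl c (x + e a) (a + π / 2) ρ i) U → MeasurableSet J → Periodic2 J →
  (∀ l, l ≠ k → l ≠ i → SAv c (x + e a) l J) →
  ∀ᵐ p : ℝ × ℂ, p.1 ∈ A → p.2 ∈ U →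
    Complex.arg (p.2 - p.1) + (a + π / 2) + π / 2 ∉ J ∧
    Complex.arg (p.2 - p.1) + (a + π / 2) - π / 2 ∉ J

/-- on `D` only the other three colours occur, so one of them is present -/
def BLB : Prop := ∀ c : ℂ → Fin 5, Good c → ∀ (x : ℂ) (u v : Fin 5) (a : ℝ) (ρ : ℕ → ℝ)
  (Au Av : Set ℝ) (U : Fin 5 → Set ℂ), Tri c x u v → Scales ρ → Lim (Bq c x a ρ u) Au →
  Lim (Bq c x a ρ v) Av → (∀ i, Lim (Bl c (x + e a) (a + π / 2) ρ i) (U i)) →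
  ∀ᵐ W : ℂ, ((sC W ∈ Au ∧ tC W ∈ Av) ∨ (sC W ∈ Av ∧ tC W ∈ Au)) → ∃ i, i ≠ u ∧ i ≠ v ∧ W ∈ U i

/-- colour `u` needs both coordinates in `Au` -/
def BLB2 : Prop := ∀ c : ℂ → Fin 5, Good c → ∀ (x : ℂ) (u v : Fin 5) (a : ℝ) (ρ : ℕ → ℝ)
  (Au : Set ℝ) (U : Set ℂ), Tri c x u v → Scales ρ → Lim (Bq c x a ρ u) Au →
  Lim (Bl c (x + e a) (a + π / 2) ρ u) U → ∀ᵐ W : ℂ, W ∈ U → sC W ∈ Au ∧ tC W ∈ Au

/-- rising sun in the limit -/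
def LIMA : Prop := ∀ c : ℂ → Fin 5, Good c → ∀ (x : ℂ) (u v : Fin 5) (a : ℝ) (ρ : ℕ → ℝ)
  (Au Av : Set ℝ), Tri c x u v → RS c x u v a → Scales ρ → Lim (Bq c x a ρ u) Au →
  Lim (Bq c x a ρ v) Av → (∀ᵐ s : ℝ, s ∈ Au ∨ s ∈ Av) ∧ ∀ r : ℝ, 0 < r →
    ENNReal.ofReal (r / 2) ≤ volume (Av ∩ Ioo 0 r) ∧ ENNReal.ofReal (r / 2) ≤ volume (Au ∩ Ioo (-r) 0)

/-- from the axis line rule to directions -/
def DCONV : Prop := ∀ (A : Set ℝ) (U : Set ℂ) (J : Set ℝ), MeasurableSet A → MeasurableSet U →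
  MeasurableSet J → Periodic2 J →
  (∀ᵐ p : ℝ × ℂ, p.1 ∈ A → p.2 ∈ U →
    Complex.arg (p.2 - p.1) + π / 2 ∉ J ∧ Complex.arg (p.2 - p.1) - π / 2 ∉ J) →
  ∀ᵐ d : ℝ, d ∈ Ioo 0 π → (d + π / 2 ∈ J ∨ d - π / 2 ∈ J) → ∀ᵐ W : ℂ, W ∈ U → prj d W ∉ A

/-- the direction rule passes to limits of directions -/
def DLIM : Prop := ∀ (A : Set ℝ) (U : Set ℂ) (d₀ : ℝ), MeasurableSet A → MeasurableSet U →
  d₀ ∈ Ioo 0 π → (∀ δ : ℝ, 0 < δ → ∃ d, |d - d₀| < δ ∧ ∀ᵐ W : ℂ, W ∈ U → prj d W ∉ A) →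
  ∀ᵐ W : ℂ, W ∈ U → prj d₀ W ∉ A

def RAY1 : Prop := ∀ (A A' : Set ℝ) (σ τ : ℝ), MeasurableSet A → MeasurableSet A' → 0 < σ → 0 < τ →
  (∀ r : ℝ, 0 < r → ENNReal.ofReal (r / 2) ≤ volume (A ∩ Ioo 0 r)) →
  (∀ r : ℝ, 0 < r → ENNReal.ofReal (r / 2) ≤ volume (A' ∩ Ioo 0 r)) →
  volume {r : ℝ | 0 < r ∧ r * σ ∈ A ∧ r * τ ∈ A'} ≠ 0

def RAY2 : Prop := ∀ A A' : Set ℝ, MeasurableSet A → MeasurableSet A' →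
  (∀ᵐ s : ℝ, 0 < s → s ∈ A ∨ s ∈ A') → volume (A ∩ Ioi 0) ≠ 0 → volume (A' ∩ Ioi 0) ≠ 0 →
  ∀ᵐ l : ℝ, 0 < l → volume {r : ℝ | 0 < r ∧ ((r ∈ A ∧ l * r ∈ A') ∨ (r ∈ A' ∧ l * r ∈ A))} ≠ 0

/-! ### The abstract limit configuration (three colours `Fin 3`, angles are normals) -/

structure Abs where
  σ : ℝ → Prop
  Λ : ℝ → Fin 3 → Prop
  κ : ℝ → Fin 3 → Prop
  U : Fin 3 → Set ℂ
  Au : Set ℝ
  Av : Set ℝ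
  mσ : MeasurableSet {φ | σ φ}
  mΛ : ∀ i, MeasurableSet {φ | Λ φ i}
  mκ : ∀ i, MeasurableSet {φ | κ φ i}
  mU : ∀ i, MeasurableSet (U i)
  mAu : MeasurableSet Au
  mAv : MeasurableSet Av
  pσ : ∀ φ, σ (φ + 2 * π) ↔ σ φ
  pΛ : ∀ φ i, Λ (φ + 2 * π) i ↔ Λ φ i
  pκ : ∀ φ i, κ (φ + 2 * π) i ↔ κ φ i
  hex : ∀ᵐ φ : ℝ, (σ (φ + π / 3) ↔ ¬ σ φ) ∧ (∃ i, κ φ i) ∧
    ∀ i, κ φ i → Λ φ i ∧ ¬ Λ (φ + π / 3) i ∧ ¬ Λ (φ - π / 3) i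
  cov : ∀ᵐ s : ℝ, s ∈ Au ∨ s ∈ Av
  rs : ∀ r : ℝ, 0 < r → ENNReal.ofReal (r / 2) ≤ volume (Av ∩ Ioo 0 r) ∧
    ENNReal.ofReal (r / 2) ≤ volume (Au ∩ Ioo (-r) 0)
  hb : ∀ᵐ W : ℂ, ((sC W ∈ Au ∧ tC W ∈ Av) ∨ (sC W ∈ Av ∧ tC W ∈ Au)) → ∃ i, W ∈ U i
  hc : ∀ᵐ W : ℂ, ∀ i, W ∈ U i → ¬ Λ (Complex.arg W + π / 2) i ∧ ¬ Λ (Complex.arg W - π / 2) i
  hd : ∀ᵐ d : ℝ, d ∈ Ioo 0 π → ∀ φ, φ = d + π / 2 ∨ φ = d - π / 2 → ∀ i, (∀ j, κ φ j → j = i) →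
    (σ φ → ∀ᵐ W : ℂ, W ∈ U i → prj d W ∉ Av) ∧ (¬ σ φ → ∀ᵐ W : ℂ, W ∈ U i → prj d W ∉ Au)

def Abs.Clean (X : Abs) : Prop := volume (X.Au ∩ Ioi 0) = 0 ∧ volume (X.Av ∩ Iio 0) = 0

def Mid (Λ : ℝ → Fin 3 → Prop) (ψ : Fin 3) : Prop :=
  ∀ᵐ d : ℝ, d ∈ Ioo (π / 3) (2 * π / 3) → ¬ Λ (d + π / 2) ψ ∧ ¬ Λ (d - π / 2) ψ

/-- on a.e. middle direction the upper ray meets type I, the lower ray type II, in a colour missing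
from both normals -/
def ABSM : Prop := ∀ X : Abs, ∀ᵐ d : ℝ, d ∈ Ioo (π / 3) (2 * π / 3) →
  (∃ i, ¬ X.Λ (d + π / 2) i ∧ ¬ X.Λ (d - π / 2) i ∧
    volume {r : ℝ | 0 < r ∧ (r * e d : ℂ) ∈ X.U i ∧ sC (r * e d) ∈ X.Av ∧ tC (r * e d) ∈ X.Au} ≠ 0) ∧
  (∃ i, ¬ X.Λ (d + π / 2) i ∧ ¬ X.Λ (d - π / 2) i ∧
    volume {r : ℝ | r < 0 ∧ (r * e d : ℂ) ∈ X.U i ∧ sC (r * e d) ∈ X.Au ∧ tC (r * e d) ∈ X.Av} ≠ 0)

/-- non-clean case: a.e. direction meets type I or type II -/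
def ABSO : Prop := ∀ X : Abs, ¬ X.Clean → ∀ᵐ d : ℝ, d ∈ Ioo 0 π →
  ∃ i, ¬ X.Λ (d + π / 2) i ∧ ¬ X.Λ (d - π / 2) i ∧
    volume {r : ℝ | (r * e d : ℂ) ∈ X.U i ∧ ((sC (r * e d) ∈ X.Av ∧ tC (r * e d) ∈ X.Au) ∨
      (sC (r * e d) ∈ X.Au ∧ tC (r * e d) ∈ X.Av))} ≠ 0

/-- non-clean case: type I and type II are monochromatic -/
def ABS2A : Prop := ∀ X : Abs, ¬ X.Clean → ∃ α β : Fin 3,
  (∀ᵐ W : ℂ, sC W ∈ X.Av → tC W ∈ X.Au → ∀ i, W ∈ X.U i → i = α) ∧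
  (∀ᵐ W : ℂ, sC W ∈ X.Au → tC W ∈ X.Av → ∀ i, W ∈ X.U i → i = β)

def ABS2 : Prop := ∀ X : Abs, ¬ X.Clean → ∃ ψ : Fin 3, ∀ᵐ φ : ℝ, ¬ X.Λ φ ψ

/-- clean case: each of the two cones is monochromatic -/
def ABS1A : Prop := ∀ X : Abs, X.Clean →
  (∃ α : Fin 3, ∀ i, i ≠ α → volume (X.U i ∩ Cone60 ∩ {W | 0 < W.im}) = 0) ∧
  (∃ β : Fin 3, ∀ i, i ≠ β → volume (X.U i ∩ Cone60 ∩ {W | W.im < 0}) = 0)

def ABS1 : Prop := ∀ X : Abs, X.Clean → ∃ ψ : Fin 3,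
  (∀ i, i ≠ ψ → volume (X.U i ∩ Cone60) = 0) ∧ Mid X.Λ ψ ∧ ∀ ψ', Mid X.Λ ψ' → ψ' = ψ

/-! ### Steps of Theorem D -/

def RSE : Prop := ∀ c : ℂ → Fin 5, Good c → ∀ x u v, Tri c x u v →
  Tri c x v u ∧ (∃ a, RS c x u v a) ∧ ∀ a, RS c x u v a → RS c x v u (a + π / 3)

/-- the data at a rising-sun point form an abstract configuration -/
def MKABS : Prop := ∀ c : ℂ → Fin 5, Good c → ∀ (x : ℂ) (u v : Fin 5) (a : ℝ) (ρ : ℕ → ℝ)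
  (ι : Fin 3 → Fin 5) (Au Av : Set ℝ) (U : Fin 5 → Set ℂ), Tri c x u v → RS c x u v a → Scales ρ →
  Function.Injective ι → (∀ i, ι i ≠ u ∧ ι i ≠ v) → Lim (Bq c x a ρ u) Au → Lim (Bq c x a ρ v) Av →
  (∀ i, Lim (Bl c (x + e a) (a + π / 2) ρ i) (U i)) →
  ∃ X : Abs, X.Au = Au ∧ X.Av = Av ∧ (∀ i, X.U i = U (ι i)) ∧
    ∀ φ i, X.Λ φ i ↔ Free c (ι i) (x + e a + e (φ + (a + π / 2)))

def DD1 : Prop := ∀ c : ℂ → Fin 5, Good c → ∀ x u v a, Tri c x u v → RS c x u v a →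
  ∃ ψ, ψ ≠ u ∧ ψ ≠ v ∧ Tendsto (G c ψ) (nae (x + e a)) (𝓝 0)

def TRI1 : Prop := ∀ c : ℂ → Fin 5, Good c → ∀ x u v a (ψ γ η : Fin 5), Tri c x u v →
  RS c x u v a → ({u, v, ψ, γ, η} : Finset (Fin 5)) = Finset.univ →
  Tendsto (G c ψ) (nae (x + e a)) (𝓝 0) →
  Tri c (x + e a) γ η ∧ ∀ E : Set ℝ, MeasurableSet E → Avoid c (x + e a) γ E →
    ∀ᵐ β : ℝ, β ∈ E → ¬ Free c γ (x + e a + e β)

def MOB : Prop := ∀ F : Set ℝ, MeasurableSet F → (∀ᵐ l : ℝ, l ∈ F ↔ 1 - 1 / l ∈ F) →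
  (∀ r : ℝ, 0 < r → ENNReal.ofReal (r / 2) ≤ volume (F ∩ Ioo 0 r) ∧
    ENNReal.ofReal (r / 2) ≤ volume (Fᶜ ∩ Ioo (-r) 0)) → False

/-- one-dimensional push-forward bound and limit for `l ↦ nrm s y (x + e (a + t l))` -/
def PUSH : Prop := ∀ (x : ℂ) (a s R : ℝ) (t : ℕ → ℝ) (y : ℕ → ℂ) (ω : ℂ), s = 1 ∨ s = -1 →
  (∀ n, 0 < t n) → Tendsto t atTop (𝓝 0) → ω.im ≠ 0 →
  Tendsto (fun n => (y n - (x + e a)) / (t n * e (a + π / 2))) atTop (𝓝 ω) →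
  (∃ C : ENNReal, C ≠ ⊤ ∧ ∀ᶠ n in atTop, ∀ N : Set ℝ,
    volume {l : ℝ | l ∈ Icc (-R) R ∧
      Complex.arg ((x + e (a + t n * l) - y n) / e (a + π / 2)) +
        s * arccos (‖x + e (a + t n * l) - y n‖ / 2) ∈ N} ≤ C * volume N) ∧
  ∀ l : ℝ, Tendsto (fun n => Complex.arg ((x + e (a + t n * l) - y n) / e (a + π / 2)) +
        s * arccos (‖x + e (a + t n * l) - y n‖ / 2)) atTop (𝓝 (Complex.arg (l - ω) + s * (π / 2)))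

/-- along `y n → x + e a` in direction `ω` with `G γ → 0` the rescaled `{u ∈ L_x}` converges -/
def D2A : Prop := ∀ c : ℂ → Fin 5, Good c → ∀ x u v a (ψ γ η : Fin 5) (ω : ℂ), Tri c x u v →
  ({u, v, ψ, γ, η} : Finset (Fin 5)) = Finset.univ → Tendsto (G c ψ) (nae (x + e a)) (𝓝 0) →
  Tri c (x + e a) γ η → ω.im ≠ 0 →
  (∀ ε : ℝ, 0 < ε → ∃ t : ℝ, 0 < t ∧ t < ε ∧
    volume {y : ℂ | ‖(y - (x + e a)) / (t * e (a + π / 2)) - ω‖ < ε ∧ G c γ y < ε} ≠ 0) →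
  ∃ t : ℕ → ℝ, Scales t ∧ ∀ R s : ℝ, s = 1 ∨ s = -1 →
    Tendsto (fun n => volume {l : ℝ | l ∈ Icc (-R) R ∧
      Free c γ (x + e a + e (Complex.arg (l - ω) + (a + π / 2) + s * (π / 2))) ∧
      ¬ (Free c u (x + e (a + t n * l)) ↔
          Free c u (x + e (Complex.arg (l - ω) + (a + π / 2) + s * (π / 2))))}) atTop (𝓝 0)

/-- axis purity -/
def DD2 : Prop := ∀ c : ℂ → Fin 5, Good c → ∀ x u v a (ψ γ η : Fin 5), Tri c x u v →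
  RS c x u v a → ({u, v, ψ, γ, η} : Finset (Fin 5)) = Finset.univ →
  Tendsto (G c ψ) (nae (x + e a)) (𝓝 0) → Tri c (x + e a) γ η →
  ∀ᶠ β in nae (a - π / 3), ¬ Free c γ (x + e (a + π / 3) + e β)

/-! ### Cycles -/

def TRIP : Prop := ∀ c : ℂ → Fin 5, Good c → ∀ x (S : Finset (Fin 5)), S.card = 3 → ¬ NS c x S

def LTWO : Prop := ∀ c : ℂ → Fin 5, Good c → ∀ x, ∀ᵐ θ : ℝ, ∀ i j k : Fin 5, i ≠ j → i ≠ k → j ≠ k →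
  ¬ (Free c i (x + e θ) ∧ Free c j (x + e θ) ∧ Free c k (x + e θ))

def NP : Prop := ∀ c : ℂ → Fin 5, Good c → ∀ x (i j k l : Fin 5) (θ₀ : ℝ),
  ({i, j, k, l} : Finset (Fin 5)).card = 4 →
  volume {θ : ℝ | Free c k (x + e θ) ∧ Free c l (x + e θ)} ≠ 0 →
  (∃ᶠ θ in nae θ₀, Free c i (x + e θ) ∧ Free c j (x + e θ)) →
  (∃ᶠ θ in nae (θ₀ + π / 3), Free c i (x + e θ) ∧ Free c j (x + e θ)) → False

def CONNL : Prop := ∀ (X Y : Type) [Finite X] (pat : ℝ → X) (Φ : X → Y),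
  (∀ (θ₀ : ℝ) (τ τ' : X), (∃ᶠ θ in nae θ₀, pat θ = τ) → (∃ᶠ θ in nae θ₀, pat θ = τ') → Φ τ = Φ τ') →
  ∃ y, ∀ᵐ θ : ℝ, Φ (pat θ) = y

/-- classes `0 = A`, `1 = B`, `2 = F` around a hexagon: both alternating types are non-null -/
def C4P : Prop := ∀ cl : ℝ → Fin 3, (∀ k, MeasurableSet {θ | cl θ = k}) →
  (∀ θ, cl (θ + 2 * π) = cl θ) →
  (∀ᵐ θ : ℝ, cl (θ + π / 3) ≠ cl θ ∧ ¬ (cl θ = 0 ∧ cl (θ + π) = 1)) →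
  (∀ (θ₀ : ℝ) (k : Fin 3), k ≠ 2 → (∃ᶠ θ in nae θ₀, cl θ = k) →
    (∃ᶠ θ in nae (θ₀ + π / 3), cl θ = k) → False) →
  volume {θ : ℝ | ∀ j : ℤ, cl (θ + j * (2 * π / 3)) = 0 ∧ cl (θ + π / 3 + j * (2 * π / 3)) = 2} ≠ 0 ∧
  volume {θ : ℝ | ∀ j : ℤ, cl (θ + j * (2 * π / 3)) = 1 ∧ cl (θ + π / 3 + j * (2 * π / 3)) = 2} ≠ 0

/-- a `60°`-periodic fan seen monochromatically by a `60°`-periodic family of lines is monochromatic -/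
def FANM : Prop := ∀ (D Δ : Set ℝ) (U U' : Set ℂ), MeasurableSet D → MeasurableSet Δ →
  MeasurableSet U → MeasurableSet U' → (∀ θ, θ + π / 3 ∈ D ↔ θ ∈ D) → (∀ θ, θ + π / 3 ∈ Δ ↔ θ ∈ Δ) →
  volume Δ ≠ 0 → (∀ᵐ W : ℂ, W ∈ Fan D → W ∈ U ∨ W ∈ U') →
  (∀ᵐ p : ℂ × ℂ, p.1 ∈ U → p.2 ∈ U' → Complex.arg (p.2 - p.1) ∉ Δ) →
  volume (U ∩ Fan D) = 0 ∨ volume (U' ∩ Fan D) = 0

/-- if every blow-up of a two-coloured fan is monochromatic, one of the colours dies -/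
def FANAV : Prop := ∀ c : ℂ → Fin 5, Good c → ∀ (x : ℂ) (i j : Fin 5) (D : Set ℝ), i ≠ j →
  MeasurableSet D → (∀ θ, θ + π ∈ D ↔ θ ∈ D) → volume D ≠ 0 →
  (∀ (ρ : ℕ → ℝ) (U : Fin 5 → Set ℂ), Scales ρ → (∀ k, Lim (Bl c x 0 ρ k) (U k)) →
    (∀ k, k ≠ i → k ≠ j → volume (U k ∩ Fan D) = 0) ∧
    (volume (U i ∩ Fan D) = 0 ∨ volume (U j ∩ Fan D) = 0)) →
  Tendsto (G c i) (nae x) (𝓝 0) ∨ Tendsto (G c j) (nae x) (𝓝 0)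

/-- two-coloured fan with no edge: one of the two colours dies (helper22, or `FANM`+`FANAV`+`BLE`) -/
def FANH : Prop := ∀ c : ℂ → Fin 5, Good c → ∀ (x : ℂ) (a b : Fin 5) (D J : Set ℝ), a ≠ b →
  ¬ NS c x {a, b} → MeasurableSet D → (∀ θ, θ + π / 3 ∈ D ↔ θ ∈ D) → volume D ≠ 0 →
  (∀ θ ∈ D, ∀ i, i ≠ a → i ≠ b →
    Free c i (x + e (θ + π / 2)) ∨ Free c i (x + e (θ - π / 2))) →
  MeasurableSet J → (∀ θ, θ + 2 * π / 3 ∈ J ↔ θ ∈ J) → volume J ≠ 0 →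
  (∀ i, i ≠ a → i ≠ b → Avoid c x i J) →
  Tendsto (G c a) (nae x) (𝓝 0) ∨ Tendsto (G c b) (nae x) (𝓝 0)

end Crest.Agent.R40
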