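import Crest.Agent.R40.DDefs
import Crest.Agent.R40.MBasic

set_option autoImplicit false

namespace Crest.Agent.R40
open MeasureTheory Set Filter Topology Real

namespace DThm

theorem e_eq (θ : ℝ) : e θ = Complex.exp (θ * Complex.I) := by simp [e, circleMap]

theorem e_sum (b : ℝ) : e (b + π / 3) + e (b - π / 3) = e b := by
  apply Complex.ext
  · simp only [e_eq, Complex.add_re, Complex.exp_ofReal_mul_I_re, cos_add, cos_sub, cos_pi_div_three]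
    ring
  · simp only [e_eq, Complex.add_im, Complex.exp_ofReal_mul_I_im, sin_add, sin_sub, cos_pi_div_three]
    ring

theorem im_e (b a : ℝ) : (e b * (starRingEnd ℂ) (e a)).im = sin (b - a) := by
  simp only [e_eq, Complex.mul_im, Complex.conj_re, Complex.conj_im, Complex.exp_ofReal_mul_I_re,
    Complex.exp_ofReal_mul_I_im, sin_sub]
  ring

theorem norm_e (b : ℝ) : ‖e b‖ = 1 := by simp [e]

theorem exists_rest (u v ψ : Fin 5) (h1 : u ≠ v) (h2 : ψ ≠ u) (h3 : ψ ≠ v) :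
    ∃ γ η : Fin 5, ({u, v, ψ, γ, η} : Finset (Fin 5)) = Finset.univ := by
  revert u v ψ; decide

theorem freq_of_RS {c : ℂ → Fin 5} {x : ℂ} {u v : Fin 5} {a : ℝ} (h : RS c x u v a) :
    (∃ᶠ α in nae a, Free c u (x + e α)) ∧ (∃ᶠ α in nae a, Free c v (x + e α)) := by
  constructor
  · rw [frequently_nae]
    intro δ hδ h0
    have h1 := (h δ hδ).1
    have h2 : volume {θ | θ ∈ Ioo (a - δ) a ∧ Free c u (x + e θ)} = 0 := by
      refine measure_mono_null (fun θ hθ => ?_) h0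
      refine ⟨?_, hθ.2⟩
      rw [Real.dist_eq, abs_lt]; constructor <;> linarith [hθ.1.1, hθ.1.2]
    rw [h2, nonpos_iff_eq_zero, ENNReal.ofReal_eq_zero] at h1
    linarith
  · rw [frequently_nae]
    intro δ hδ h0
    have h1 := (h δ hδ).2
    have h2 : volume {θ | θ ∈ Ioo a (a + δ) ∧ Free c v (x + e θ)} = 0 := by
      refine measure_mono_null (fun θ hθ => ?_) h0
      refine ⟨?_, hθ.2⟩
      rw [Real.dist_eq, abs_lt]; constructor <;> linarith [hθ.1.1, hθ.1.2]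
    rw [h2, nonpos_iff_eq_zero, ENNReal.ofReal_eq_zero] at h1
    linarith

theorem Tri_symm (h1 : RSE) {c : ℂ → Fin 5} (hc : Good c) {x : ℂ} {u v : Fin 5} (h : Tri c x u v) :
    Tri c x v u := (h1 c hc x u v h).1

/-- purity along the axis -/
theorem two (h1 : RSE) (h3 : TRI1) (h4 : DD2) {c : ℂ → Fin 5} (hc : Good c) {z : ℂ} {g h : Fin 5}
    {b : ℝ} (hT : Tri c z g h) (hR : RS c z g h b) {ψ₁ ψ₂ : Fin 5} (a1 : ψ₁ ≠ g) (a2 : ψ₁ ≠ h)
    (b1 : ψ₂ ≠ h) (b2 : ψ₂ ≠ g) (t1 : Tendsto (G c ψ₁) (nae (z + e b)) (𝓝 0))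
    (t2 : Tendsto (G c ψ₂) (nae (z + e (b + π / 3))) (𝓝 0)) :
    ψ₁ ≠ ψ₂ ∧ ∀ E : Set ℝ, MeasurableSet E → Avoid c (z + e (b + π / 3)) ψ₁ E →
      ∀ᶠ β in nae (b - π / 3), β ∉ E := by
  have hgh := hT.1
  obtain ⟨γ, η, hu⟩ := exists_rest g h ψ₁ hgh a1 a2
  have hu' : ({g, h, ψ₁, η, γ} : Finset (Fin 5)) = Finset.univ := by
    rw [← hu]; ext i; simp only [Finset.mem_insert, Finset.mem_singleton]; tauto
  have hT1 := (h3 c hc z g h b ψ₁ γ η hT hR hu t1).1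
  have p1 := h4 c hc z g h b ψ₁ γ η hT hR hu t1 hT1
  have p2 := h4 c hc z g h b ψ₁ η γ hT hR hu' t1 (Tri_symm h1 hc hT1)
  have hT' := Tri_symm h1 hc hT
  have hR' := (h1 c hc z g h hT).2.2 b hR
  haveI := nae_neBot (b - π / 3)
  have hne : ψ₁ ≠ ψ₂ := by
    rintro rfl
    have hv : ({h, g, ψ₁, γ, η} : Finset (Fin 5)) = Finset.univ := by
      rw [← hu]; ext i; simp only [Finset.mem_insert, Finset.mem_singleton]; tauto
    have hT2 := (h3 c hc z h g _ ψ₁ γ η hT' hR' hv t2).1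
    obtain ⟨β, q1, q2, q3⟩ := (p1.and (p2.and (eventually_nae_of_ae hT2.2))).exists
    exact q1 (q3.1.2 q2)
  refine ⟨hne, fun E hE hA => ?_⟩
  have key : ∀ g h ψ₁ ψ₂ γ η : Fin 5, ({g, h, ψ₁, γ, η} : Finset (Fin 5)) = Finset.univ →
      ψ₂ ≠ h → ψ₂ ≠ g → ψ₁ ≠ ψ₂ → ∃ ω : Fin 5, (ω = γ ∨ ω = η) ∧
        ({h, g, ψ₂, ψ₁, ω} : Finset (Fin 5)) = Finset.univ := by
    intro g h ψ₁ ψ₂ γ η hu b1 b2 hne
    have hm : ψ₂ ∈ ({g, h, ψ₁, γ, η} : Finset (Fin 5)) := by rw [hu]; exact Finset.mem_univ _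
    simp only [Finset.mem_insert, Finset.mem_singleton] at hm
    rcases hm with hm | hm | hm | hm | hm
    · exact absurd hm b2
    · exact absurd hm b1
    · exact absurd hm.symm hne
    · refine ⟨η, Or.inr rfl, ?_⟩
      rw [← hu, hm]; ext i; simp only [Finset.mem_insert, Finset.mem_singleton]; tauto
    · refine ⟨γ, Or.inl rfl, ?_⟩
      rw [← hu, hm]; ext i; simp only [Finset.mem_insert, Finset.mem_singleton]; tauto
  obtain ⟨ω, hω, hv⟩ := key g h ψ₁ ψ₂ γ η hu b1 b2 hne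
  obtain ⟨hT2, hF⟩ := h3 c hc z h g _ ψ₂ ψ₁ ω hT' hR' hv t2
  filter_upwards [p1, p2, eventually_nae_of_ae hT2.2, eventually_nae_of_ae (hF E hE hA)]
    with β q1 q2 q3 q4 hβ
  apply q4 hβ
  apply q3.1.2
  rcases hω with rfl | rfl
  · exact q1
  · exact q2

theorem fin (h1 : RSE) (h2 : DD1) (h3 : TRI1) (h4 : DD2) (h5 : EXA) (h6 : RULE)
    {c : ℂ → Fin 5} (hc : Good c) {x : ℂ} {a : ℝ} {g h : Fin 5}
    {b : ℝ} (hT : Tri c (x + e a) g h) (hR : RS c (x + e a) g h b) {ψ₁ : Fin 5} (a1 : ψ₁ ≠ g)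
    (a2 : ψ₁ ≠ h) (t1 : Tendsto (G c ψ₁) (nae (x + e a + e b)) (𝓝 0)) (hs : sin (b - a) ≠ 0)
    (hf : ∃ᶠ α in nae a, Free c ψ₁ (x + e α)) : False := by
  have hT' := Tri_symm h1 hc hT
  have hR' := (h1 c hc _ g h hT).2.2 b hR
  obtain ⟨ψ₂, b1, b2, t2⟩ := h2 c hc _ h g _ hT' hR'
  obtain ⟨-, hP⟩ := two h1 h3 h4 hc hT hR a1 a2 b1 b2 t1 t2
  have hd : x + e a + e (b + π / 3) + e (b - π / 3) - x - e a = e b := by
    rw [← e_sum b]; ring
  have hs3 : sin (b - (b - π / 3)) ≠ 0 := by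
    rw [show b - (b - π / 3) = π / 3 by ring, sin_pi_div_three]; positivity
  obtain ⟨A, hAm, hAc, hA0, hA1, hAP⟩ := h5 x (x + e a + e (b + π / 3)) (b - π / 3) a
    (by rw [hd]; exact norm_e b) (by rw [hd, im_e]; exact hs) (by rw [hd, im_e]; exact hs3)
  obtain ⟨ε, hε, hAv⟩ := h6 c hc x (x + e a + e (b + π / 3)) (b - π / 3) A ψ₁ hAc hA1
    (by rw [hA0, hd, im_e]; exact hs) (by rw [hA0, hd, im_e]; exact hs3)
  have hmeas : MeasurableSet {β | β ∈ Ioo (b - π / 3 - ε) (b - π / 3 + ε) ∧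
      Free c ψ₁ (x + e (A β))} := by
    refine measurableSet_Ioo.inter ?_
    have hm : Measurable fun β : ℝ => x + e (A β) :=
      measurable_const.add ((continuous_circleMap 0 1).measurable.comp hAm)
    exact hm ((basic c hc).2.1 ψ₁)
  have e1 := hP _ hmeas hAv
  have e2 : ∀ᶠ β in nae (b - π / 3), β ∈ Ioo (b - π / 3 - ε) (b - π / 3 + ε) :=
    eventually_nae_of_nhds (Ioo_mem_nhds (by linarith) (by linarith))
  obtain ⟨β, q1, q2, q3⟩ := ((hAP _ hf).and_eventually (e1.and e2)).exists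
  exact q2 ⟨q3, q1⟩

theorem sin_ne {t : ℝ} (h : sin t = 0) : sin (t + π / 3) ≠ 0 ∧ sin (t + π / 3 + π / 3) ≠ 0 := by
  have hc : cos t ≠ 0 := by
    intro h0
    have := sin_sq_add_cos_sq t
    rw [h, h0] at this; norm_num at this
  have h3 : (√3 : ℝ) ≠ 0 := by positivity
  constructor
  · rw [sin_add, h, sin_pi_div_three]
    simp [hc]
  · rw [sin_add, sin_add, cos_add, h, sin_pi_div_three, cos_pi_div_three]
    have : 0 * (1 / 2) + cos t * (√3 / 2) = cos t * √3 / 2 := by ring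
    intro h0
    have h1 : cos t * √3 = 0 := by linarith
    exact mul_ne_zero hc h3 h1

end DThm

open DThm in
theorem thmd (h1 : RSE) (h2 : DD1) (h3 : TRI1) (h4 : DD2) (h5 : EXA) (h6 : RULE) : THMD := by
  intro c hc x u v hT
  obtain ⟨a, hR⟩ := (h1 c hc x u v hT).2.1
  obtain ⟨ψ, a1, a2, t⟩ := h2 c hc x u v a hT hR
  obtain ⟨γ, η, hu⟩ := exists_rest u v ψ hT.1 a1 a2
  have hT1 := (h3 c hc x u v a ψ γ η hT hR hu t).1
  obtain ⟨fu, fv⟩ := freq_of_RS hR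
  have main : ∀ (g h : Fin 5) (b : ℝ), ({u, v, ψ, g, h} : Finset (Fin 5)) = Finset.univ →
      Tri c (x + e a) g h → RS c (x + e a) g h b → sin (b - a) ≠ 0 → sin (b + π / 3 - a) ≠ 0 →
      False := by
    intro g h b hv hT hR s1 s2
    have hT' := Tri_symm h1 hc hT
    have hR' := (h1 c hc _ g h hT).2.2 b hR
    obtain ⟨ψ₁, c1, c2, t1⟩ := h2 c hc _ g h _ hT hR
    obtain ⟨ψ₂, b1, b2, t2⟩ := h2 c hc _ h g _ hT' hR'
    obtain ⟨hne, -⟩ := two h1 h3 h4 hc hT hR c1 c2 b1 b2 t1 t2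
    have m1 : ψ₁ ∈ ({u, v, ψ, g, h} : Finset (Fin 5)) := by rw [hv]; exact Finset.mem_univ _
    have m2 : ψ₂ ∈ ({u, v, ψ, g, h} : Finset (Fin 5)) := by rw [hv]; exact Finset.mem_univ _
    simp only [Finset.mem_insert, Finset.mem_singleton] at m1 m2
    rcases m1 with m1 | m1 | m1 | m1 | m1
    · exact fin h1 h2 h3 h4 h5 h6 hc hT hR c1 c2 t1 s1 (m1 ▸ fu)
    · exact fin h1 h2 h3 h4 h5 h6 hc hT hR c1 c2 t1 s1 (m1 ▸ fv)
    · rcases m2 with m2 | m2 | m2 | m2 | m2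
      · exact fin h1 h2 h3 h4 h5 h6 hc hT' hR' b1 b2 t2 s2 (m2 ▸ fu)
      · exact fin h1 h2 h3 h4 h5 h6 hc hT' hR' b1 b2 t2 s2 (m2 ▸ fv)
      · exact hne (m1.trans m2.symm)
      · exact b2 m2
      · exact b1 m2
    · exact c1 m1
    · exact c2 m1
  have hu' : ({u, v, ψ, η, γ} : Finset (Fin 5)) = Finset.univ := by
    rw [← hu]; ext i; simp only [Finset.mem_insert, Finset.mem_singleton]; tauto
  obtain ⟨b, hb⟩ := (h1 c hc _ γ η hT1).2.1
  have hT1' := Tri_symm h1 hc hT1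
  have hb1 := (h1 c hc _ γ η hT1).2.2 b hb
  have hb2 := (h1 c hc _ η γ hT1').2.2 _ hb1
  by_cases s0 : sin (b - a) = 0
  · obtain ⟨q1, q2⟩ := sin_ne s0
    exact main η γ _ hu' hT1' hb1 (by convert q1 using 2; ring) (by convert q2 using 2; ring)
  by_cases s1 : sin (b + π / 3 - a) = 0
  · obtain ⟨q1, q2⟩ := sin_ne s1
    exact main γ η _ hu hT1 hb2 (by convert q1 using 2; ring) (by convert q2 using 2; ring)
  exact main γ η b hu hT1 hb s0 s1

end Crest.Agent.R40
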