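import Crest.Agent.R40.DDefs
import Crest.Agent.R40.MBasic

/-! Row 40: `DD ⇒ Tri`, triples, `|L| ≤ 2`, triangles. -/

set_option autoImplicit false

namespace Crest.Agent.R40
open MeasureTheory Set Filter Topology Real

theorem dtrip_meas {c : ℂ → Fin 5} (hc : Good c) (i : Fin 5) (x : ℂ) (a : ℝ) :
    MeasurableSet {θ : ℝ | Free c i (x + e (θ + a))} := by
  have hce : Continuous e := continuous_e
  have : Measurable fun θ : ℝ => x + e (θ + a) := by fun_prop
  exact this (measurableSet_free hc.1 i)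

theorem dtrip_meas0 {c : ℂ → Fin 5} (hc : Good c) (i : Fin 5) (x : ℂ) :
    MeasurableSet {θ : ℝ | Free c i (x + e θ)} := by
  simpa using dtrip_meas hc i x 0

theorem dtrip_meas_sub {c : ℂ → Fin 5} (hc : Good c) (i : Fin 5) (x : ℂ) (a : ℝ) :
    MeasurableSet {θ : ℝ | Free c i (x + e (θ - a))} := by
  simpa [sub_eq_add_neg] using dtrip_meas hc i x (-a)

/-- local-to-global for null sets on the line -/
theorem dtrip_ae_of_nae {p : ℝ → Prop} (h : ∀ θ₀ : ℝ, ∀ᶠ θ in nae θ₀, p θ) : ∀ᵐ θ : ℝ, p θ := by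
  rw [ae_iff]
  refine measure_null_of_locally_null _ fun θ₀ _ => ?_
  obtain ⟨δ, hδ, hae⟩ := eventually_nae.1 (h θ₀)
  refine ⟨{a | ¬ p a} ∩ Metric.ball θ₀ δ, inter_mem_nhdsWithin _ (Metric.ball_mem_nhds _ hδ), ?_⟩
  rw [ae_iff] at hae
  refine measure_mono_null ?_ hae
  rintro y ⟨hy1, hy2⟩ hy
  exact hy1 (hy hy2)

theorem ddtri (h1 : AV1) (h2 : AV2) (hA : AVAPI) (hD : THMD) : THMDD := by
  intro c hc x s t hDD
  apply hD c hc x s t
  refine ⟨hDD.1, ?_⟩
  let E : Fin 5 → Set ℝ := fun i => {θ | ¬ Free c i (x + e θ)} ∪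
    ({θ | Free c i (x + e (θ + π / 3))} ∪ {θ | Free c i (x + e (θ - π / 3))})
  have hEm : ∀ i, MeasurableSet (E i) := fun i =>
    (dtrip_meas0 hc i x).compl.union ((dtrip_meas hc i x _).union (dtrip_meas_sub hc i x _))
  have hEa : ∀ i, Avoid c x i (E i) := fun i =>
    (hA c hc x i).2.2.1 _ _ (h1 c hc x i)
      ((hA c hc x i).2.2.1 _ _ (h2 c hc x i).1 (h2 c hc x i).2)
  have h0 := hDD.2 (E s) (E t) (hEm s) (hEm t) (hEa s) (hEa t)
  have hs := (measurePreserving_add_right volume (π / 3)).quasiMeasurePreserving.ae h0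
  filter_upwards [h0, hs] with θ ha hb
  simp only [E, mem_union, mem_ofPred_eq, add_sub_cancel_right] at ha hb
  tauto

theorem trip (hK : KEY) (hD : THMDD) : TRIP := by
  classical
  intro c hc x S hS hN
  have hcard : Sᶜ.card = 2 := by
    rw [Finset.card_compl, hS]; rfl
  obtain ⟨s, t, hst, hS2⟩ := Finset.card_eq_two.1 hcard
  have hmem : ∀ i, i ∉ S → i = s ∨ i = t := by
    intro i hi
    have : i ∈ Sᶜ := Finset.mem_compl.2 hi
    rw [hS2] at this
    simpa using this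
  apply hD c hc x s t
  refine ⟨hst, fun Es Et hEs hEt has hat => ?_⟩
  have hk := hK c hc x S (fun i => if i = s then Es else Et) hN
    (fun i => by split_ifs <;> assumption)
    (fun i hi => by
      rcases hmem i hi with h | h
      · subst h; simpa using has
      · subst h; simpa [hst.symm] using hat)
  filter_upwards [hk] with θ hθ
  obtain ⟨i, -, hi⟩ := hθ
  by_cases h : i = s
  · left; simpa [h] using hi
  · right; simpa [h] using hi

theorem ltwo (hN : NSL) (hT : TRIP) : LTWO := by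
  classical
  intro c hc x
  simp only [ae_all_iff]
  intro i j k hij hik hjk
  apply dtrip_ae_of_nae
  intro θ₀
  by_contra hne
  apply hT c hc (x + e θ₀) {i, j, k}
  · rw [Finset.card_eq_three]
    exact ⟨i, j, k, hij, hik, hjk, rfl⟩
  · apply hN c hc x _ θ₀
    rw [Filter.not_eventually] at hne
    refine hne.mono fun θ hθ l hl => ?_
    have hθ' := not_not.1 hθ
    simp only [Finset.mem_insert, Finset.mem_singleton] at hl
    rcases hl with h | h | h
    · rw [h]; exact hθ'.1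
    · rw [h]; exact hθ'.2.1
    · rw [h]; exact hθ'.2.2

theorem tri0 (hK : KEY) (h1 : AV1) (_hA : AVAPI) (hL : LTWO) (hD : THMDD) : TRI0 := by
  classical
  intro c hc x h01 h12 h20
  apply hD c hc x 3 4
  refine ⟨by decide, fun E3 E4 hE3 hE4 ha3 ha4 => ?_⟩
  let A : Fin 5 → Set ℝ := fun i =>
    if i = 3 then E3 else if i = 4 then E4 else {θ | ¬ Free c i (x + e θ)}
  have hAm : ∀ i, MeasurableSet (A i) := fun i => by
    simp only [A]
    split_ifs
    · exact hE3
    · exact hE4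
    · exact (dtrip_meas0 hc i x).compl
  have hAa : ∀ i, Avoid c x i (A i) := fun i => by
    simp only [A]
    split_ifs with h3 h4
    · rw [h3]; exact ha3
    · rw [h4]; exact ha4
    · exact h1 c hc x i
  have k1 := hK c hc x _ A h01 hAm (fun i _ => hAa i)
  have k2 := hK c hc x _ A h12 hAm (fun i _ => hAa i)
  have k3 := hK c hc x _ A h20 hAm (fun i _ => hAa i)
  filter_upwards [k1, k2, k3, hL c hc x] with θ a1 a2 a3 hl
  by_contra hne
  push Not at hne
  have key : ∀ i, θ ∉ A i → i ≠ 3 ∧ i ≠ 4 ∧ Free c i (x + e θ) := by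
    intro i hi
    simp only [A] at hi
    split_ifs at hi with h3 h4
    · exact absurd hne.1 hi
    · exact absurd hne.2 hi
    · exact ⟨h3, h4, not_not.1 hi⟩
  obtain ⟨i1, hi1, hb1⟩ := a1
  obtain ⟨i2, hi2, hb2⟩ := a2
  obtain ⟨i3, hi3, hb3⟩ := a3
  obtain ⟨p1, q1, f1⟩ := key i1 hb1
  obtain ⟨p2, q2, f2⟩ := key i2 hb2
  obtain ⟨p3, q3, f3⟩ := key i3 hb3
  have e1 : i1 = 2 :=
    (by decide : ∀ i : Fin 5, i ∉ ({0, 1} : Finset (Fin 5)) → i ≠ 3 → i ≠ 4 → i = 2) i1 hi1 p1 q1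
  have e2 : i2 = 0 :=
    (by decide : ∀ i : Fin 5, i ∉ ({1, 2} : Finset (Fin 5)) → i ≠ 3 → i ≠ 4 → i = 0) i2 hi2 p2 q2
  have e3 : i3 = 1 :=
    (by decide : ∀ i : Fin 5, i ∉ ({2, 0} : Finset (Fin 5)) → i ≠ 3 → i ≠ 4 → i = 1) i3 hi3 p3 q3
  subst e1 e2 e3
  exact hl 0 1 2 (by decide) (by decide) (by decide) ⟨f2, f3, f1⟩

end Crest.Agent.R40
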