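import Crest.Agent.R40.EdgeFun

set_option autoImplicit false

namespace Crest.Agent.R40.Edge

open MeasureTheory Real Set Metric

lemma exists_shift (A B : Set ℂ) (hA : MeasurableSet A) (hB : MeasurableSet B) (x : ℂ) (r κ : ℝ)
    (hr : 0 < r) (hκ : 0 < κ) (hAx : A ⊆ ball x r) (hBx : B ⊆ ball x r)
    (h1 : ENNReal.ofReal (κ * r ^ 2) ≤ volume A) (h2 : ENNReal.ofReal (κ * r ^ 2) ≤ volume B) :
    ∃ v : ℂ, ‖v‖ < 2 * r ∧ ENNReal.ofReal (κ ^ 2 * r ^ 2 / 16) < volume {y | y ∈ A ∧ y + v ∈ B} := by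
  by_contra hcon
  push Not at hcon
  set S : Set (ℂ × ℂ) := {q | q.1 ∈ A ∧ q.1 + q.2 ∈ B} with hS
  have hSm : MeasurableSet S :=
    (measurable_fst hA).inter ((measurable_fst.add measurable_snd) hB)
  have e1 : (volume.prod volume) S = volume A * volume B := by
    rw [Measure.prod_apply hSm]
    have : ∀ y : ℂ, volume (Prod.mk y ⁻¹' S) = A.indicator (fun _ => volume B) y := by
      intro y
      by_cases hy : y ∈ A
      · rw [indicator_of_mem hy, ← measure_preimage_add volume y B]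
        congr 1; ext v; simp [hS, hy]
      · rw [indicator_of_notMem hy]
        have : Prod.mk y ⁻¹' S = ∅ := by ext v; simp [hS, hy]
        rw [this, measure_empty]
    simp only [this]
    rw [lintegral_indicator_const hA, mul_comm]
  have e2 : (volume.prod volume) S ≤
      ENNReal.ofReal (κ ^ 2 * r ^ 2 / 16) * volume (ball (0 : ℂ) (2 * r)) := by
    rw [Measure.prod_apply_symm hSm, ← lintegral_indicator_const measurableSet_ball]
    refine lintegral_mono fun v => ?_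
    by_cases hv : v ∈ ball (0 : ℂ) (2 * r)
    · rw [indicator_of_mem hv]
      exact hcon v (by simpa using hv)
    · have : (fun y => (y, v)) ⁻¹' S = ∅ := by
        ext y
        simp only [hS, mem_preimage, mem_ofPred_eq, mem_empty_iff_false, iff_false, not_and]
        intro hy hy2
        apply hv
        have a1 := mem_ball_iff_norm.1 (hAx hy)
        have a2 := mem_ball_iff_norm.1 (hBx hy2)
        have a3 := norm_sub_le (y + v - x) (y - x)
        rw [show y + v - x - (y - x) = v by ring] at a3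
        rw [mem_ball_zero_iff]; linarith
      rw [this, measure_empty]; exact zero_le
  have e3 : ENNReal.ofReal (κ * r ^ 2) * ENNReal.ofReal (κ * r ^ 2) ≤ volume A * volume B :=
    mul_le_mul' h1 h2
  rw [← e1] at e3
  have e4 := e3.trans e2
  rw [Complex.volume_ball, ← ENNReal.ofReal_pow (by positivity), ← ENNReal.ofReal_coe_nnreal,
    ← ENNReal.ofReal_mul (by positivity), ← ENNReal.ofReal_mul (by positivity),
    ← ENNReal.ofReal_mul (by positivity), ENNReal.ofReal_le_ofReal_iff (by positivity)] at e4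
  have hp : π < 4 := Real.pi_lt_four
  simp only [NNReal.coe_real_pi] at e4
  have : 0 < κ ^ 2 * r ^ 4 := by positivity
  nlinarith

lemma chain (A B E Q : Set ℂ) (hQ : ∀ y ∈ Q, y ∈ A ∨ y ∈ B ∨ y ∈ E) (h : ℂ) (n : ℕ) (y : ℂ)
    (hy : y ∈ A) (hm : ∀ m ≤ n, y + (m : ℂ) * h ∈ Q) (hn : y + (n : ℂ) * h ∉ A) :
    ∃ m < n, (y + (m : ℂ) * h ∈ A ∧ y + (m : ℂ) * h + h ∈ B) ∨ y + (m : ℂ) * h + h ∈ E := by
  induction n with
  | zero => exact absurd (by simpa using hy) hn
  | succ n ih =>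
    by_cases hA : y + (n : ℂ) * h ∈ A
    · have e : y + ((n + 1 : ℕ) : ℂ) * h = y + (n : ℂ) * h + h := by push_cast; ring
      refine ⟨n, Nat.lt_succ_self n, ?_⟩
      rcases hQ _ (hm (n + 1) le_rfl) with h1 | h1 | h1
      · exact absurd h1 hn
      · exact Or.inl ⟨hA, e ▸ h1⟩
      · exact Or.inr (e ▸ h1)
    · obtain ⟨m, hm1, hm2⟩ := ih (fun m hm' => hm m (hm'.trans (Nat.le_succ n))) hA
      exact ⟨m, hm1.trans (Nat.lt_succ_self n), hm2⟩

lemma chain_vol (A B E Q : Set ℂ) (hQc : Convex ℝ Q) (hAQ : A ⊆ Q) (hBQ : B ⊆ Q)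
    (hd : Disjoint A B) (hQ : ∀ y ∈ Q, y ∈ A ∨ y ∈ B ∨ y ∈ E) (h : ℂ) (n : ℕ) (hn : 0 < n) :
    volume {y | y ∈ A ∧ y + (n : ℂ) * h ∈ B} ≤
      n * (volume {y | y ∈ A ∧ y + h ∈ B} + volume E) := by
  set W := {y | y ∈ A ∧ y + h ∈ B}
  have hs : {y | y ∈ A ∧ y + (n : ℂ) * h ∈ B} ⊆ ⋃ m ∈ Finset.range n,
      ((fun y => y + (m : ℂ) * h) ⁻¹' W ∪ (fun y => y + ((m : ℂ) * h + h)) ⁻¹' E) := by
    rintro y ⟨hy1, hy2⟩
    have hn' : (0 : ℝ) < n := by exact_mod_cast hn
    obtain ⟨m, hm, hm2⟩ := chain A B E Q hQ h n y hy1 (fun m hm => by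
      have hm' : (m : ℝ) ≤ n := by exact_mod_cast hm
      have := hQc (hAQ hy1) (hBQ hy2) (a := 1 - m / n) (b := m / n)
        (by rw [sub_nonneg, div_le_one hn']; exact hm') (by positivity) (by ring)
      convert this using 1
      have : (n : ℂ) ≠ 0 := by exact_mod_cast hn.ne'
      simp only [Complex.real_smul]
      push_cast
      field_simp
      ring) (fun hA => Set.disjoint_left.1 hd hA hy2)
    simp only [mem_iUnion, Finset.mem_range]
    refine ⟨m, hm, ?_⟩
    rcases hm2 with h1 | h1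
    · exact Or.inl h1
    · right; simpa [add_assoc] using h1
  refine (measure_mono hs).trans ((measure_biUnion_finset_le _ _).trans ?_)
  refine (Finset.sum_le_card_nsmul _ _ (volume W + volume E) fun m _ => ?_).trans
    (by rw [Finset.card_range, nsmul_eq_mul])
  refine (measure_union_le _ _).trans ?_
  rw [measure_preimage_add_right, measure_preimage_add_right]

/-- colour class cut to an annulus -/
noncomputable def cut (c : ℂ → Fin 5) (x : ℂ) (r : ℝ) (j : Fin 5) : ℂ → ℝ :=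
  (c ⁻¹' {j} ∩ (ball x (1 + r) \ closedBall x (1 - r))).indicator 1

lemma cut_good {c : ℂ → Fin 5} (hc : Measurable c) (x : ℂ) (r : ℝ) (j : Fin 5) :
    cut c x r j ∈ Good := by
  refine ⟨measurable_const.indicator ((hc (measurableSet_singleton j)).inter
    (measurableSet_ball.diff measurableSet_closedBall)), ⟨1, fun y => ?_⟩, ‖x‖ + (1 + r),
    fun y hy => ?_⟩
  · unfold cut; by_cases hy : y ∈ c ⁻¹' {j} ∩ (ball x (1 + r) \ closedBall x (1 - r))
    · rw [indicator_of_mem hy]; simp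
    · rw [indicator_of_notMem hy]; simp
  · apply indicator_of_notMem
    rintro ⟨-, h1, -⟩
    have a1 := mem_ball_iff_norm.1 h1
    have a2 := norm_add_le (y - x) x
    rw [sub_add_cancel] at a2
    linarith

lemma cut_sq {c : ℂ → Fin 5} (hc : Measurable c) (x : ℂ) (r : ℝ) (hr : 0 < r) (hr1 : r ≤ 1)
    (j : Fin 5) : ∫ y, cut c x r j y ^ 2 ≤ 16 * r := by
  have hm : MeasurableSet (c ⁻¹' {j} ∩ (ball x (1 + r) \ closedBall x (1 - r))) :=
    (hc (measurableSet_singleton j)).inter (measurableSet_ball.diff measurableSet_closedBall)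
  have e : (fun y => cut c x r j y ^ 2) = cut c x r j := by
    ext y; unfold cut
    by_cases hy : y ∈ c ⁻¹' {j} ∩ (ball x (1 + r) \ closedBall x (1 - r))
    · rw [indicator_of_mem hy]; simp
    · rw [indicator_of_notMem hy]; simp
  rw [e, cut, integral_indicator_one hm]
  have hfin : volume (ball x (1 + r)) ≠ ⊤ := measure_ball_lt_top.ne
  have h1 : volume.real (c ⁻¹' {j} ∩ (ball x (1 + r) \ closedBall x (1 - r))) ≤
      volume.real (ball x (1 + r) \ closedBall x (1 - r)) :=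
    measureReal_mono inter_subset_right (measure_ne_top_of_subset sdiff_subset hfin)
  refine h1.trans ?_
  have hsub : closedBall x (1 - r) ⊆ ball x (1 + r) := closedBall_subset_ball (by linarith)
  rw [measureReal_sdiff hsub measurableSet_closedBall hfin]
  simp only [Measure.real, Complex.volume_ball, Complex.volume_closedBall, ENNReal.toReal_mul,
    ENNReal.toReal_pow, ENNReal.coe_toReal, NNReal.coe_real_pi]
  rw [ENNReal.toReal_ofReal (by linarith), ENNReal.toReal_ofReal (by linarith)]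
  have hp : π < 4 := Real.pi_lt_four
  nlinarith

lemma Gc_cut {c : ℂ → Fin 5} (hc : Measurable c) (x : ℂ) (r : ℝ) (j : Fin 5) (y : ℂ)
    (hy : y ∈ ball x r) : Gc (cut c x r j) y = (1 / (2 * π)) *
      (volume {th : ℝ | th ∈ Ioc 0 (2 * π) ∧ c (y + circleMap 0 1 th) = j}).toReal := by
  unfold Gc
  congr 1
  have hm : MeasurableSet {th : ℝ | c (y + circleMap 0 1 th) = j} :=
    (hc.comp (measurable_const.add meas_e)) (measurableSet_singleton j)
  have e : (fun th : ℝ => cut c x r j (y + circleMap 0 1 th)) =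
      {th : ℝ | c (y + circleMap 0 1 th) = j}.indicator 1 := by
    ext th
    have a0 : ‖circleMap 0 1 th‖ = 1 := by simp
    have a1 := mem_ball_iff_norm.1 hy
    have a2 := norm_add_le (y - x) (circleMap 0 1 th)
    have a3 := norm_sub_le (y - x + circleMap 0 1 th) (y - x)
    rw [add_sub_cancel_left] at a3
    have a4 : y + circleMap 0 1 th - x = y - x + circleMap 0 1 th := by ring
    have hin : y + circleMap 0 1 th ∈ ball x (1 + r) \ closedBall x (1 - r) := by
      constructor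
      · rw [mem_ball_iff_norm, a4]; linarith
      · rw [mem_closedBall_iff_norm, a4]; intro h; linarith
    unfold cut
    by_cases h : c (y + circleMap 0 1 th) = j
    · have h' : y + circleMap 0 1 th ∈ c ⁻¹' {j} ∩ (ball x (1 + r) \ closedBall x (1 - r)) :=
        ⟨h, hin⟩
      rw [indicator_of_mem h', indicator_of_mem (show th ∈ _ from h)]
      rfl
    · rw [indicator_of_notMem (fun h' => h h'.1), indicator_of_notMem (show th ∉ _ from h)]
  rw [e, intervalIntegral.integral_of_le (by positivity), integral_indicator_one hm, Measure.real,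
    Measure.restrict_apply hm]
  congr 2
  ext th; simp [and_comm]

/-- (E): a small convex set coloured by `X ∪ Y` up to `δ`, with both `X` and `Y` present, has a
positive measure set of points whose unit circles nearly avoid a colour of `X` and one of `Y`. -/
theorem edgeU (hB : BStmt) (ε κ : ℝ) (hε : 0 < ε) (hκ : 0 < κ) :
    ∃ δ : ℝ, 0 < δ ∧ ∀ (c : ℂ → Fin 5), Measurable c →
      (∀ᵐ z : ℂ, volume {th : ℝ | th ∈ Ioc 0 (2 * π) ∧ c (z + circleMap 0 1 th) = c z} = 0) →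
      ∀ (x : ℂ) (r : ℝ), 0 < r → r ≤ 1 → ∀ Q : Set ℂ, Convex ℝ Q →
      MeasurableSet Q → Q ⊆ ball x r → ∀ X Y : Finset (Fin 5), Disjoint X Y →
      volume {y | y ∈ Q ∧ c y ∉ X ∧ c y ∉ Y} ≤ ENNReal.ofReal (δ * r ^ 2) →
      ENNReal.ofReal (κ * r ^ 2) ≤ volume {y | y ∈ Q ∧ c y ∈ X} →
      ENNReal.ofReal (κ * r ^ 2) ≤ volume {y | y ∈ Q ∧ c y ∈ Y} →
      ∃ i ∈ X, ∃ j ∈ Y, 0 < volume {y | y ∈ Q ∧
        volume {th : ℝ | th ∈ Ioc 0 (2 * π) ∧ c (y + circleMap 0 1 th) = i} < ENNReal.ofReal ε ∧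
        volume {th : ℝ | th ∈ Ioc 0 (2 * π) ∧ c (y + circleMap 0 1 th) = j} < ENNReal.ofReal ε} := by
  obtain ⟨C, hC, hD⟩ := dyadic hB
  set a : ℝ := (ε / (2 * π)) ^ 2 with ha
  have ha0 : 0 < a := by positivity
  set η : ℝ := κ ^ 2 / 32 * a / (480 * C) with hη
  have hη0 : 0 < η := by positivity
  obtain ⟨p, hp⟩ : ∃ p : ℕ, 5 / (2 : ℝ) ^ p ≤ η / 2 := by
    obtain ⟨p, hp⟩ := pow_unbounded_of_one_lt (10 / η) (one_lt_two (α := ℝ))
    refine ⟨p, ?_⟩
    rw [div_lt_iff₀ hη0] at hp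
    rw [div_le_iff₀ (by positivity)]; linarith
  obtain ⟨K, hK⟩ := exists_nat_gt (4 * p / η)
  have hK0 : (0 : ℝ) < K := lt_of_le_of_lt (by positivity) hK
  have hK1 : 2 * p / (K : ℝ) ≤ η / 2 := by
    rw [div_lt_iff₀ hη0] at hK
    rw [div_le_iff₀ hK0]; linarith
  set N := 2 * p * K with hN
  refine ⟨κ ^ 2 / 32 / 2 ^ N, by positivity, ?_⟩
  intro c hc h0 x r hr hr1 Q hQc hQm hQx X Y hXY hE hA hBv
  by_contra hcon
  push Not at hcon
  set G : Fin 5 → ℂ → ENNReal := fun i y =>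
    volume {th : ℝ | th ∈ Ioc 0 (2 * π) ∧ c (y + circleMap 0 1 th) = i} with hG
  set A := {y | y ∈ Q ∧ c y ∈ X} with hAd
  set B := {y | y ∈ Q ∧ c y ∈ Y} with hBd
  set E := {y | y ∈ Q ∧ c y ∉ X ∧ c y ∉ Y} with hEd
  have hAm : MeasurableSet A := hQm.inter (hc (X : Set (Fin 5)).toFinite.measurableSet)
  have hBm : MeasurableSet B := hQm.inter (hc (Y : Set (Fin 5)).toFinite.measurableSet)
  obtain ⟨v, hv, hvol⟩ := exists_shift A B hAm hBm x r κ hr hκ (fun y hy => hQx hy.1)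
    (fun y hy => hQx hy.1) hA hBv
  obtain ⟨k, hk0, hle⟩ := hD p K (by exact_mod_cast hK0) (v / 2 ^ N)
    (fun j => ⟨cut c x r j, cut_good hc x r j⟩)
  have hk : k ≤ N := hk0
  clear_value N
  set h : ℂ := ((2 ^ k : ℕ) : ℂ) * (v / 2 ^ N) with hh
  have hnv : ((2 ^ (N - k) : ℕ) : ℂ) * h = v := by
    rw [hh, ← mul_assoc, ← Nat.cast_mul, ← pow_add, Nat.sub_add_cancel hk]
    push_cast; field_simp
  have hch := chain_vol A B E Q hQc (fun y hy => hy.1) (fun y hy => hy.1)
    (Set.disjoint_left.2 fun y h1 h2 => Finset.disjoint_left.1 hXY h1.2 h2.2)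
    (fun y hy => by
      by_cases h1 : c y ∈ X
      · exact Or.inl ⟨hy, h1⟩
      by_cases h2 : c y ∈ Y
      · exact Or.inr (Or.inl ⟨hy, h2⟩)
      · exact Or.inr (Or.inr ⟨hy, h1, h2⟩)) h (2 ^ (N - k)) (by positivity)
  rw [hnv] at hch
  set W := {y | y ∈ A ∧ y + h ∈ B} with hW
  have hWm : MeasurableSet W := hAm.inter ((measurable_id.add_const h) hBm)
  have hWfin : volume W ≠ ⊤ :=
    measure_ne_top_of_subset (fun y hy => hQx hy.1.1) (measure_ball_lt_top (x := x) (r := r)).ne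
  -- lower bound of the squared differences on `W`
  have hint : ∀ j, Integrable fun y => (Gc (cut c x r j) (y + h) - Gc (cut c x r j) y) ^ 2 :=
    fun j => integrable_sq (TT h (MM ⟨cut c x r j, cut_good hc x r j⟩) -
      MM ⟨cut c x r j, cut_good hc x r j⟩)
  have hWle : a * volume.real W ≤
      ∑ j, ∫ y, (Gc (cut c x r j) (y + h) - Gc (cut c x r j) y) ^ 2 := by
    rw [← integral_finsetSum _ fun j _ => hint j]
    have e : a * volume.real W = ∫ y, W.indicator (fun _ => a) y := by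
      rw [integral_indicator_const a hWm, smul_eq_mul, mul_comm]
    rw [e]
    refine integral_mono_ae ((integrableOn_const hWfin).integrable_indicator hWm)
      (integrable_finsetSum _ fun j _ => hint j) ?_
    have z1 : ∀ᵐ y : ℂ, G (c (y + h)) (y + h) = 0 :=
      (measurePreserving_add_right volume h).quasiMeasurePreserving.ae h0
    have z2 : ∀ᵐ y : ℂ, ∀ i j : Fin 5, i ∈ X → j ∈ Y →
        ¬ (y ∈ Q ∧ G i y < ENNReal.ofReal ε ∧ G j y < ENNReal.ofReal ε) := by
      refine ae_all_iff.2 fun i => ae_all_iff.2 fun j => ?_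
      by_cases hi : i ∈ X
      · by_cases hj : j ∈ Y
        · have := nonpos_iff_eq_zero.1 (hcon i hi j hj)
          filter_upwards [measure_eq_zero_iff_ae_notMem.1 this] with y hy _ _ using hy
        · exact Filter.Eventually.of_forall fun y _ h => absurd h hj
      · exact Filter.Eventually.of_forall fun y h => absurd h hi
    filter_upwards [h0, z1, z2] with y y0 y1 y2
    by_cases hy : y ∈ W
    · rw [indicator_of_mem hy]
      refine le_trans ?_ (Finset.single_le_sum (f := fun j =>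
        (Gc (cut c x r j) (y + h) - Gc (cut c x r j) y) ^ 2) (fun j _ => sq_nonneg _)
        (Finset.mem_univ (c (y + h))))
      have b1 : ENNReal.ofReal ε ≤ G (c (y + h)) y := by
        by_contra hlt
        refine y2 (c y) (c (y + h)) hy.1.2 hy.2.2 ⟨hy.1.1, ?_, not_le.1 hlt⟩
        have : G (c y) y = 0 := y0
        rw [this]; exact ENNReal.ofReal_pos.2 hε
      have b2 : G (c (y + h)) y ≠ ⊤ :=
        measure_ne_top_of_subset (fun th hth => hth.1) measure_Ioc_lt_top.ne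
      have b3 : ε ≤ (G (c (y + h)) y).toReal := (ENNReal.ofReal_le_iff_le_toReal b2).1 b1
      rw [Gc_cut hc x r _ (y + h) (hQx hy.2.1), Gc_cut hc x r _ y (hQx hy.1.1)]
      change a ≤ (1 / (2 * π) * (G (c (y + h)) (y + h)).toReal -
        1 / (2 * π) * (G (c (y + h)) y).toReal) ^ 2
      rw [y1, ENNReal.toReal_zero, mul_zero, zero_sub, neg_sq, ha]
      have : ε / (2 * π) ≤ 1 / (2 * π) * (G (c (y + h)) y).toReal := by
        rw [one_div, inv_mul_eq_div]; gcongr
      exact pow_le_pow_left₀ (by positivity) this 2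
    · rw [indicator_of_notMem hy]
      exact Finset.sum_nonneg fun j _ => sq_nonneg _
  have hsum : ∑ j : Fin 5, ∫ y, cut c x r j y ^ 2 ≤ 80 * r := by
    refine (Finset.sum_le_card_nsmul _ _ (16 * r) fun j _ => cut_sq hc x r hr hr1 j).trans ?_
    simp; linarith
  have hW2 : a * volume.real W ≤ 3 * (C * ‖v / 2 ^ N‖ * 2 ^ k) * η * (80 * r) := by
    refine hWle.trans (hle.trans ?_)
    have : 0 ≤ ∑ j : Fin 5, ∫ y, cut c x r j y ^ 2 :=
      Finset.sum_nonneg fun j _ => integral_nonneg fun y => sq_nonneg _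
    gcongr
    linarith
  have hnn : (2 : ℝ) ^ (N - k) * (‖v / 2 ^ N‖ * 2 ^ k) = ‖v‖ := by
    rw [norm_div, norm_pow, Complex.norm_ofNat, mul_comm (_ / _), ← mul_assoc, ← pow_add,
      Nat.sub_add_cancel hk]
    field_simp
  have hW3 : (2 : ℝ) ^ (N - k) * volume.real W ≤ κ ^ 2 / 32 * r ^ 2 := by
    have b1 : a * ((2 : ℝ) ^ (N - k) * volume.real W) ≤ 3 * C * ‖v‖ * η * (80 * r) := by
      rw [← hnn]
      calc a * ((2 : ℝ) ^ (N - k) * volume.real W) = 2 ^ (N - k) * (a * volume.real W) := by ring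
        _ ≤ 2 ^ (N - k) * (3 * (C * ‖v / 2 ^ N‖ * 2 ^ k) * η * (80 * r)) := by gcongr
        _ = _ := by ring
    have b2 : 3 * C * ‖v‖ * η * (80 * r) ≤ 3 * C * (2 * r) * η * (80 * r) := by gcongr
    have b3 : 3 * C * (2 * r) * η * (80 * r) = a * (κ ^ 2 / 32 * r ^ 2) := by
      rw [hη]; field_simp; ring
    exact le_of_mul_le_mul_left (b1.trans (b3 ▸ b2)) ha0
  have hE2 : (2 : ℝ) ^ (N - k) * (κ ^ 2 / 32 / 2 ^ N * r ^ 2) ≤ κ ^ 2 / 32 * r ^ 2 := by
    have : (2 : ℝ) ^ (N - k) ≤ 2 ^ N := pow_le_pow_right₀ one_le_two (Nat.sub_le _ _)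
    calc _ ≤ (2 : ℝ) ^ N * (κ ^ 2 / 32 / 2 ^ N * r ^ 2) := by gcongr
      _ = _ := by field_simp
  have hfin : volume {y | y ∈ A ∧ y + v ∈ B} ≤ ENNReal.ofReal (κ ^ 2 * r ^ 2 / 16) := by
    refine hch.trans ?_
    calc ((2 ^ (N - k) : ℕ) : ENNReal) * (volume W + volume E)
        ≤ ENNReal.ofReal (2 ^ (N - k)) * (ENNReal.ofReal (volume.real W) +
            ENNReal.ofReal (κ ^ 2 / 32 / 2 ^ N * r ^ 2)) := by
          gcongr
          · rw [← ENNReal.ofReal_natCast]; push_cast; exact le_rfl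
          · rw [ofReal_measureReal hWfin]
      _ = ENNReal.ofReal (2 ^ (N - k) * volume.real W +
            2 ^ (N - k) * (κ ^ 2 / 32 / 2 ^ N * r ^ 2)) := by
          rw [← ENNReal.ofReal_add measureReal_nonneg (by positivity),
            ← ENNReal.ofReal_mul (by positivity), mul_add]
      _ ≤ _ := ENNReal.ofReal_le_ofReal (by linarith)
  exact absurd hvol (not_lt.2 hfin)

theorem edge (hB : BStmt) (c : ℂ → Fin 5) (hc : Measurable c)
    (h0 : ∀ᵐ z : ℂ, volume {th : ℝ | th ∈ Ioc 0 (2 * π) ∧ c (z + circleMap 0 1 th) = c z} = 0)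
    (ε κ : ℝ) (hε : 0 < ε) (hκ : 0 < κ) :
    ∃ δ : ℝ, 0 < δ ∧ ∀ (x : ℂ) (r : ℝ), 0 < r → r ≤ 1 → ∀ Q : Set ℂ, Convex ℝ Q →
      MeasurableSet Q → Q ⊆ ball x r → ∀ X Y : Finset (Fin 5), Disjoint X Y →
      volume {y | y ∈ Q ∧ c y ∉ X ∧ c y ∉ Y} ≤ ENNReal.ofReal (δ * r ^ 2) →
      ENNReal.ofReal (κ * r ^ 2) ≤ volume {y | y ∈ Q ∧ c y ∈ X} →
      ENNReal.ofReal (κ * r ^ 2) ≤ volume {y | y ∈ Q ∧ c y ∈ Y} →
      ∃ i ∈ X, ∃ j ∈ Y, 0 < volume {y | y ∈ Q ∧
        volume {th : ℝ | th ∈ Ioc 0 (2 * π) ∧ c (y + circleMap 0 1 th) = i} < ENNReal.ofReal ε ∧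
        volume {th : ℝ | th ∈ Ioc 0 (2 * π) ∧ c (y + circleMap 0 1 th) = j} < ENNReal.ofReal ε} := by
  obtain ⟨δ, hδ, h⟩ := edgeU hB ε κ hε hκ
  exact ⟨δ, hδ, h c hc h0⟩

end Crest.Agent.R40.Edge
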