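import Mathlib

set_option autoImplicit false

namespace Crest.Agent.R40.EdgeAbs

open Finset

variable {V H : Type*} [AddCommGroup V] [Module ℝ V] [NormedAddCommGroup H] [InnerProductSpace ℝ H]

/-- geometric sum of the shift -/
def Sg (T : Module.End ℝ V) (n : ℕ) : Module.End ℝ V := ∑ l ∈ range n, T ^ l

/-- dyadic average -/
noncomputable def Av (T : Module.End ℝ V) (m : ℕ) : Module.End ℝ V :=
  ((2 : ℝ) ^ m)⁻¹ • Sg T (2 ^ m)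

lemma norm_pow (ι : V →ₗ[ℝ] H) (T : Module.End ℝ V) (hT : ∀ g, ‖ι (T g)‖ = ‖ι g‖) (n : ℕ) (g : V) :
    ‖ι ((T ^ n) g)‖ = ‖ι g‖ := by
  induction n with
  | zero => simp
  | succ n ih => rw [pow_succ', Module.End.mul_apply, hT, ih]

lemma norm_Sg (ι : V →ₗ[ℝ] H) (T : Module.End ℝ V) (hT : ∀ g, ‖ι (T g)‖ = ‖ι g‖) (n : ℕ) (g : V) :
    ‖ι (Sg T n g)‖ ≤ n * ‖ι g‖ := by
  unfold Sg
  rw [LinearMap.sum_apply, map_sum]
  refine (norm_sum_le _ _).trans ?_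
  simp [norm_pow ι T hT]

lemma norm_Av (ι : V →ₗ[ℝ] H) (T : Module.End ℝ V) (hT : ∀ g, ‖ι (T g)‖ = ‖ι g‖) (m : ℕ) (g : V) :
    ‖ι (Av T m g)‖ ≤ ‖ι g‖ := by
  unfold Av
  rw [LinearMap.smul_apply, map_smul, norm_smul]
  have h := norm_Sg ι T hT (2 ^ m) g
  have h2 : (0 : ℝ) < 2 ^ m := by positivity
  rw [Real.norm_eq_abs, abs_of_pos (inv_pos.2 h2), inv_mul_le_iff₀ h2]
  simpa using h

lemma Sg_double (T : Module.End ℝ V) (n : ℕ) : Sg T (2 * n) = Sg T n + T ^ n * Sg T n := by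
  unfold Sg
  rw [two_mul, sum_range_add, mul_sum]
  simp [pow_add]

lemma Av_succ (T : Module.End ℝ V) (m : ℕ) (g : V) :
    Av T (m + 1) g = (1 / 2 : ℝ) • (Av T m g + (T ^ (2 ^ m)) (Av T m g)) := by
  unfold Av
  rw [show (2 : ℕ) ^ (m + 1) = 2 * 2 ^ m from pow_succ' 2 m, Sg_double]
  simp only [LinearMap.smul_apply, LinearMap.add_apply, Module.End.mul_apply, map_smul, smul_add,
    smul_smul]
  have : ((2 : ℝ) ^ (m + 1))⁻¹ = 1 / 2 * (2 ^ m)⁻¹ := by rw [pow_succ]; field_simp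
  rw [this]

lemma Av_step (ι : V →ₗ[ℝ] H) (T : Module.End ℝ V) (hT : ∀ g, ‖ι (T g)‖ = ‖ι g‖) (m : ℕ) (g : V) :
    ‖ι (Av T m g - Av T (m + 1) g)‖ ^ 2 = ‖ι (Av T m g)‖ ^ 2 - ‖ι (Av T (m + 1) g)‖ ^ 2 := by
  rw [Av_succ]
  set u := Av T m g
  have hu : ‖ι ((T ^ (2 ^ m)) u)‖ = ‖ι u‖ := norm_pow ι T hT _ u
  set u' := (T ^ (2 ^ m)) u
  have e1 : ι (u - (1 / 2 : ℝ) • (u + u')) = (1 / 2 : ℝ) • (ι u - ι u') := by
    simp only [map_sub, map_smul, map_add]; module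
  have e2 : ι ((1 / 2 : ℝ) • (u + u')) = (1 / 2 : ℝ) • (ι u + ι u') := by
    simp only [map_smul, map_add]
  rw [e1, e2, norm_smul, norm_smul]
  have hp := parallelogram_law_with_norm ℝ (ι u) (ι u')
  rw [hu] at hp
  simp only [Real.norm_eq_abs]
  have : |(1 / 2 : ℝ)| = 1 / 2 := by norm_num
  rw [this]
  nlinarith [hp]

lemma Av_block (ι : V →ₗ[ℝ] H) (T : Module.End ℝ V) (hT : ∀ g, ‖ι (T g)‖ = ‖ι g‖) (j s : ℕ) (g : V) :
    ‖ι (Av T j g - Av T (j + s) g)‖ ^ 2 ≤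
      s * (‖ι (Av T j g)‖ ^ 2 - ‖ι (Av T (j + s) g)‖ ^ 2) := by
  have e : ι (Av T j g - Av T (j + s) g) =
      ∑ m ∈ range s, ι (Av T (j + m) g - Av T (j + m + 1) g) := by
    rw [← map_sum]
    congr 1
    have := sum_range_sub' (fun m => Av T (j + m) g) s
    simpa [add_assoc] using this.symm
  have e2 : ∑ m ∈ range s, ‖ι (Av T (j + m) g - Av T (j + m + 1) g)‖ ^ 2 =
      ‖ι (Av T j g)‖ ^ 2 - ‖ι (Av T (j + s) g)‖ ^ 2 := by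
    simp only [Av_step ι T hT]
    have := sum_range_sub' (fun m => ‖ι (Av T (j + m) g)‖ ^ 2) s
    simpa [add_assoc] using this
  rw [e, ← e2]
  have h1 : ‖∑ m ∈ range s, ι (Av T (j + m) g - Av T (j + m + 1) g)‖ ≤
      ∑ m ∈ range s, ‖ι (Av T (j + m) g - Av T (j + m + 1) g)‖ := norm_sum_le _ _
  have h2 := sq_sum_le_card_mul_sum_sq (s := range s)
    (f := fun m => ‖ι (Av T (j + m) g - Av T (j + m + 1) g)‖)
  rw [card_range] at h2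
  exact (pow_le_pow_left₀ (norm_nonneg _) h1 2).trans h2

lemma shift_Sg (T : Module.End ℝ V) (a b : ℕ) :
    (T ^ a - 1) * Sg T b = Sg T a * (T ^ b - 1) := by
  unfold Sg
  rw [← geom_sum_mul T a, ← mul_geom_sum T b, mul_assoc]

lemma comm_Sg (T M : Module.End ℝ V) (h : Commute M T) (n : ℕ) : Commute M (Sg T n) := by
  unfold Sg
  exact Commute.sum_right _ _ _ fun l _ => h.pow_right l

lemma main_one (ι : V →ₗ[ℝ] H) (T M : Module.End ℝ V) (hT : ∀ g, ‖ι (T g)‖ = ‖ι g‖)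
    (hc : Commute M T) (c : ℝ) (hc0 : 0 ≤ c)
    (hB : ∀ (n : ℕ) (g : V), ‖ι ((T ^ n) (M g) - M g)‖ ^ 2 ≤ c * n * ‖ι g‖ ^ 2)
    (j p : ℕ) (f : V) :
    ‖ι ((T ^ (2 ^ (j + p))) (M f) - M f)‖ ^ 2 ≤
      3 * (c * 2 ^ (j + p)) * (5 / 2 ^ p * ‖ι f‖ ^ 2 + ‖ι (Av T j f - Av T (j + 2 * p) f)‖ ^ 2) := by
  set k := j + p with hk
  set D : Module.End ℝ V := T ^ (2 ^ k) - 1 with hD
  have hDa : ∀ g, D g = (T ^ (2 ^ k)) g - g := fun g => by simp [hD]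
  have hDn : ∀ g, ‖ι (D g)‖ ≤ 2 * ‖ι g‖ := fun g => by
    rw [hDa, map_sub]
    refine (norm_sub_le _ _).trans ?_
    rw [norm_pow ι T hT]; linarith
  have h2j : (0 : ℝ) < 2 ^ j := by positivity
  have h2p : (0 : ℝ) < 2 ^ p := by positivity
  -- term 1
  have t1 : ‖ι (M (f - Av T j f))‖ ^ 2 ≤ c * 2 ^ j * ‖ι f‖ ^ 2 := by
    have e : M (f - Av T j f) =
        ((2 : ℝ) ^ j)⁻¹ • ∑ l ∈ range (2 ^ j), (M f - (T ^ l) (M f)) := by
      have e1 : M (Av T j f) = ((2 : ℝ) ^ j)⁻¹ • ∑ l ∈ range (2 ^ j), (T ^ l) (M f) := by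
        unfold Av
        rw [LinearMap.smul_apply, map_smul, ← Module.End.mul_apply, (comm_Sg T M hc _).eq]
        simp [Sg, LinearMap.sum_apply]
      rw [map_sub, e1, sum_sub_distrib, smul_sub]
      congr 1
      simp only [sum_const, card_range]
      rw [← Nat.cast_smul_eq_nsmul ℝ, smul_smul]
      push_cast
      rw [inv_mul_cancel₀ h2j.ne', one_smul]
    have hl : ∀ l ∈ range (2 ^ j), ‖ι (M f - (T ^ l) (M f))‖ ≤ √(c * 2 ^ j * ‖ι f‖ ^ 2) := by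
      intro l hl
      apply Real.le_sqrt_of_sq_le
      rw [← neg_sub, map_neg, norm_neg]
      refine (hB l f).trans ?_
      have : (l : ℝ) ≤ 2 ^ j := by exact_mod_cast (mem_range.1 hl).le
      gcongr
    have : ‖ι (M (f - Av T j f))‖ ≤ √(c * 2 ^ j * ‖ι f‖ ^ 2) := by
      rw [e, map_smul, norm_smul, map_sum, Real.norm_eq_abs, abs_of_pos (inv_pos.2 h2j),
        inv_mul_le_iff₀ h2j]
      refine (norm_sum_le _ _).trans ((sum_le_card_nsmul _ _ _ hl).trans ?_)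
      simp
    calc _ ≤ √(c * 2 ^ j * ‖ι f‖ ^ 2) ^ 2 := pow_le_pow_left₀ (norm_nonneg _) this 2
      _ = _ := Real.sq_sqrt (by positivity)
  -- term 3
  have t3 : ‖ι (D (M (Av T (j + 2 * p) f)))‖ ^ 2 ≤ c * 2 ^ k / 2 ^ p * ‖ι f‖ ^ 2 := by
    have e : D (M (Av T (j + 2 * p) f)) =
        ((2 : ℝ) ^ p)⁻¹ • Av T k ((T ^ (2 ^ (j + 2 * p))) (M f) - M f) := by
      unfold Av
      rw [LinearMap.smul_apply, map_smul, map_smul, ← Module.End.mul_apply M,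
        (comm_Sg T M hc _).eq, Module.End.mul_apply, ← Module.End.mul_apply D, hD, shift_Sg,
        LinearMap.smul_apply, smul_smul, Module.End.mul_apply]
      congr 1
      · rw [hk, show j + 2 * p = p + (j + p) by ring, pow_add, mul_inv]
    rw [e, map_smul, norm_smul, mul_pow, Real.norm_eq_abs, abs_of_pos (inv_pos.2 h2p)]
    have h1 := pow_le_pow_left₀ (norm_nonneg _)
      (norm_Av ι T hT k ((T ^ (2 ^ (j + 2 * p))) (M f) - M f)) 2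
    have h2 := hB (2 ^ (j + 2 * p)) f
    calc _ ≤ ((2 : ℝ) ^ p)⁻¹ ^ 2 * (c * ((2 ^ (j + 2 * p) : ℕ) : ℝ) * ‖ι f‖ ^ 2) := by
          gcongr; exact h1.trans h2
      _ = _ := by
          push_cast
          rw [hk, show j + 2 * p = j + p + p by ring, pow_add (2 : ℝ) (j + p) p]
          field_simp
  have t2 : ‖ι (D (M (Av T j f - Av T (j + 2 * p) f)))‖ ^ 2 ≤
      c * 2 ^ k * ‖ι (Av T j f - Av T (j + 2 * p) f)‖ ^ 2 := by
    rw [hDa]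
    have := hB (2 ^ k) (Av T j f - Av T (j + 2 * p) f)
    simpa using this
  have t1' : ‖ι (D (M (f - Av T j f)))‖ ^ 2 ≤ 4 * (c * 2 ^ k / 2 ^ p) * ‖ι f‖ ^ 2 := by
    have h := pow_le_pow_left₀ (norm_nonneg _) (hDn (M (f - Av T j f))) 2
    have e : c * 2 ^ k / 2 ^ p = c * 2 ^ j := by rw [hk, pow_add]; field_simp
    rw [e]; nlinarith
  have e : ι ((T ^ (2 ^ k)) (M f) - M f) = ι (D (M (f - Av T j f))) +
      ι (D (M (Av T j f - Av T (j + 2 * p) f))) + ι (D (M (Av T (j + 2 * p) f))) := by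
    rw [← hDa, ← map_add, ← map_add, ← map_add, ← map_add, ← map_add, ← map_add]
    congr 3; abel
  rw [e]
  set a := ι (D (M (f - Av T j f)))
  set b := ι (D (M (Av T j f - Av T (j + 2 * p) f)))
  set d := ι (D (M (Av T (j + 2 * p) f)))
  have h3 : ‖a + b + d‖ ≤ ‖a‖ + ‖b‖ + ‖d‖ := norm_add₃_le
  have h4 : ‖a + b + d‖ ^ 2 ≤ 3 * (‖a‖ ^ 2 + ‖b‖ ^ 2 + ‖d‖ ^ 2) := by
    have := pow_le_pow_left₀ (norm_nonneg _) h3 2
    nlinarith [sq_nonneg (‖a‖ - ‖b‖), sq_nonneg (‖a‖ - ‖d‖), sq_nonneg (‖b‖ - ‖d‖)]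
  refine h4.trans ?_
  have e5 : 3 * (c * 2 ^ k) * (5 / 2 ^ p * ‖ι f‖ ^ 2 + ‖ι (Av T j f - Av T (j + 2 * p) f)‖ ^ 2) =
      3 * (4 * (c * 2 ^ k / 2 ^ p) * ‖ι f‖ ^ 2 +
        c * 2 ^ k * ‖ι (Av T j f - Av T (j + 2 * p) f)‖ ^ 2 + c * 2 ^ k / 2 ^ p * ‖ι f‖ ^ 2) := by
    ring
  rw [e5]
  linarith

/-- among `2pK` dyadic scales there is one at which all the smoothed functions move little -/
lemma main (ι : V →ₗ[ℝ] H) (T M : Module.End ℝ V) (hT : ∀ g, ‖ι (T g)‖ = ‖ι g‖)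
    (hc : Commute M T) (c : ℝ) (hc0 : 0 ≤ c)
    (hB : ∀ (n : ℕ) (g : V), ‖ι ((T ^ n) (M g) - M g)‖ ^ 2 ≤ c * n * ‖ι g‖ ^ 2)
    {I : Type*} [Fintype I] (f : I → V) (p K : ℕ) (hK : 0 < K) :
    ∃ k ≤ 2 * p * K, ∑ i, ‖ι ((T ^ (2 ^ k)) (M (f i)) - M (f i))‖ ^ 2 ≤
      3 * (c * 2 ^ k) * (5 / 2 ^ p + 2 * p / K) * ∑ i, ‖ι (f i)‖ ^ 2 := by
  set n : ℕ → ℝ := fun b => ∑ i, ‖ι (Av T (2 * p * b) (f i))‖ ^ 2 with hn
  have hn0 : n 0 ≤ ∑ i, ‖ι (f i)‖ ^ 2 :=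
    sum_le_sum fun i _ => pow_le_pow_left₀ (norm_nonneg _) (norm_Av ι T hT _ _) 2
  have hnK : 0 ≤ n K := sum_nonneg fun i _ => by positivity
  have hK' : (0 : ℝ) < K := by exact_mod_cast hK
  obtain ⟨b, hb, hle⟩ : ∃ b ∈ range K, n b - n (b + 1) ≤ (∑ i, ‖ι (f i)‖ ^ 2) / K := by
    apply exists_le_of_sum_le ⟨0, mem_range.2 hK⟩
    rw [sum_range_sub' n K]
    simp only [sum_const, card_range, nsmul_eq_mul]
    rw [mul_div_cancel₀ _ hK'.ne']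
    linarith
  have hb' := mem_range.1 hb
  refine ⟨2 * p * b + p, by nlinarith, ?_⟩
  have h1 : ∀ i, ‖ι ((T ^ (2 ^ (2 * p * b + p))) (M (f i)) - M (f i))‖ ^ 2 ≤
      3 * (c * 2 ^ (2 * p * b + p)) * (5 / 2 ^ p * ‖ι (f i)‖ ^ 2 + (2 * p : ℕ) *
        (‖ι (Av T (2 * p * b) (f i))‖ ^ 2 - ‖ι (Av T (2 * p * (b + 1)) (f i))‖ ^ 2)) := by
    intro i
    refine (main_one ι T M hT hc c hc0 hB (2 * p * b) p (f i)).trans ?_
    have := Av_block ι T hT (2 * p * b) (2 * p) (f i)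
    rw [show 2 * p * (b + 1) = 2 * p * b + 2 * p by ring]
    gcongr
  refine (sum_le_sum fun i _ => h1 i).trans ?_
  rw [← mul_sum, sum_add_distrib, ← mul_sum, ← mul_sum, sum_sub_distrib, mul_assoc (3 * _)]
  gcongr
  have : (∑ i, ‖ι (Av T (2 * p * b) (f i))‖ ^ 2) - ∑ i, ‖ι (Av T (2 * p * (b + 1)) (f i))‖ ^ 2
      = n b - n (b + 1) := rfl
  rw [this, add_mul]
  have h7 : ((2 * p : ℕ) : ℝ) * (n b - n (b + 1)) ≤ 2 * p / K * ∑ i, ‖ι (f i)‖ ^ 2 := by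
    push_cast
    calc (2 * p : ℝ) * (n b - n (b + 1)) ≤ 2 * p * ((∑ i, ‖ι (f i)‖ ^ 2) / K) := by gcongr
      _ = _ := by ring
  linarith

end Crest.Agent.R40.EdgeAbs
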