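import Mathlib

set_option autoImplicit false

namespace Crest.Agent.R40.Planch

open MeasureTheory FourierTransform SchwartzMap
open scoped ContDiff

variable {V : Type*} [NormedAddCommGroup V] [InnerProductSpace ℝ V] [FiniteDimensional ℝ V]
  [MeasurableSpace V] [BorelSpace V]

theorem continuous_ft {f : V → ℂ} (h1 : Integrable f) : Continuous (𝓕 f : V → ℂ) :=
  VectorFourier.fourierIntegral_continuous Real.continuous_fourierChar
    (by simpa using continuous_inner) h1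

theorem ae_eq {f : V → ℂ} (h1 : Integrable f) (h2 : MemLp f 2) :
    ((𝓕 (h2.toLp f) : Lp ℂ 2 (volume : Measure V)) : V → ℂ) =ᵐ[volume] 𝓕 f := by
  set F : Lp ℂ 2 (volume : Measure V) := 𝓕 (h2.toLp f) with hF
  apply ae_eq_of_integral_contDiff_smul_eq
  · exact (Lp.memLp F).locallyIntegrable (by norm_num)
  · exact (continuous_ft h1).locallyIntegrable
  intro g hg hgc
  have hgc' : HasCompactSupport (fun x => ((g x : ℝ) : ℂ)) :=
    hgc.comp_left (g := fun t : ℝ => (t : ℂ)) (by simp)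
  have hg' : ContDiff ℝ ∞ (fun x => ((g x : ℝ) : ℂ)) := Complex.ofRealCLM.contDiff.comp hg
  set φ : 𝓢(V, ℂ) := hgc'.toSchwartzMap hg' with hφ
  have hφx : ∀ x, φ x = ((g x : ℝ) : ℂ) := fun x => rfl
  have k1 := congrArg (fun T : 𝓢'(V, ℂ) => T φ)
    (Lp.fourier_toTemperedDistribution_eq (h2.toLp f))
  simp only [TemperedDistribution.fourier_apply, Lp.toTemperedDistribution_apply] at k1
  have k2 : ∫ x, (𝓕 φ : 𝓢(V, ℂ)) x • (h2.toLp f : V → ℂ) x = ∫ x, φ x • (𝓕 f : V → ℂ) x := by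
    have := VectorFourier.integral_fourierIntegral_smul_eq_flip (e := Real.fourierChar)
      (L := innerₗ V) (μ := volume) (ν := volume) (f := (φ : V → ℂ)) (g := f)
      Real.continuous_fourierChar (by simpa using continuous_inner) φ.integrable h1
    rw [flip_innerₗ] at this
    refine Eq.trans ?_ this
    apply integral_congr_ae
    filter_upwards [h2.coeFn_toLp] with x hx
    rw [hx]; rfl
  calc ∫ x, g x • (F : V → ℂ) x = ∫ x, φ x • (F : V → ℂ) x := by
        congr 1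
    _ = ∫ x, φ x • (𝓕 f : V → ℂ) x := by rw [← k1, k2]
    _ = _ := by congr 1

theorem norm_sq_eq (F : Lp ℂ 2 (volume : Measure V)) : ‖F‖ ^ 2 = ∫ x, ‖(F : V → ℂ) x‖ ^ 2 := by
  rw [← @inner_self_eq_norm_sq ℂ, L2.inner_def, ← integral_re (L2.integrable_inner F F)]
  congr 1; ext x
  exact inner_self_eq_norm_sq _

/-- Plancherel for `L¹ ∩ L²` functions. -/
theorem plancherel {f : V → ℂ} (h1 : Integrable f) (h2 : MemLp f 2) :
    MemLp (𝓕 f : V → ℂ) 2 ∧ ∫ x, ‖(𝓕 f : V → ℂ) x‖ ^ 2 = ∫ x, ‖f x‖ ^ 2 := by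
  have h := ae_eq h1 h2
  refine ⟨(Lp.memLp _).ae_eq h, ?_⟩
  have a1 : ∫ x, ‖(𝓕 f : V → ℂ) x‖ ^ 2
      = ∫ x, ‖((𝓕 (h2.toLp f) : Lp ℂ 2 (volume : Measure V)) : V → ℂ) x‖ ^ 2 := by
    apply integral_congr_ae
    filter_upwards [h] with x hx
    rw [hx]
  have a2 : ∫ x, ‖f x‖ ^ 2 = ∫ x, ‖(h2.toLp f : V → ℂ) x‖ ^ 2 := by
    apply integral_congr_ae
    filter_upwards [h2.coeFn_toLp] with x hx
    rw [hx]
  rw [a1, a2, ← norm_sq_eq, ← norm_sq_eq, Lp.norm_fourier_eq]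

end Crest.Agent.R40.Planch
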