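import Crest.Agent.R40.Bessel
import Crest.Agent.R40.Planch

set_option autoImplicit false

namespace Crest.Agent.R40

open MeasureTheory FourierTransform Real
open scoped RealInnerProductSpace

namespace Smooth

/-- bounded, measurable, boundedly supported functions -/
theorem memLp_of {g : ℂ → ℂ} (hg : Measurable g) (C R : ℝ) (hb : ∀ y, ‖g y‖ ≤ C)
    (hs : ∀ y, R < ‖y‖ → g y = 0) (p : ENNReal) : MemLp g p := by
  have h1 : MemLp ((Metric.closedBall (0:ℂ) R).indicator fun _ => C) p :=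
    memLp_indicator_const p measurableSet_closedBall C (Or.inr measure_closedBall_lt_top.ne)
  refine h1.mono' hg.aestronglyMeasurable (Filter.Eventually.of_forall fun y => ?_)
  by_cases hy : y ∈ Metric.closedBall (0:ℂ) R
  · simpa [hy] using hb y
  · rw [Set.indicator_of_notMem hy, hs y (by simpa using hy)]; simp

noncomputable def A (g : ℂ → ℂ) (y : ℂ) : ℂ := ∫ θ in (0:ℝ)..(2 * π), g (y + circleMap 0 1 θ)

theorem meas_pair {g : ℂ → ℂ} (hg : Measurable g) :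
    Measurable fun p : ℝ × ℂ => g (p.2 + circleMap 0 1 p.1) :=
  hg.comp (measurable_snd.add ((continuous_circleMap 0 1).measurable.comp measurable_fst))

theorem measurable_A {g : ℂ → ℂ} (hg : Measurable g) : Measurable (A g) := by
  have : A g = fun y => ∫ θ in Set.Ioc (0:ℝ) (2 * π), g (y + circleMap 0 1 θ) := by
    ext y; exact intervalIntegral.integral_of_le (by positivity)
  rw [this]
  exact (StronglyMeasurable.integral_prod_left' (μ := volume.restrict (Set.Ioc (0:ℝ) (2 * π)))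
    (meas_pair hg).stronglyMeasurable).measurable

theorem norm_A_le {g : ℂ → ℂ} (hb : ∀ y, ‖g y‖ ≤ 1) (y : ℂ) : ‖A g y‖ ≤ 2 * π := by
  have := intervalIntegral.norm_integral_le_of_norm_le_const (a := 0) (b := 2 * π) (C := 1)
    (f := fun θ : ℝ => g (y + circleMap 0 1 θ)) (fun θ _ => hb _)
  rwa [sub_zero, abs_of_pos (by positivity), one_mul] at this

theorem far {g : ℂ → ℂ} {R : ℝ} (hs : ∀ y, R < ‖y‖ → g y = 0) (y : ℂ) (hy : R + 1 < ‖y‖) (θ : ℝ) :
    g (y + circleMap 0 1 θ) = 0 := by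
  apply hs
  have h1 : ‖circleMap 0 1 θ‖ = 1 := by simp
  have h2 := norm_sub_le (y + circleMap 0 1 θ) (circleMap 0 1 θ)
  rw [add_sub_cancel_right] at h2
  linarith

theorem A_far {g : ℂ → ℂ} {R : ℝ} (hs : ∀ y, R < ‖y‖ → g y = 0) (y : ℂ) (hy : R + 1 < ‖y‖) :
    A g y = 0 := by
  simp [A, far hs y hy]

noncomputable def sig (ξ : ℂ) : ℂ :=
  ∫ θ in (0:ℝ)..(2 * π), ((Real.fourierChar ⟪circleMap 0 1 θ, ξ⟫ : Circle) : ℂ)

theorem ft_shift (g : ℂ → ℂ) (a ξ : ℂ) :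
    (𝓕 (fun y => g (y + a)) : ℂ → ℂ) ξ = ((Real.fourierChar ⟪a, ξ⟫ : Circle) : ℂ) * (𝓕 g : ℂ → ℂ) ξ :=
  congrFun (VectorFourier.fourierIntegral_comp_add_right Real.fourierChar volume (innerₗ ℂ) g a) ξ

theorem ft_A {g : ℂ → ℂ} (hg : Measurable g) {R : ℝ} (hb : ∀ y, ‖g y‖ ≤ 1)
    (hs : ∀ y, R < ‖y‖ → g y = 0) (ξ : ℂ) :
    (𝓕 (A g) : ℂ → ℂ) ξ = sig ξ * (𝓕 g : ℂ → ℂ) ξ := by
  have hint : Integrable (Function.uncurry fun (θ : ℝ) (y : ℂ) =>
      (Real.fourierChar (-⟪y, ξ⟫) : Circle) • g (y + circleMap 0 1 θ))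
      ((volume.restrict (Set.uIoc (0:ℝ) (2 * π))).prod volume) := by
    have h1 : Integrable ((Metric.closedBall (0:ℂ) (R + 1)).indicator fun _ => (1:ℝ)) :=
      (integrable_indicator_iff measurableSet_closedBall).mpr
        (integrableOn_const measure_closedBall_lt_top.ne)
    haveI : IsFiniteMeasure (volume.restrict (Set.uIoc (0:ℝ) (2 * π))) :=
      ⟨by simp [Set.uIoc]⟩
    refine (h1.comp_snd _).mono' ?_ (Filter.Eventually.of_forall fun p => ?_)
    · apply Measurable.aestronglyMeasurable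
      have hc : Continuous fun p : ℝ × ℂ => ((Real.fourierChar (-⟪p.2, ξ⟫) : Circle) : ℂ) := by
        fun_prop
      exact hc.measurable.mul (meas_pair hg)
    · simp only [Function.uncurry, Circle.norm_smul]
      by_cases hy : p.2 ∈ Metric.closedBall (0:ℂ) (R + 1)
      · simpa [hy] using hb _
      · rw [Set.indicator_of_notMem hy, far hs _ (by simpa using hy)]; simp
  have h := intervalIntegral_integral_swap hint
  rw [Real.fourier_eq]
  calc ∫ y, (Real.fourierChar (-⟪y, ξ⟫) : Circle) • A g y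
      = ∫ y, ∫ θ in (0:ℝ)..(2 * π),
          (Real.fourierChar (-⟪y, ξ⟫) : Circle) • g (y + circleMap 0 1 θ) := by
        congr 1; ext y
        simp only [A, Circle.smul_def, smul_eq_mul]
        rw [intervalIntegral.integral_const_mul]
    _ = ∫ θ in (0:ℝ)..(2 * π), ∫ y,
          (Real.fourierChar (-⟪y, ξ⟫) : Circle) • g (y + circleMap 0 1 θ) := h.symm
    _ = ∫ θ in (0:ℝ)..(2 * π),
          ((Real.fourierChar ⟪circleMap 0 1 θ, ξ⟫ : Circle) : ℂ) * (𝓕 g : ℂ → ℂ) ξ := by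
        congr 1; ext θ
        rw [← ft_shift, Real.fourier_eq]
    _ = _ := by rw [intervalIntegral.integral_mul_const]; rfl

theorem sig_bound (ξ : ℂ) : ‖sig ξ‖ ^ 2 * (2 * π * ‖ξ‖) ≤ 324 := by
  have h := Bessel.decay (2 * π * ‖ξ‖) (Complex.arg ξ)
  rw [abs_of_nonneg (by positivity)] at h
  convert h using 4
  simp only [sig]
  congr 1; ext θ
  rw [Real.fourierChar_apply]
  congr 1
  have h1 : ⟪circleMap 0 1 θ, ξ⟫ = ‖ξ‖ * Real.cos (θ - Complex.arg ξ) := by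
    rw [Real.cos_sub, Complex.inner]
    have a1 := Complex.norm_mul_cos_arg ξ
    have a2 := Complex.norm_mul_sin_arg ξ
    simp only [circleMap, zero_add, Complex.ofReal_one, one_mul, Complex.mul_re, Complex.conj_re,
      Complex.conj_im, Complex.exp_ofReal_mul_I_re, Complex.exp_ofReal_mul_I_im]
    linear_combination (-Real.cos θ) * a1 - (Real.sin θ) * a2
  rw [h1]; push_cast; ring

theorem char_bound (t : ℝ) : ‖((Real.fourierChar t : Circle) : ℂ) - 1‖ ^ 2 ≤ 2 * (2 * π * |t|) := by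
  have h1 : ‖((Real.fourierChar t : Circle) : ℂ) - 1‖ ≤ 2 := by
    refine (norm_sub_le _ _).trans ?_
    simp; norm_num
  have h2 : ‖((Real.fourierChar t : Circle) : ℂ) - 1‖ ≤ 2 * π * |t| := by
    rw [Real.fourierChar_apply, mul_comm _ Complex.I]
    refine (Real.norm_exp_I_mul_ofReal_sub_one_le).trans ?_
    rw [Real.norm_eq_abs, abs_mul, abs_of_pos (by positivity : (0:ℝ) < 2 * π)]
  rw [sq]
  gcongr

theorem main {g : ℂ → ℂ} (hg : Measurable g) {R : ℝ} (hb : ∀ y, ‖g y‖ ≤ 1)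
    (hs : ∀ y, R < ‖y‖ → g y = 0) (h : ℂ) :
    ∫ y, ‖A g (y + h) - A g y‖ ^ 2 ≤ 648 * ‖h‖ * ∫ y, ‖g y‖ ^ 2 := by
  have mA := measurable_A hg
  have LA : ∀ p, MemLp (A g) p := memLp_of mA (2 * π) (R + 1) (norm_A_le hb) (A_far hs)
  have LA' : ∀ p, MemLp (fun y => A g (y + h)) p :=
    memLp_of (mA.comp (measurable_add_const h)) (2 * π) (R + 1 + ‖h‖) (fun y => norm_A_le hb _)
      (fun y hy => A_far hs _ (by
        have h2 := norm_sub_le (y + h) h
        rw [add_sub_cancel_right] at h2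
        linarith))
  have Lg : ∀ p, MemLp g p := memLp_of hg 1 R hb hs
  have iA := memLp_one_iff_integrable.mp (LA 1)
  have iA' := memLp_one_iff_integrable.mp (LA' 1)
  obtain ⟨pg1, pg2⟩ := Planch.plancherel (memLp_one_iff_integrable.mp (Lg 1)) (Lg 2)
  obtain ⟨-, pu2⟩ := Planch.plancherel (iA'.sub iA) ((LA' 2).sub (LA 2))
  have hft : ∀ ξ, (𝓕 ((fun y => A g (y + h)) - A g) : ℂ → ℂ) ξ =
      (((Real.fourierChar ⟪h, ξ⟫ : Circle) : ℂ) - 1) * (sig ξ * (𝓕 g : ℂ → ℂ) ξ) := by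
    intro ξ
    rw [← ft_A hg hb hs, sub_mul, one_mul, ← ft_shift, Real.fourier_eq, Real.fourier_eq,
      Real.fourier_eq, ← integral_sub]
    · congr 1; ext y; simp only [Pi.sub_apply, smul_sub]
    · exact (Real.fourierIntegral_convergent_iff ξ).mpr iA'
    · exact (Real.fourierIntegral_convergent_iff ξ).mpr iA
  have hig : Integrable fun ξ => ‖(𝓕 g : ℂ → ℂ) ξ‖ ^ 2 :=
    (memLp_two_iff_integrable_sq_norm pg1.aestronglyMeasurable).mp pg1
  calc ∫ y, ‖A g (y + h) - A g y‖ ^ 2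
      = ∫ ξ, ‖(𝓕 ((fun y => A g (y + h)) - A g) : ℂ → ℂ) ξ‖ ^ 2 := pu2.symm
    _ ≤ ∫ ξ, 648 * ‖h‖ * ‖(𝓕 g : ℂ → ℂ) ξ‖ ^ 2 := by
        apply integral_mono_of_nonneg (Filter.Eventually.of_forall fun ξ => by positivity)
          (hig.const_mul _)
        refine Filter.Eventually.of_forall fun ξ => ?_
        simp only [hft, norm_mul, mul_pow]
        have b1 := char_bound ⟪h, ξ⟫
        have b2 := sig_bound ξ
        have b3 : |⟪h, ξ⟫| ≤ ‖h‖ * ‖ξ‖ := abs_real_inner_le_norm h ξ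
        have b4 : ‖((Real.fourierChar ⟪h, ξ⟫ : Circle) : ℂ) - 1‖ ^ 2
            ≤ 2 * ‖h‖ * (2 * π * ‖ξ‖) := by
          refine b1.trans ?_
          calc 2 * (2 * π * |⟪h, ξ⟫|) ≤ 2 * (2 * π * (‖h‖ * ‖ξ‖)) := by gcongr
            _ = _ := by ring
        calc _ ≤ 2 * ‖h‖ * (2 * π * ‖ξ‖) * (‖sig ξ‖ ^ 2 * ‖(𝓕 g : ℂ → ℂ) ξ‖ ^ 2) := by gcongr
          _ = 2 * ‖h‖ * (‖sig ξ‖ ^ 2 * (2 * π * ‖ξ‖)) * ‖(𝓕 g : ℂ → ℂ) ξ‖ ^ 2 := by ring
          _ ≤ 2 * ‖h‖ * 324 * ‖(𝓕 g : ℂ → ℂ) ξ‖ ^ 2 := by gcongr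
          _ = _ := by ring
    _ = 648 * ‖h‖ * ∫ y, ‖g y‖ ^ 2 := by rw [integral_const_mul, pg2]

end Smooth

/-- (B): half a derivative is gained by averaging over unit circles. -/
theorem smoothB : ∃ C : ℝ, 0 < C ∧ ∀ f : ℂ → ℝ, Measurable f → (∀ y, |f y| ≤ 1) →
    (∃ R : ℝ, ∀ y, R < ‖y‖ → f y = 0) → ∀ h : ℂ,
    ∫ y, ((1 / (2 * π)) * (∫ θ in (0:ℝ)..(2 * π), f (y + h + circleMap 0 1 θ)) -
      (1 / (2 * π)) * (∫ θ in (0:ℝ)..(2 * π), f (y + circleMap 0 1 θ))) ^ 2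
      ≤ C * ‖h‖ * ∫ y, f y ^ 2 := by
  refine ⟨648, by norm_num, fun f hf hb ⟨R, hR⟩ h => ?_⟩
  have key := Smooth.main (g := fun y => (f y : ℂ)) (Complex.measurable_ofReal.comp hf) (R := R)
    (fun y => by simpa using hb y) (fun y hy => by simp [hR y hy]) h
  have e1 : ∀ y, Smooth.A (fun y => (f y : ℂ)) y =
      ((∫ θ in (0:ℝ)..(2 * π), f (y + circleMap 0 1 θ) : ℝ) : ℂ) := by
    intro y
    simp only [Smooth.A]
    rw [intervalIntegral.integral_ofReal]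
  simp only [e1, ← Complex.ofReal_sub, Complex.norm_real, Real.norm_eq_abs, sq_abs] at key
  refine le_trans ?_ key
  have hpi : (1 / (2 * π)) ^ 2 ≤ 1 := by
    have : 1 / (2 * π) ≤ 1 := by
      rw [div_le_one (by positivity)]; linarith [Real.pi_gt_three]
    have h0 : 0 ≤ 1 / (2 * π) := by positivity
    nlinarith
  simp only [← mul_sub, mul_pow]
  rw [integral_const_mul]
  exact mul_le_of_le_one_left (integral_nonneg fun y => by positivity) hpi

end Crest.Agent.R40
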