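import Crest.Agent.R40.Edge
import Crest.Agent.R40.Smooth

set_option autoImplicit false

namespace Crest.Agent.R40

open MeasureTheory Real Set Metric

theorem Edge.bStmt : Edge.BStmt := smoothB

/-- (E), unconditional form. -/
theorem edgeE (c : ℂ → Fin 5) (hc : Measurable c)
    (h0 : ∀ᵐ z : ℂ, volume {th : ℝ | th ∈ Ioc 0 (2 * π) ∧ c (z + circleMap 0 1 th) = c z} = 0)
    (ε κ : ℝ) (hε : 0 < ε) (hκ : 0 < κ) :
    ∃ δ : ℝ, 0 < δ ∧ ∀ (x : ℂ) (r : ℝ), 0 < r → r ≤ 1 → ∀ Q : Set ℂ, Convex ℝ Q →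
      MeasurableSet Q → Q ⊆ ball x r → ∀ X Y : Finset (Fin 5), Disjoint X Y →
      volume {y | y ∈ Q ∧ c y ∉ X ∧ c y ∉ Y} ≤ ENNReal.ofReal (δ * r ^ 2) →
      ENNReal.ofReal (κ * r ^ 2) ≤ volume {y | y ∈ Q ∧ c y ∈ X} →
      ENNReal.ofReal (κ * r ^ 2) ≤ volume {y | y ∈ Q ∧ c y ∈ Y} →
      ∃ i ∈ X, ∃ j ∈ Y, 0 < volume {y | y ∈ Q ∧
        volume {th : ℝ | th ∈ Ioc 0 (2 * π) ∧ c (y + circleMap 0 1 th) = i} < ENNReal.ofReal ε ∧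
        volume {th : ℝ | th ∈ Ioc 0 (2 * π) ∧ c (y + circleMap 0 1 th) = j} < ENNReal.ofReal ε} :=
  Edge.edge Edge.bStmt c hc h0 ε κ hε hκ

end Crest.Agent.R40
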