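import Crest.Agent.R40.EdgeAbs

set_option autoImplicit false

namespace Crest.Agent.R40.Edge

open MeasureTheory Real

/-- normalised average over the unit circle around `y` -/
noncomputable def Gc (f : ℂ → ℝ) (y : ℂ) : ℝ :=
  (1 / (2 * π)) * ∫ th in (0 : ℝ)..2 * π, f (y + circleMap 0 1 th)

/-- the `H^{1/2}` smoothing bound of the circular mean -/
def BStmt : Prop :=
  ∃ C : ℝ, 0 < C ∧ ∀ f : ℂ → ℝ, Measurable f → (∀ y, |f y| ≤ 1) →
    (∃ R : ℝ, ∀ y, R < ‖y‖ → f y = 0) →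
    ∀ h : ℂ, ∫ y, (Gc f (y + h) - Gc f y) ^ 2 ≤ C * ‖h‖ * ∫ y, f y ^ 2

/-- bounded measurable functions with bounded support -/
def Good : Submodule ℝ (ℂ → ℝ) where
  carrier := {f | Measurable f ∧ (∃ M : ℝ, ∀ y, |f y| ≤ M) ∧ ∃ R : ℝ, ∀ y, R < ‖y‖ → f y = 0}
  add_mem' := by
    rintro f g ⟨hf, ⟨M, hM⟩, R, hR⟩ ⟨hg, ⟨M', hM'⟩, R', hR'⟩
    refine ⟨hf.add hg, ⟨M + M', fun y => (abs_add_le _ _).trans (add_le_add (hM y) (hM' y))⟩,
      max R R', fun y hy => ?_⟩
    simp [hR y ((le_max_left _ _).trans_lt hy), hR' y ((le_max_right _ _).trans_lt hy)]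
  zero_mem' := ⟨measurable_const, ⟨0, by simp⟩, 0, by simp⟩
  smul_mem' := by
    rintro a f ⟨hf, ⟨M, hM⟩, R, hR⟩
    refine ⟨hf.const_smul a, ⟨|a| * M, fun y => ?_⟩, R, fun y hy => by simp [hR y hy]⟩
    simp only [Pi.smul_apply, smul_eq_mul, abs_mul]
    exact mul_le_mul_of_nonneg_left (hM y) (abs_nonneg a)

lemma meas_e : Measurable fun th : ℝ => circleMap 0 1 th := (continuous_circleMap 0 1).measurable

lemma ii {f : ℂ → ℝ} (hf : Measurable f) {M : ℝ} (hM : ∀ y, |f y| ≤ M) (y : ℂ) :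
    IntervalIntegrable (fun th => f (y + circleMap 0 1 th)) volume 0 (2 * π) := by
  have hm : Measurable fun th : ℝ => f (y + circleMap 0 1 th) :=
    hf.comp (measurable_const.add meas_e)
  refine IntervalIntegrable.mono_fun' (g := fun _ => M) intervalIntegrable_const
    hm.aestronglyMeasurable (Filter.Eventually.of_forall fun th => ?_)
  exact hM _

lemma Gc_meas {f : ℂ → ℝ} (hf : Measurable f) : Measurable (Gc f) := by
  unfold Gc
  refine measurable_const.mul ?_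
  simp only [intervalIntegral.integral_of_le (by positivity : (0 : ℝ) ≤ 2 * π)]
  have hm : Measurable fun q : ℂ × ℝ => f (q.1 + circleMap 0 1 q.2) :=
    hf.comp (measurable_fst.add (meas_e.comp measurable_snd))
  exact (hm.stronglyMeasurable.integral_prod_right'
    (ν := volume.restrict (Set.Ioc (0 : ℝ) (2 * π)))).measurable

lemma Gc_bd {f : ℂ → ℝ} {M : ℝ} (hM : ∀ y, |f y| ≤ M) (y : ℂ) : |Gc f y| ≤ M := by
  unfold Gc
  have h := intervalIntegral.norm_integral_le_of_norm_le_const (a := 0) (b := 2 * π) (C := M)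
    (f := fun th => f (y + circleMap 0 1 th)) (fun th _ => hM _)
  have hp : 0 < 2 * π := by positivity
  rw [Real.norm_eq_abs, sub_zero, abs_of_pos hp] at h
  rw [abs_mul, abs_of_pos (by positivity : 0 < 1 / (2 * π)), one_div, inv_mul_le_iff₀ hp]
  linarith

lemma Gc_nonneg {f : ℂ → ℝ} (h0 : ∀ y, 0 ≤ f y) (y : ℂ) : 0 ≤ Gc f y := by
  unfold Gc
  exact mul_nonneg (by positivity)
    (intervalIntegral.integral_nonneg (by positivity) fun th _ => h0 _)

lemma Gc_good {f : ℂ → ℝ} (hf : f ∈ Good) : Gc f ∈ Good := by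
  obtain ⟨hf, ⟨M, hM⟩, R, hR⟩ := hf
  refine ⟨Gc_meas hf, ⟨M, Gc_bd hM⟩, R + 1, fun y hy => ?_⟩
  unfold Gc
  have : ∀ th : ℝ, f (y + circleMap 0 1 th) = 0 := fun th => by
    apply hR
    have h1 : ‖circleMap 0 1 th‖ = 1 := by simp
    have h2 := norm_sub_le (y + circleMap 0 1 th) (circleMap 0 1 th)
    rw [add_sub_cancel_right, h1] at h2
    linarith
  simp [this]

/-- the circular mean as an operator -/
noncomputable def MM : Module.End ℝ Good where
  toFun f := ⟨Gc f.1, Gc_good f.2⟩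
  map_add' f g := by
    ext y
    obtain ⟨hf, ⟨M, hM⟩, -⟩ := f.2
    obtain ⟨hg, ⟨M', hM'⟩, -⟩ := g.2
    simp only [Submodule.coe_add, Gc, Pi.add_apply]
    rw [intervalIntegral.integral_add (ii hf hM y) (ii hg hM' y), mul_add]
  map_smul' a f := by
    ext y
    simp only [Submodule.coe_smul, Gc, Pi.smul_apply, smul_eq_mul, RingHom.id_apply,
      intervalIntegral.integral_const_mul]
    ring

/-- translation -/
noncomputable def TT (h : ℂ) : Module.End ℝ Good where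
  toFun f := ⟨fun y => f.1 (y + h), by
    obtain ⟨hf, ⟨M, hM⟩, R, hR⟩ := f.2
    refine ⟨hf.comp (measurable_id.add_const h), ⟨M, fun y => hM _⟩, R + ‖h‖, fun y hy => hR _ ?_⟩
    have h2 := norm_sub_le (y + h) h
    rw [add_sub_cancel_right] at h2
    linarith⟩
  map_add' f g := rfl
  map_smul' a f := rfl

lemma TT_pow (h : ℂ) (n : ℕ) (f : Good) (y : ℂ) : ((TT h ^ n) f).1 y = f.1 (y + n * h) := by
  induction n generalizing y with
  | zero => simp
  | succ n ih =>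
    rw [pow_succ', Module.End.mul_apply]
    change ((TT h ^ n) f).1 (y + h) = _
    rw [ih]; exact congrArg _ (by push_cast; ring)

lemma comm (h : ℂ) : Commute MM (TT h) := by
  ext f y
  change Gc (fun z => f.1 (z + h)) y = Gc f.1 (y + h)
  simp only [Gc, add_right_comm]

lemma memLp (f : Good) : MemLp f.1 2 volume := by
  obtain ⟨hf, ⟨M, hM⟩, R, hR⟩ := f.2
  have hs : HasCompactSupport f.1 := by
    refine HasCompactSupport.intro (isCompact_closedBall (0 : ℂ) R) fun y hy => hR y ?_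
    simpa using hy
  exact hs.memLp_of_bound hf.aestronglyMeasurable M (Filter.Eventually.of_forall hM)

/-- into `L²` -/
noncomputable def io : Good →ₗ[ℝ] Lp ℝ 2 (volume : Measure ℂ) where
  toFun f := (memLp f).toLp f.1
  map_add' f g := MemLp.toLp_add (memLp f) (memLp g)
  map_smul' a f := MemLp.toLp_const_smul a (memLp f)

lemma io_sq (f : Good) : ‖io f‖ ^ 2 = ∫ y, f.1 y ^ 2 := by
  rw [← real_inner_self_eq_norm_sq, L2.inner_def]
  refine integral_congr_ae ?_
  filter_upwards [(memLp f).coeFn_toLp] with y hy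
  change inner ℝ (((memLp f).toLp f.1) y) (((memLp f).toLp f.1) y) = _
  rw [hy, real_inner_self_eq_norm_sq, Real.norm_eq_abs, sq_abs]

lemma io_TT (h : ℂ) (f : Good) : ‖io (TT h f)‖ = ‖io f‖ := by
  rw [← pow_left_inj₀ (norm_nonneg _) (norm_nonneg _) two_ne_zero, io_sq, io_sq]
  exact integral_add_right_eq_self (fun y => f.1 y ^ 2) h

lemma integrable_sq (f : Good) : Integrable (fun y => f.1 y ^ 2) := (memLp f).integrable_sq

lemma dyadic (hB : BStmt) : ∃ C : ℝ, 0 < C ∧ ∀ (p K : ℕ), 0 < K → ∀ (h : ℂ) (f : Fin 5 → Good),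
    ∃ k ≤ 2 * p * K, ∑ i, ∫ y, (Gc (f i).1 (y + (2 ^ k : ℕ) * h) - Gc (f i).1 y) ^ 2 ≤
      3 * (C * ‖h‖ * 2 ^ k) * (5 / 2 ^ p + 2 * p / K) * ∑ i, ∫ y, (f i).1 y ^ 2 := by
  obtain ⟨C, hC, hB⟩ := hB
  refine ⟨C, hC, fun p K hK h f => ?_⟩
  have key : ∀ (n : ℕ) (g : Good), ‖io ((TT h ^ n) (MM g) - MM g)‖ ^ 2 =
      ∫ y, (Gc g.1 (y + n * h) - Gc g.1 y) ^ 2 := by
    intro n g
    rw [io_sq]
    congr 1; ext y
    rw [Submodule.coe_sub, Pi.sub_apply, TT_pow]
    rfl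
  have hB' : ∀ (n : ℕ) (g : Good),
      ‖io ((TT h ^ n) (MM g) - MM g)‖ ^ 2 ≤ C * ‖h‖ * n * ‖io g‖ ^ 2 := by
    intro n g
    obtain ⟨hg, ⟨M, hM⟩, R, hR⟩ := g.2
    have hM0 : 0 < M + 1 := by have := (abs_nonneg _).trans (hM 0); linarith
    set g' : Good := (M + 1)⁻¹ • g with hg'
    have e : g = (M + 1) • g' := by rw [hg', smul_smul, mul_inv_cancel₀ hM0.ne', one_smul]
    have h1 := hB g'.1 g'.2.1 (fun y => by
      simp only [hg', Submodule.coe_smul, Pi.smul_apply, smul_eq_mul, abs_mul,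
        abs_of_pos (inv_pos.2 hM0)]
      rw [inv_mul_le_iff₀ hM0]; linarith [hM y]) g'.2.2.2 (n * h)
    rw [← key, ← io_sq, norm_mul, Complex.norm_natCast] at h1
    have e2 : io ((TT h ^ n) (MM g) - MM g) = (M + 1) • io ((TT h ^ n) (MM g') - MM g') := by
      conv_lhs => rw [e]
      simp only [map_smul, map_sub, smul_sub]
    have e3 : io g = (M + 1) • io g' := by
      conv_lhs => rw [e]
      simp only [map_smul]
    rw [e2, e3, norm_smul, norm_smul, mul_pow, mul_pow]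
    calc _ ≤ ‖M + 1‖ ^ 2 * (C * (n * ‖h‖) * ‖io g'‖ ^ 2) := by gcongr
      _ = _ := by ring
  obtain ⟨k, hk, hle⟩ := EdgeAbs.main io (TT h) MM (io_TT h) (comm h) (C * ‖h‖) (by positivity)
    hB' f p K hK
  refine ⟨k, hk, ?_⟩
  simpa only [key, io_sq] using hle

end Crest.Agent.R40.Edge
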