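import Crest.Agent.R40.FC4
import Crest.Agent.R40.C4End
import Crest.Agent.R40.FCyc

/-! Row 40: the 4-cycle case. -/

set_option autoImplicit false

namespace Crest.Agent.R40.Fn
open MeasureTheory Set Filter Topology Real

namespace CfE

theorem alt_all (cl : ℝ → Fin 3) (hper : ∀ θ, cl (θ + 2 * π) = cl θ) (θ : ℝ) (u v : Fin 3)
    (h : C4p.pat cl θ = (u, v, u, v, u, v)) (j : ℤ) :
    cl (θ + 2 * j * (π / 3)) = u ∧ cl (θ + (2 * j + 1) * (π / 3)) = v := by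
  have hP : Function.Periodic cl (2 * π) := hper
  simp only [C4p.pat, Prod.mk.injEq] at h
  obtain ⟨a0, a1, a2, a3, a4, a5⟩ := h
  obtain ⟨q, hq⟩ : ∃ q : ℤ, j = 3 * q ∨ j = 3 * q + 1 ∨ j = 3 * q + 2 := ⟨j / 3, by omega⟩
  rcases hq with rfl | rfl | rfl
  · rw [show θ + 2 * ((3 * q : ℤ) : ℝ) * (π / 3) = θ + q * (2 * π) by push_cast; ring,
      show θ + (2 * ((3 * q : ℤ) : ℝ) + 1) * (π / 3) = θ + π / 3 + q * (2 * π) by
        push_cast; ring, hP.int_mul q, hP.int_mul q]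
    exact ⟨a0, a1⟩
  · rw [show θ + 2 * ((3 * q + 1 : ℤ) : ℝ) * (π / 3) = θ + 2 * (π / 3) + q * (2 * π) by
        push_cast; ring,
      show θ + (2 * ((3 * q + 1 : ℤ) : ℝ) + 1) * (π / 3) = θ + 3 * (π / 3) + q * (2 * π) by
        push_cast; ring, hP.int_mul q, hP.int_mul q]
    exact ⟨a2, a3⟩
  · rw [show θ + 2 * ((3 * q + 2 : ℤ) : ℝ) * (π / 3) = θ + 4 * (π / 3) + q * (2 * π) by
        push_cast; ring,
      show θ + (2 * ((3 * q + 2 : ℤ) : ℝ) + 1) * (π / 3) = θ + 5 * (π / 3) + q * (2 * π) by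
        push_cast; ring, hP.int_mul q, hP.int_mul q]
    exact ⟨a4, a5⟩

theorem tp_of {c : ℂ → Fin 5} {x : ℂ} (a a' b b' : Fin 5)
    (hall : ∀ i : Fin 5, i = a ∨ i = a' ∨ i = b ∨ i = b' ∨ i = 4) (θ : ℝ)
    (hA : ∀ k : ℤ, V c x ∅ (θ + 2 * k * (π / 3)) a ∧ V c x ∅ (θ + 2 * k * (π / 3)) a')
    (hF : ∀ k : ℤ, Free c 4 (x + e (θ + (2 * k + 1) * (π / 3))))
    (hcone : ∀ (k : ℤ) (m : Fin 5), ¬ ∀ j, j ≠ m → Free c j (x + e (θ + (2 * k + 1) * (π / 3))) ∨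
      Free c j (x + e (θ + (2 * k + 1) * (π / 3) + π))) : C4E.TP c x a a' 4 θ := by
  intro k
  refine ⟨⟨(hA k).1.1, (hA k).2.1⟩, fun i => ⟨fun hi => ?_, fun hi => hi ▸ hF k⟩⟩
  have e1 : θ + 2 * k * (π / 3) + π / 3 = θ + (2 * k + 1) * (π / 3) := by ring
  have e2 : θ + 2 * ((k + 2 : ℤ) : ℝ) * (π / 3) = θ + (2 * k + 1) * (π / 3) + π := by
    push_cast; ring
  have na := (hA k).1.2.1
  have na' := (hA k).2.2.1
  rw [e1] at na na'
  have fa := (hA (k + 2)).1.1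
  have fa' := (hA (k + 2)).2.1
  rw [e2] at fa fa'
  rcases hall i with rfl | rfl | rfl | rfl | rfl
  · exact absurd hi na
  · exact absurd hi na'
  · refine absurd (fun j hj => ?_) (hcone k b')
    rcases hall j with rfl | rfl | rfl | rfl | rfl
    exacts [Or.inr fa, Or.inr fa', Or.inl hi, absurd rfl hj, Or.inl (hF k)]
  · refine absurd (fun j hj => ?_) (hcone k b)
    rcases hall j with rfl | rfl | rfl | rfl | rfl
    exacts [Or.inr fa, Or.inr fa', absurd rfl hj, Or.inl hi, Or.inl (hF k)]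
  · rfl

theorem kill {c : ℂ → Fin 5} (hc : Good c) (hD : ThmD c) {x : ℂ} {m i j : Fin 5}
    (hmi : m ≠ i) (hij : i ≠ j) (hmj : m ≠ j) (hN : NS c x {i, j})
    (h : ∀ᵐ θ : ℝ, ¬ Free c m (x + e θ)) : False := by
  have hA := hAVAPI c hc x m
  have h1 : Avoid c x m univ := hA.1 _ _ (hAV1 c hc x m) (h.mono fun θ hθ _ => hθ)
  exact no_triple hc hD hmi hij hmj (hA.2.2.2.2.2 (hA.2.2.2.2.1.1 h1) _ hN)

end CfE

theorem cf0_end (hD : THMDD) (hC : CONE) (hNP : NP) (hL : CONNL) (hSl : SLICE) : CF0 := by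
  classical
  intro c hc x h01 h12 h23 h30
  have hD' : ThmD c := hD c hc
  let Fr : Fin 5 → ℝ → Prop := fun i θ => Free c i (x + e θ)
  let cl : ℝ → Fin 3 := fun θ => if Fr 0 θ ∧ Fr 2 θ then 0 else if Fr 1 θ ∧ Fr 3 θ then 1 else 2
  have hper : ∀ θ, cl (θ + 2 * π) = cl θ := by
    intro θ; simp only [cl, Fr, e_periodic θ]
  have hcl0 : ∀ θ, cl θ = 0 → Fr 0 θ ∧ Fr 2 θ := by
    intro θ h; by_contra hn; simp only [cl, hn, if_false] at h; split_ifs at h <;> simp at h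
  have hcl1 : ∀ θ, cl θ = 1 → Fr 1 θ ∧ Fr 3 θ := by
    intro θ h; by_contra hn; simp only [cl, hn, if_false] at h; split_ifs at h <;> simp at h
  have hcl2 : ∀ θ, cl θ = 2 → ¬ (Fr 0 θ ∧ Fr 2 θ) ∧ ¬ (Fr 1 θ ∧ Fr 3 θ) := by
    intro θ h
    refine ⟨fun hn => ?_, fun hn => ?_⟩
    · simp [cl, hn] at h
    · simp only [cl, hn, and_self, if_true] at h; split_ifs at h <;> simp at h
  have hcone : ∀ᵐ θ : ℝ, ∀ m : Fin 5, ¬ ∀ k, k ≠ m → Fr k θ ∨ Fr k (θ + π) := by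
    refine ae_all_iff.2 fun m => ?_
    fin_cases m
    · exact not_cone_of_edge hc hD' hC (by decide) (by decide) (by decide) h12
    · exact not_cone_of_edge hc hD' hC (by decide) (by decide) (by decide) h23
    · exact not_cone_of_edge hc hD' hC (by decide) (by decide) (by decide) h30
    · exact not_cone_of_edge hc hD' hC (by decide) (by decide) (by decide) h01
    · exact not_cone_of_edge hc hD' hC (by decide) (by decide) (by decide) h01
  have hLt := L_le_two hc hD' x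
  have hV : ∀ᵐ θ : ℝ, (cl θ = 0 → V c x ∅ θ 0 ∧ V c x ∅ θ 2) ∧
      (cl θ = 1 → V c x ∅ θ 1 ∧ V c x ∅ θ 3) ∧ (cl θ = 2 → V c x ∅ θ 4) := by
    filter_upwards [hVRULE c hc x _ ∅ (by simp) h01, hVRULE c hc x _ ∅ (by simp) h12,
      hVRULE c hc x _ ∅ (by simp) h23, hVRULE c hc x _ ∅ (by simp) h30, hLt]
      with θ ⟨i1, n1, v1⟩ ⟨i2, n2, v2⟩ ⟨i3, n3, v3⟩ ⟨i4, n4, v4⟩ hL2
    have hT : (V c x ∅ θ 0 ∧ V c x ∅ θ 2) ∨ (V c x ∅ θ 1 ∧ V c x ∅ θ 3) ∨ V c x ∅ θ 4 := by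
      have t1 : V c x ∅ θ 2 ∨ V c x ∅ θ 3 ∨ V c x ∅ θ 4 := by
        fin_cases i1 <;> simp_all
      have t2 : V c x ∅ θ 0 ∨ V c x ∅ θ 3 ∨ V c x ∅ θ 4 := by
        fin_cases i2 <;> simp_all
      have t3 : V c x ∅ θ 0 ∨ V c x ∅ θ 1 ∨ V c x ∅ θ 4 := by
        fin_cases i3 <;> simp_all
      have t4 : V c x ∅ θ 1 ∨ V c x ∅ θ 2 ∨ V c x ∅ θ 4 := by
        fin_cases i4 <;> simp_all
      tauto
    refine ⟨fun h => ?_, fun h => ?_, fun h => ?_⟩
    · obtain ⟨f0, f2⟩ := hcl0 θ h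
      rcases hT with h' | h' | h'
      · exact h'
      · exact (hL2 0 1 2 (by decide) (by decide) (by decide) ⟨f0, h'.1.1, f2⟩).elim
      · exact (hL2 0 4 2 (by decide) (by decide) (by decide) ⟨f0, h'.1, f2⟩).elim
    · obtain ⟨f1, f3⟩ := hcl1 θ h
      rcases hT with h' | h' | h'
      · exact (hL2 1 0 3 (by decide) (by decide) (by decide) ⟨f1, h'.1.1, f3⟩).elim
      · exact h'
      · exact (hL2 1 4 3 (by decide) (by decide) (by decide) ⟨f1, h'.1, f3⟩).elim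
    · obtain ⟨n0, n1⟩ := hcl2 θ h
      rcases hT with h' | h' | h'
      · exact (n0 ⟨h'.1.1, h'.2.1⟩).elim
      · exact (n1 ⟨h'.1.1, h'.2.1⟩).elim
      · exact h'
  have h3 : ∀ k : Fin 3, k = 0 ∨ k = 1 ∨ k = 2 := by decide
  have hae : ∀ᵐ θ : ℝ, cl (θ + π / 3) ≠ cl θ ∧ ¬ (cl θ = 0 ∧ cl (θ + π) = 1) := by
    filter_upwards [hV, ae_add_shift hV (π / 3), hcone] with θ v w co
    refine ⟨fun h => ?_, fun h => co 4 fun k hk => ?_⟩
    · rcases h3 (cl θ) with h' | h' | h'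
      · exact (v.1 h').1.2.1 (w.1 (h.trans h')).1.1
      · exact (v.2.1 h').1.2.1 (w.2.1 (h.trans h')).1.1
      · exact (v.2.2 h').2.1 (w.2.2 (h.trans h')).1
    · obtain ⟨f0, f2⟩ := hcl0 _ h.1
      obtain ⟨f1, f3⟩ := hcl1 _ h.2
      fin_cases k
      exacts [Or.inl f0, Or.inr f1, Or.inl f2, Or.inr f3, absurd rfl hk]
  have hstep : ∀ᵐ θ : ℝ, cl (θ + π / 3) ≠ cl θ ∧ cl (θ + 2 * π / 3) ≠ cl (θ + π / 3) ∧
      cl (θ + π) ≠ cl (θ + 2 * π / 3) := by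
    filter_upwards [hae, ae_add_shift hae (π / 3), ae_add_shift hae (2 * π / 3)] with θ a b d
    rw [show θ + π / 3 + π / 3 = θ + 2 * π / 3 by ring] at b
    rw [show θ + 2 * π / 3 + π / 3 = θ + π by ring] at d
    exact ⟨a.1, b.1, d.1⟩
  by_cases hB : ∀ᵐ θ : ℝ, ¬ (Fr 1 θ ∧ Fr 3 θ)
  · refine CfE.kill hc hD' (m := 1) (by decide) (by decide) (by decide) h23 ?_
    have hB' : ∀ᵐ θ : ℝ, cl θ ≠ 1 := hB.mono fun θ h h' => h (hcl1 θ h')
    filter_upwards [hB', ae_add_shift hB' (π / 3), ae_add_shift hB' (2 * π / 3),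
      ae_add_shift hB' π, hstep, hV, hcone, hLt] with θ b0 b1 b2 b3 ⟨s0, s1, s2⟩ v co hL2 f1
    rcases h3 (cl θ) with h' | h' | h'
    · obtain ⟨f0, f2⟩ := hcl0 θ h'
      exact hL2 0 1 2 (by decide) (by decide) (by decide) ⟨f0, f1, f2⟩
    · exact b0 h'
    · have h4 : cl (θ + π) = 0 := by
        revert b1 b2 b3 s0 s1 s2
        rw [h']
        generalize cl (θ + π / 3) = u, cl (θ + 2 * π / 3) = v', cl (θ + π) = w
        revert u v' w; decide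
      obtain ⟨f0, f2⟩ := hcl0 _ h4
      refine co 3 fun k hk => ?_
      fin_cases k
      exacts [Or.inr f0, Or.inl f1, Or.inr f2, absurd rfl hk, Or.inl (v.2.2 h').1]
  by_cases hA : ∀ᵐ θ : ℝ, ¬ (Fr 0 θ ∧ Fr 2 θ)
  · refine CfE.kill hc hD' (m := 0) (by decide) (by decide) (by decide) h12 ?_
    have hA' : ∀ᵐ θ : ℝ, cl θ ≠ 0 := hA.mono fun θ h h' => h (hcl0 θ h')
    filter_upwards [hA', ae_add_shift hA' (π / 3), ae_add_shift hA' (2 * π / 3),
      ae_add_shift hA' π, hstep, hV, hcone, hLt] with θ b0 b1 b2 b3 ⟨s0, s1, s2⟩ v co hL2 f0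
    rcases h3 (cl θ) with h' | h' | h'
    · exact b0 h'
    · obtain ⟨f1, f3⟩ := hcl1 θ h'
      exact hL2 1 0 3 (by decide) (by decide) (by decide) ⟨f1, f0, f3⟩
    · have h4 : cl (θ + π) = 1 := by
        revert b1 b2 b3 s0 s1 s2
        rw [h']
        generalize cl (θ + π / 3) = u, cl (θ + 2 * π / 3) = v', cl (θ + π) = w
        revert u v' w; decide
      obtain ⟨f1, f3⟩ := hcl1 _ h4
      refine co 2 fun k hk => ?_
      fin_cases k
      exacts [Or.inl f0, Or.inr f1, absurd rfl hk, Or.inr f3, Or.inl (v.2.2 h').1]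
  have hB0 : volume {θ : ℝ | Free c 1 (x + e θ) ∧ Free c 3 (x + e θ)} ≠ 0 := by
    intro h; apply hB; rw [ae_iff]; simpa using h
  have hA0 : volume {θ : ℝ | Free c 0 (x + e θ) ∧ Free c 2 (x + e θ)} ≠ 0 := by
    intro h; apply hA; rw [ae_iff]; simpa using h
  obtain ⟨t, ha, hb, hcov⟩ := C4p.point hL cl hper hae (by
    intro θ₀ k hk f1 f2
    rcases h3 k with rfl | rfl | rfl
    · exact hNP c hc x 0 2 1 3 θ₀ (by decide) hB0 (f1.mono hcl0) (f2.mono hcl0)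
    · exact hNP c hc x 1 3 0 2 θ₀ (by decide) hA0 (f1.mono hcl1) (f2.mono hcl1)
    · exact hk rfl)
  have hall := hV.and hcone
  have hZ : ∀ᵐ θ : ℝ, ∀ n : ℤ, ((cl (θ + n * (π / 3)) = 0 →
        V c x ∅ (θ + n * (π / 3)) 0 ∧ V c x ∅ (θ + n * (π / 3)) 2) ∧
      (cl (θ + n * (π / 3)) = 1 → V c x ∅ (θ + n * (π / 3)) 1 ∧ V c x ∅ (θ + n * (π / 3)) 3) ∧
      (cl (θ + n * (π / 3)) = 2 → V c x ∅ (θ + n * (π / 3)) 4)) ∧
      ∀ m : Fin 5, ¬ ∀ k, k ≠ m → Fr k (θ + n * (π / 3)) ∨ Fr k (θ + n * (π / 3) + π) :=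
    ae_all_iff.2 fun n => ae_add_shift hall (n * (π / 3))
  have hTA : ∀ᵐ θ : ℝ, C4p.pat cl θ = (0, 2, 0, 2, 0, 2) → C4E.TP c x 0 2 4 θ := by
    filter_upwards [hZ] with θ z h
    have hal := CfE.alt_all cl hper θ 0 2 h
    refine CfE.tp_of 0 2 1 3 (by decide) θ (fun k => ?_) (fun k => ?_) (fun k => ?_)
    · have := (z (2 * k)).1.1
      push_cast at this
      exact this (hal k).1
    · have := (z (2 * k + 1)).1.2.2
      push_cast at this
      exact (this (hal k).2).1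
    · have := (z (2 * k + 1)).2
      push_cast at this
      exact this
  have hTB : ∀ᵐ θ : ℝ, C4p.pat cl θ = (2, 1, 2, 1, 2, 1) → C4E.TP c x 1 3 4 (θ + π / 3) := by
    filter_upwards [hZ] with θ z h
    have hal := CfE.alt_all cl hper θ 2 1 h
    refine CfE.tp_of 1 3 0 2 (by decide) _ (fun k => ?_) (fun k => ?_) (fun k => ?_)
    · have := (z (2 * k + 1)).1.2.1
      push_cast at this
      rw [show θ + π / 3 + 2 * k * (π / 3) = θ + (2 * k + 1) * (π / 3) by ring]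
      exact this (hal k).2
    · have := (z (2 * (k + 1))).1.2.2
      have h2 := (hal (k + 1)).1
      push_cast at this h2
      rw [show θ + π / 3 + (2 * k + 1) * (π / 3) = θ + 2 * (k + 1) * (π / 3) by ring]
      exact (this h2).1
    · have := (z (2 * (k + 1))).2
      push_cast at this
      rw [show θ + π / 3 + (2 * k + 1) * (π / 3) = θ + 2 * (k + 1) * (π / 3) by ring]
      exact this
  refine C4E.c4end (tri0_of hD) hKEY hAV1 hSl hVRULE hNSL hc h01 h12 h23 h30 (t := t)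
    (ha.mp (eventually_nae_of_ae hTA)) (hb.mp (eventually_nae_of_ae hTB)) ?_
  filter_upwards [hcov, eventually_nae_of_ae hTA, eventually_nae_of_ae hTB] with θ h a b
  exact h.imp a b

end Crest.Agent.R40.Fn
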