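import Crest.Agent.R40.MDefs

/-! Row 40: the few cycle statements used in the final assembly (own namespace, no clashes). -/

set_option autoImplicit false

namespace Crest.Agent.R40.Fn
open MeasureTheory Set Filter Topology Real

def DD (c : ℂ → Fin 5) (x : ℂ) (s t : Fin 5) : Prop := s ≠ t ∧ ∀ Es Et : Set ℝ,
  MeasurableSet Es → MeasurableSet Et → Avoid c x s Es → Avoid c x t Et →
  ∀ᵐ θ : ℝ, θ ∉ Es ∨ θ ∉ Et

def THMDD : Prop := ∀ c : ℂ → Fin 5, Good c → ∀ x s t, ¬ DD c x s t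

def NP : Prop := ∀ c : ℂ → Fin 5, Good c → ∀ x (i j k l : Fin 5) (θ₀ : ℝ),
  ({i, j, k, l} : Finset (Fin 5)).card = 4 →
  volume {θ : ℝ | Free c k (x + e θ) ∧ Free c l (x + e θ)} ≠ 0 →
  (∃ᶠ θ in nae θ₀, Free c i (x + e θ) ∧ Free c j (x + e θ)) →
  (∃ᶠ θ in nae (θ₀ + π / 3), Free c i (x + e θ) ∧ Free c j (x + e θ)) → False

def CONNL : Prop := ∀ (X Y : Type) [Finite X] (pat : ℝ → X) (Φ : X → Y),
  (∀ (θ₀ : ℝ) (τ τ' : X), (∃ᶠ θ in nae θ₀, pat θ = τ) → (∃ᶠ θ in nae θ₀, pat θ = τ') → Φ τ = Φ τ') →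
  ∃ y, ∀ᵐ θ : ℝ, Φ (pat θ) = y

/-- Theorem D for one colouring -/
def ThmD (c : ℂ → Fin 5) : Prop := ∀ x s t, ¬ DD c x s t

end Crest.Agent.R40.Fn
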