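import Crest.Agent.R40.FDefs
import Crest.Agent.R40.MBasic

set_option autoImplicit false

namespace Crest.Agent.R40.Fn
open MeasureTheory Set Filter Topology Real

theorem norm_e_sub_e_third (a : ℝ) : ‖e a - e (a + π / 3)‖ = 1 := by
  have : e a - e (a + π / 3) = -(Complex.exp (a * Complex.I) *
      (Complex.exp (Complex.I * (π / 3 : ℝ)) - 1)) := by
    simp only [e, circleMap_zero, Complex.ofReal_one, one_mul]
    rw [mul_sub, mul_one, ← Complex.exp_add, neg_sub]
    congr 2
    push_cast; ring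
  rw [this, norm_neg, norm_mul, Complex.norm_exp_ofReal_mul_I, one_mul,
    Complex.norm_exp_I_mul_ofReal_sub_one, show π / 3 / 2 = π / 6 by ring, Real.sin_pi_div_six]
  norm_num

/-- a property holding generically near every point holds almost everywhere -/
theorem ae_of_forall_eventually_nae {p : ℝ → Prop} (h : ∀ θ₀ : ℝ, ∀ᶠ θ in nae θ₀, p θ) :
    ∀ᵐ θ : ℝ, p θ := by
  rw [ae_iff]
  refine measure_null_of_locally_null _ fun x _ => ?_
  obtain ⟨δ, hδ, hp⟩ := eventually_nae.1 (h x)
  refine ⟨{a | ¬ p a} ∩ Metric.ball x δ, inter_mem_nhdsWithin _ (Metric.ball_mem_nhds x hδ), ?_⟩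
  rw [ae_iff] at hp
  refine measure_mono_null (fun a ha => ?_) hp
  exact fun h' => ha.1 (h' ha.2)

theorem np (hNSL : NSL) (hKEY : KEY) (h1 : AV1) (h3 : AV3) (_hA : AVAPI) : NP := by
  classical
  intro c hc x i j k l θ₀ hcard hJ hf1 hf2
  set z := x + e θ₀ with hz
  set z2 := x + e (θ₀ + π / 3) with hz2
  have n1 : NS c z {i, j} := hNSL c hc x _ θ₀ (hf1.mono fun θ h => by simpa using h)
  have n2 : NS c z2 {i, j} := hNSL c hc x _ _ (hf2.mono fun θ h => by simpa using h)
  have d1 : ‖x - z‖ = 1 := by simp [hz]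
  have d2 : ‖x - z2‖ = 1 := by simp [hz2]
  have d3 : ‖z - z2‖ = 1 := by
    rw [hz, hz2, add_sub_add_left_eq_sub]; exact norm_e_sub_e_third θ₀
  have hm : ∀ (w : ℂ) (n : Fin 5), MeasurableSet {b : ℝ | Free c n (w + e b)} := fun w n =>
    (continuous_const.add continuous_e).measurable (measurableSet_free hc.1 n)
  have k1 := hKEY c hc z {i, j}
    (fun n => if n = k ∨ n = l then {b | Free c n (x + e b)} else {b | ¬ Free c n (z + e b)}) n1
    (fun n => by
      split_ifs
      · exact hm _ _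
      · exact (hm _ _).compl)
    (fun n _ => by
      split_ifs
      · exact h3 c hc z x n d1
      · exact h1 c hc z n)
  have k2 := hKEY c hc z2 {i, j}
    (fun n => if n = k ∨ n = l then {b | Free c n (x + e b)} else {b | Free c n (z + e b)}) n2
    (fun n => by
      split_ifs
      · exact hm _ _
      · exact hm _ _)
    (fun n _ => by
      split_ifs
      · exact h3 c hc z2 x n d2
      · exact h3 c hc z2 z n d3)
  apply hJ
  rw [measure_eq_zero_iff_ae_notMem]
  filter_upwards [k1, k2] with b ⟨n, hn, hb⟩ ⟨n', hn', hb'⟩ hbJ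
  have hkl : ∀ n, n = k ∨ n = l → Free c n (x + e b) := by
    rintro n (rfl | rfl)
    · exact hbJ.1
    · exact hbJ.2
  by_cases hnk : n = k ∨ n = l
  · rw [if_pos hnk] at hb; exact hb (hkl n hnk)
  by_cases hnk' : n' = k ∨ n' = l
  · rw [if_pos hnk'] at hb'; exact hb' (hkl n' hnk')
  rw [if_neg hnk] at hb
  rw [if_neg hnk'] at hb'
  have hcc : (({i, j, k, l} : Finset (Fin 5))ᶜ).card ≤ 1 := by
    rw [Finset.card_compl, hcard]; simp
  have hnn : n = n' := by
    refine Finset.card_le_one.1 hcc n ?_ n' ?_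
    · simp only [Finset.mem_insert, Finset.mem_singleton] at hn
      simp only [Finset.mem_compl, Finset.mem_insert, Finset.mem_singleton]; tauto
    · simp only [Finset.mem_insert, Finset.mem_singleton] at hn'
      simp only [Finset.mem_compl, Finset.mem_insert, Finset.mem_singleton]; tauto
  subst hnn
  exact hb' (not_not.1 hb)

theorem connl : CONNL := by
  classical
  intro X Y _ pat Φ h
  have hex : ∀ θ₀ : ℝ, ∃ τ, ∃ᶠ θ in nae θ₀, pat θ = τ := by
    intro θ₀
    haveI := nae_neBot θ₀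
    by_contra hn
    push Not at hn
    obtain ⟨θ, hθ⟩ := (Filter.eventually_all.2 hn).exists
    exact hθ _ rfl
  choose τ hτ using hex
  have hev : ∀ θ₀ : ℝ, ∀ᶠ θ in nae θ₀, Φ (pat θ) = Φ (τ θ₀) := by
    intro θ₀
    have : ∀ τ', ∀ᶠ θ in nae θ₀, pat θ = τ' → Φ τ' = Φ (τ θ₀) := by
      intro τ'
      by_cases hf : ∃ᶠ θ in nae θ₀, pat θ = τ'
      · exact Eventually.of_forall fun _ _ => h θ₀ _ _ hf (hτ θ₀)
      · rw [Filter.not_frequently] at hf
        exact hf.mono fun θ h1 h2 => absurd h2 h1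
    exact (Filter.eventually_all.2 this).mono fun θ hθ => hθ _ rfl
  have hlc : IsLocallyConstant (fun θ₀ => Φ (τ θ₀)) := by
    rw [IsLocallyConstant.iff_eventually_eq]
    intro θ₀
    filter_upwards [eventually_eventually_nae (hev θ₀)] with θ₁ h1
    haveI := nae_neBot θ₁
    obtain ⟨θ, h2, h3⟩ := (h1.and (hev θ₁)).exists
    rw [← h3, h2]
  refine ⟨Φ (τ 0), ae_of_forall_eventually_nae fun θ₀ => ?_⟩
  rw [hlc.apply_eq_of_preconnectedSpace 0 θ₀]
  exact hev θ₀

end Crest.Agent.R40.Fn
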