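import Crest.Agent.R40.MDefs

/-! Row 40: present colours are connected in `N(z)`. -/

set_option autoImplicit false

namespace Crest.Agent.R40
open MeasureTheory Set Filter Topology

theorem conn (hE : EDGE) : CONN := by
  classical
  intro c hc z χ hχ i₀ j₀ hi₀ hj₀
  by_contra hne
  set X : Finset (Fin 5) := Finset.univ.filter fun i => Pres c z i ∧ χ i = χ i₀ with hX
  set Y : Finset (Fin 5) := Finset.univ.filter fun i => Pres c z i ∧ χ i ≠ χ i₀ with hY
  have hXY : Disjoint X Y := by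
    rw [Finset.disjoint_left]
    intro i h1 h2
    simp only [hX, hY, Finset.mem_filter, Finset.mem_univ, true_and] at h1 h2
    exact h2.2 h1.2
  have hpair : ∀ p : Fin 5 × Fin 5, ∃ ε : ℝ, 0 < ε ∧ (p.1 ∈ X → p.2 ∈ Y →
      ∀ᶠ y in nae z, ¬ (G c p.1 y < ε ∧ G c p.2 y < ε)) := by
    rintro ⟨i, j⟩
    by_cases h : i ∈ X ∧ j ∈ Y
    · obtain ⟨h1, h2⟩ := h
      have h1' := h1
      have h2' := h2
      simp only [hX, hY, Finset.mem_filter, Finset.mem_univ, true_and] at h1' h2'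
      have hij : χ i ≠ χ j := fun h => h2'.2 (h ▸ h1'.2)
      have hn : ¬ NS c z {i, j} := fun hN =>
        hij (hχ i j h1'.1 h2'.1 (fun h => hij (h ▸ rfl)) hN)
      unfold NS at hn
      push Not at hn
      obtain ⟨ε, hε, h⟩ := hn
      refine ⟨ε, hε, fun _ _ => h.mono fun y hy hh => ?_⟩
      obtain ⟨k, hk, hle⟩ := hy
      simp only [Finset.mem_insert, Finset.mem_singleton] at hk
      rcases hk with rfl | rfl
      · exact absurd hh.1 (not_lt.2 hle)
      · exact absurd hh.2 (not_lt.2 hle)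
    · exact ⟨1, one_pos, fun h1 h2 => absurd ⟨h1, h2⟩ h⟩
  choose ε hε0 hε using hpair
  obtain ⟨p₀, -, hp₀⟩ := Finset.exists_min_image Finset.univ ε ⟨(0, 0), Finset.mem_univ _⟩
  set ε₀ := ε p₀ with hε₀
  have h1 : ∀ᶠ y in nae z, ∀ p : Fin 5 × Fin 5, p.1 ∈ X → p.2 ∈ Y →
      ¬ (G c p.1 y < ε₀ ∧ G c p.2 y < ε₀) := by
    rw [Filter.eventually_all]
    intro p
    by_cases h : p.1 ∈ X ∧ p.2 ∈ Y
    · refine (hε p h.1 h.2).mono fun y hy _ _ hh => hy ⟨?_, ?_⟩
      · exact hh.1.trans_le (hp₀ p (Finset.mem_univ _))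
      · exact hh.2.trans_le (hp₀ p (Finset.mem_univ _))
    · exact Filter.Eventually.of_forall fun y h1 h2 => absurd ⟨h1, h2⟩ h
  have h2 : ∀ᶠ y in nae z, ∀ i : Fin 5, ¬ Pres c z i → c y ≠ i := by
    rw [Filter.eventually_all]
    intro i
    by_cases h : Pres c z i
    · exact Filter.Eventually.of_forall fun y hh => absurd h hh
    · have h' := h
      unfold Pres at h'
      rw [Filter.not_frequently] at h'
      exact h'.mono fun y hy _ => hy
  obtain ⟨δ, hδ, hae⟩ := eventually_nae.1 (h1.and h2)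
  set r : ℝ := min δ 1 with hr
  have hr0 : 0 < r := lt_min hδ one_pos
  have hr1 : r ≤ 1 := min_le_right _ _
  have hrδ : r ≤ δ := min_le_left _ _
  set a := volume {y | y ∈ Metric.ball z r ∧ c y ∈ X} with ha
  set b := volume {y | y ∈ Metric.ball z r ∧ c y ∈ Y} with hb
  have hfin : ∀ Z : Finset (Fin 5), volume {y | y ∈ Metric.ball z r ∧ c y ∈ Z} ≠ ⊤ := fun Z =>
    ne_top_of_le_ne_top (measure_ball_lt_top (μ := volume) (x := z) (r := r)).ne
      (measure_mono fun y hy => hy.1)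
  have hpos : ∀ (Z : Finset (Fin 5)) (i : Fin 5), i ∈ Z → Pres c z i →
      volume {y | y ∈ Metric.ball z r ∧ c y ∈ Z} ≠ 0 := by
    intro Z i hiZ hi h0
    refine frequently_nae.1 hi r hr0 (measure_mono_null ?_ h0)
    intro y hy
    exact ⟨hy.1, hy.2 ▸ hiZ⟩
  have ha0 : a ≠ 0 := hpos X i₀ (by simp [hX, hi₀]) hi₀
  have hb0 : b ≠ 0 := hpos Y j₀ (by simp [hY, hj₀, Ne.symm hne]) hj₀
  have har : 0 < a.toReal := ENNReal.toReal_pos ha0 (hfin X)
  have hbr : 0 < b.toReal := ENNReal.toReal_pos hb0 (hfin Y)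
  obtain ⟨δ', hδ', hE'⟩ := hE ε₀ (min a.toReal b.toReal / r ^ 2) (hε0 p₀)
    (div_pos (lt_min har hbr) (by positivity))
  have hk : min a.toReal b.toReal / r ^ 2 * r ^ 2 = min a.toReal b.toReal :=
    div_mul_cancel₀ _ (by positivity)
  obtain ⟨i, hi, j, hj, hv⟩ := hE' c hc z r X Y hr0 hr1 hXY (by
      have : volume {y | y ∈ Metric.ball z r ∧ c y ∉ X ∧ c y ∉ Y} = 0 := by
        refine measure_mono_null ?_ (ae_iff.1 hae)
        intro y hy hh
        have hd : dist y z < δ := lt_of_lt_of_le hy.1 hrδ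
        have h3 := (hh hd).2 (c y)
        by_cases hp : Pres c z (c y)
        · by_cases hq : χ (c y) = χ i₀
          · exact hy.2.1 (by simp [hX, hp, hq])
          · exact hy.2.2 (by simp [hY, hp, hq])
        · exact h3 hp rfl
      rw [this]; exact zero_le)
    (by
      rw [hk]
      exact (ENNReal.ofReal_le_ofReal (min_le_left _ _)).trans
        (ENNReal.ofReal_toReal (hfin X)).le)
    (by
      rw [hk]
      exact (ENNReal.ofReal_le_ofReal (min_le_right _ _)).trans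
        (ENNReal.ofReal_toReal (hfin Y)).le)
  refine hv (measure_mono_null ?_ (ae_iff.1 hae))
  intro y hy hh
  have hd : dist y z < δ := lt_of_lt_of_le hy.1 hrδ
  exact (hh hd).1 (i, j) hi hj hy.2

end Crest.Agent.R40
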