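import Crest.Agent.R40.MDefs
import Crest.Agent.R40.EdgeE

set_option autoImplicit false

namespace Crest.Agent.R40
open MeasureTheory Set Filter Topology

theorem edge (hB : BASIC) : EDGE := by
  intro ε κ hε hκ
  have hp : 0 < 2 * Real.pi := by positivity
  obtain ⟨δ, hδ, h⟩ := Edge.edgeU Edge.bStmt (2 * Real.pi * ε) κ (by positivity) hκ
  refine ⟨δ, hδ, fun c hc z r X Y hr hr1 hXY h1 h2 h3 => ?_⟩
  obtain ⟨-, -, b3, b4, b5, b6⟩ := hB c hc
  obtain ⟨i, hi, j, hj, hv⟩ := h c hc.1 (by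
    filter_upwards [b6] with z hz
    have := b5 (c z) z
    rw [(b4 _ _).1 hz] at this
    simpa using this) z r hr hr1 (Metric.ball z r) (convex_ball z r) Metric.isOpen_ball.measurableSet
    subset_rfl X Y hXY h1 h2 h3
  refine ⟨i, hi, j, hj, fun h0 => hv.ne' (measure_mono_null ?_ h0)⟩
  rintro y ⟨hy, a1, a2⟩
  have k : ∀ i, volume {th : ℝ | th ∈ Ioc 0 (2 * Real.pi) ∧ c (y + circleMap 0 1 th) = i} <
      ENNReal.ofReal (2 * Real.pi * ε) → G c i y < ε := by
    intro i hi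
    have := b5 i y
    rw [this, ENNReal.ofReal_lt_ofReal_iff (by positivity)] at hi
    exact lt_of_mul_lt_mul_left hi hp.le
  exact ⟨hy, k i a1, k j a2⟩

end Crest.Agent.R40
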