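import Crest.Agent.R40.MDefs

/-! Row 40: EX (side functions of a forest on five vertices). -/

set_option autoImplicit false

namespace Crest.Agent.R40

set_option synthInstance.maxSize 100000 in
set_option synthInstance.maxHeartbeats 1000000 in
theorem mex_bool : ∀ b02 b03 b04 b12 b13 b14 b23 b24 b34 : Bool,
    ¬ (b12 ∧ b02) → ¬ (b13 ∧ b03) → ¬ (b14 ∧ b04) →
    ¬ (b12 ∧ b23 ∧ b03) → ¬ (b12 ∧ b24 ∧ b04) → ¬ (b13 ∧ b23 ∧ b02) →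
    ¬ (b13 ∧ b34 ∧ b04) → ¬ (b14 ∧ b24 ∧ b02) → ¬ (b14 ∧ b34 ∧ b03) →
    ¬ (b12 ∧ b23 ∧ b34 ∧ b04) → ¬ (b12 ∧ b24 ∧ b34 ∧ b03) → ¬ (b13 ∧ b23 ∧ b24 ∧ b04) →
    ¬ (b13 ∧ b34 ∧ b24 ∧ b02) → ¬ (b14 ∧ b24 ∧ b23 ∧ b03) → ¬ (b14 ∧ b34 ∧ b23 ∧ b02) →
    ∃ p2 p3 p4 : ZMod 2, (b02 → p2 = 0) ∧ (b03 → p3 = 0) ∧ (b04 → p4 = 0) ∧
      (b12 → p2 = 1) ∧ (b13 → p3 = 1) ∧ (b14 → p4 = 1) ∧
      (b23 → p2 = p3) ∧ (b24 → p2 = p4) ∧ (b34 → p3 = p4) := by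
  decide +kernel

theorem mex_acyc {Γ : Fin 5 → Fin 5 → Prop} (h : Acyc Γ) (f : Fin 5 → Fin 5)
    (hf : Function.Injective f) :
    ¬ (Γ (f 0) (f 1) ∧ Γ (f 1) (f 2) ∧ Γ (f 2) (f 0)) ∧
    ¬ (Γ (f 0) (f 1) ∧ Γ (f 1) (f 2) ∧ Γ (f 2) (f 3) ∧ Γ (f 3) (f 0)) ∧
    ¬ (Γ (f 0) (f 1) ∧ Γ (f 1) (f 2) ∧ Γ (f 2) (f 3) ∧ Γ (f 3) (f 4) ∧ Γ (f 4) (f 0)) :=
  h (Equiv.ofBijective f (Finite.injective_iff_bijective.1 hf))

/-- the case `a = 0`, `b = 1` with the edge present -/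
theorem mex_std (Γ : Fin 5 → Fin 5 → Prop) (hs : ∀ i j, Γ i j → Γ j i) (h : Acyc Γ)
    (h01 : Γ 0 1) : ∃ ψ : Fin 5 → ZMod 2, ∀ i j, i ≠ j → Γ i j →
    ψ i + ψ j = if (i = 0 ∧ j = 1) ∨ (i = 1 ∧ j = 0) then 1 else 0 := by
  classical
  have a234 := mex_acyc h ![0, 1, 2, 3, 4] (by decide)
  have a243 := mex_acyc h ![0, 1, 2, 4, 3] (by decide)
  have a324 := mex_acyc h ![0, 1, 3, 2, 4] (by decide)
  have a342 := mex_acyc h ![0, 1, 3, 4, 2] (by decide)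
  have a423 := mex_acyc h ![0, 1, 4, 2, 3] (by decide)
  have a432 := mex_acyc h ![0, 1, 4, 3, 2] (by decide)
  simp only [Matrix.cons_val_zero, Matrix.cons_val_one, Matrix.cons_val] at a234 a243 a324 a342 a423 a432
  obtain ⟨p2, p3, p4, h02, h03, h04, h12, h13, h14, h23, h24, h34⟩ :=
    mex_bool (decide (Γ 0 2)) (decide (Γ 0 3)) (decide (Γ 0 4)) (decide (Γ 1 2))
      (decide (Γ 1 3)) (decide (Γ 1 4)) (decide (Γ 2 3)) (decide (Γ 2 4)) (decide (Γ 3 4))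
      (by simp only [decide_eq_true_eq]; exact fun ⟨x, y⟩ => a234.1 ⟨h01, x, hs _ _ y⟩)
      (by simp only [decide_eq_true_eq]; exact fun ⟨x, y⟩ => a324.1 ⟨h01, x, hs _ _ y⟩)
      (by simp only [decide_eq_true_eq]; exact fun ⟨x, y⟩ => a423.1 ⟨h01, x, hs _ _ y⟩)
      (by simp only [decide_eq_true_eq]; exact fun ⟨x, y, z⟩ => a234.2.1 ⟨h01, x, y, hs _ _ z⟩)
      (by simp only [decide_eq_true_eq]; exact fun ⟨x, y, z⟩ => a243.2.1 ⟨h01, x, y, hs _ _ z⟩)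
      (by simp only [decide_eq_true_eq]
          exact fun ⟨x, y, z⟩ => a324.2.1 ⟨h01, x, hs _ _ y, hs _ _ z⟩)
      (by simp only [decide_eq_true_eq]; exact fun ⟨x, y, z⟩ => a342.2.1 ⟨h01, x, y, hs _ _ z⟩)
      (by simp only [decide_eq_true_eq]
          exact fun ⟨x, y, z⟩ => a423.2.1 ⟨h01, x, hs _ _ y, hs _ _ z⟩)
      (by simp only [decide_eq_true_eq]
          exact fun ⟨x, y, z⟩ => a432.2.1 ⟨h01, x, hs _ _ y, hs _ _ z⟩)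
      (by simp only [decide_eq_true_eq]
          exact fun ⟨x, y, z, w⟩ => a234.2.2 ⟨h01, x, y, z, hs _ _ w⟩)
      (by simp only [decide_eq_true_eq]
          exact fun ⟨x, y, z, w⟩ => a243.2.2 ⟨h01, x, y, hs _ _ z, hs _ _ w⟩)
      (by simp only [decide_eq_true_eq]
          exact fun ⟨x, y, z, w⟩ => a324.2.2 ⟨h01, x, hs _ _ y, z, hs _ _ w⟩)
      (by simp only [decide_eq_true_eq]
          exact fun ⟨x, y, z, w⟩ => a342.2.2 ⟨h01, x, y, hs _ _ z, hs _ _ w⟩)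
      (by simp only [decide_eq_true_eq]
          exact fun ⟨x, y, z, w⟩ => a423.2.2 ⟨h01, x, hs _ _ y, z, hs _ _ w⟩)
      (by simp only [decide_eq_true_eq]
          exact fun ⟨x, y, z, w⟩ => a432.2.2 ⟨h01, x, hs _ _ y, hs _ _ z, hs _ _ w⟩)
  simp only [decide_eq_true_eq] at h02 h03 h04 h12 h13 h14 h23 h24 h34
  have key : ∀ i j : Fin 5, i < j → Γ i j →
      (![0, 1, p2, p3, p4] : Fin 5 → ZMod 2) i + (![0, 1, p2, p3, p4] : Fin 5 → ZMod 2) j =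
        if (i = 0 ∧ j = 1) ∨ (i = 1 ∧ j = 0) then 1 else 0 := by
    have h2 : ∀ p : ZMod 2, p + p = 0 := by decide
    intro i j hij hΓ
    fin_cases i <;> fin_cases j <;> simp at hij ⊢
    · exact h02 hΓ
    · exact h03 hΓ
    · exact h04 hΓ
    · rw [h12 hΓ]; decide
    · rw [h13 hΓ]; decide
    · rw [h14 hΓ]; decide
    · rw [h23 hΓ]; exact h2 _
    · rw [h24 hΓ]; exact h2 _
    · rw [h34 hΓ]; exact h2 _
  refine ⟨![0, 1, p2, p3, p4], fun i j hij hΓ => ?_⟩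
  rcases lt_or_gt_of_ne hij with hlt | hlt
  · exact key i j hlt hΓ
  · rw [add_comm, key j i hlt (hs _ _ hΓ)]
    exact if_congr ⟨fun h => h.elim (fun h => Or.inr ⟨h.2, h.1⟩) fun h => Or.inl ⟨h.2, h.1⟩,
      fun h => h.elim (fun h => Or.inr ⟨h.2, h.1⟩) fun h => Or.inl ⟨h.2, h.1⟩⟩ rfl rfl

theorem ex : EX := by
  classical
  intro Γ hs h a b
  by_cases hab : a ≠ b ∧ Γ a b
  · obtain ⟨hne, hΓ⟩ := hab
    have hex : ∀ a b : Fin 5, a ≠ b → ∃ k l m : Fin 5,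
        Function.Injective (![a, b, k, l, m] : Fin 5 → Fin 5) := by decide +kernel
    obtain ⟨k, l, m, hinj⟩ := hex a b hne
    let π : Equiv.Perm (Fin 5) :=
      Equiv.ofBijective ![a, b, k, l, m] (Finite.injective_iff_bijective.1 hinj)
    have hπ0 : π 0 = a := rfl
    have hπ1 : π 1 = b := rfl
    obtain ⟨ψ, hψ⟩ := mex_std (fun i j => Γ (π i) (π j)) (fun i j => hs _ _)
      (fun σ => h (σ.trans π)) (by simpa [hπ0, hπ1] using hΓ)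
    refine ⟨fun i => ψ (π.symm i), fun i j hij hΓ' => ?_⟩
    rw [hψ (π.symm i) (π.symm j) (fun hh => hij (π.symm.injective hh)) (by simpa using hΓ')]
    refine if_congr ?_ rfl rfl
    simp only [Equiv.symm_apply_eq, hπ0, hπ1]
  · refine ⟨fun _ => 0, fun i j hij hΓ => ?_⟩
    rw [if_neg, add_zero]
    rintro (⟨rfl, rfl⟩ | ⟨rfl, rfl⟩)
    · exact hab ⟨hij, hΓ⟩
    · exact hab ⟨hij.symm, hs _ _ hΓ⟩

end Crest.Agent.R40
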