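import Crest.Agent.R40.MDefs

set_option autoImplicit false

namespace Crest.Agent.R40
open MeasureTheory Set Filter Topology

theorem meet_exists_angles (d : ℂ) (hd : ‖d‖ ≤ 2) : ∃ θ φ : ℝ, - e θ + e φ = d := by
  set s := Real.arccos (‖d‖ / 2) with hs
  have hc : Real.cos s = ‖d‖ / 2 :=
    Real.cos_arccos (by have := norm_nonneg d; linarith) (by linarith)
  refine ⟨Complex.arg d - s + Real.pi, Complex.arg d + s, ?_⟩
  have h1 : (d : ℂ) = ‖d‖ * Complex.exp (Complex.arg d * Complex.I) :=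
    (Complex.norm_mul_exp_arg_mul_I d).symm
  have h2 : (‖d‖ : ℂ) = Complex.exp (s * Complex.I) + Complex.exp (-(s * Complex.I)) := by
    have : (‖d‖ : ℂ) = 2 * Complex.cos s := by
      rw [← Complex.ofReal_cos, hc]; push_cast; ring
    rw [this, Complex.two_cos]; ring_nf
  simp only [e, circleMap, Complex.ofReal_one, one_mul, zero_add]
  push_cast
  rw [add_mul, add_mul, sub_mul, Complex.exp_add, Complex.exp_add, Complex.exp_pi_mul_I,
    sub_eq_add_neg, Complex.exp_add]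
  conv_rhs => rw [h1, h2]
  ring

theorem meet : MEET := by
  intro o A B hA hB hAo hBo hA0 hB0 hW
  have hmap : Measurable fun p : ℂ × ℝ => p.1 + e p.2 :=
    (continuous_fst.add ((continuous_circleMap 0 1).comp continuous_snd)).measurable
  have hmeas : ∀ C : Set ℂ, MeasurableSet C →
      Measurable fun w : ℂ => volume {θ : ℝ | w + e θ ∈ C} := fun C hC =>
    measurable_measure_prodMk_left (ν := (volume : Measure ℝ)) (hmap hC)
  set a : ℂ → ENNReal := fun w => volume {θ : ℝ | w + e θ ∈ A} with ha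
  set b : ℂ → ENNReal := fun w => volume {θ : ℝ | w + e θ ∈ B} with hb
  have ham : Measurable a := hmeas A hA
  have hbm : Measurable b := hmeas B hB
  have h1 : ∀ᵐ w : ℂ, ∀ᵐ θ : ℝ, w + e θ ∈ A → a w ≠ 0 := by
    refine ae_of_all _ fun w => ?_
    by_cases h : a w = 0
    · have : ∀ᵐ θ : ℝ, w + e θ ∉ A := by rw [ae_iff]; simpa using h
      exact this.mono fun θ hθ h' => absurd h' hθ
    · exact ae_of_all _ fun _ _ => h
  have hm1 : MeasurableSet {p : ℂ × ℝ | p.1 + e p.2 ∈ A → a p.1 ≠ 0} := by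
    have : {p : ℂ × ℝ | p.1 + e p.2 ∈ A → a p.1 ≠ 0} =
        ((fun p : ℂ × ℝ => p.1 + e p.2) ⁻¹' A)ᶜ ∪ ((fun p : ℂ × ℝ => a p.1) ⁻¹' {0})ᶜ := by
      ext p; simp only [mem_setOf_eq, mem_union, mem_compl_iff, mem_preimage, mem_singleton_iff]
      tauto
    rw [this]
    exact (hmap hA).compl.union ((ham.comp measurable_fst) (measurableSet_singleton 0)).compl
  have h2 : ∀ᵐ θ : ℝ, ∀ᵐ w : ℂ, w + e θ ∈ A → a w ≠ 0 :=
    (Measure.ae_ae_comm (p := fun (w : ℂ) (θ : ℝ) => w + e θ ∈ A → a w ≠ 0) hm1).1 h1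
  have hW' : ∀ᵐ w : ℂ, ¬ (a w ≠ 0 ∧ b w ≠ 0) := by rw [ae_iff]; simpa using hW
  have h3 : ∀ᵐ θ : ℝ, ∀ᵐ y : ℂ, y ∈ A → b (y - e θ) = 0 := by
    filter_upwards [h2] with θ hθ
    have hq := (measurePreserving_sub_right (volume : Measure ℂ) (e θ)).quasiMeasurePreserving
    filter_upwards [hq.ae hθ, hq.ae hW'] with y hy hy' hyA
    by_contra hne
    exact hy' ⟨hy (by simpa using hyA), hne⟩
  have hsub : Measurable fun p : ℝ × ℂ => p.2 - e p.1 :=
    (continuous_snd.sub ((continuous_circleMap 0 1).comp continuous_fst)).measurable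
  have hm3 : MeasurableSet {p : ℝ × ℂ | p.2 ∈ A → b (p.2 - e p.1) = 0} := by
    have : {p : ℝ × ℂ | p.2 ∈ A → b (p.2 - e p.1) = 0} =
        (Prod.snd ⁻¹' A)ᶜ ∪ ((fun p : ℝ × ℂ => b (p.2 - e p.1)) ⁻¹' {0}) := by
      ext p; simp only [mem_setOf_eq, mem_union, mem_compl_iff, mem_preimage, mem_singleton_iff]
      tauto
    rw [this]
    exact (measurable_snd hA).compl.union ((hbm.comp hsub) (measurableSet_singleton 0))
  have h4 : ∀ᵐ y : ℂ, ∀ᵐ θ : ℝ, y ∈ A → b (y - e θ) = 0 :=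
    (Measure.ae_ae_comm (p := fun (θ : ℝ) (y : ℂ) => y ∈ A → b (y - e θ) = 0) hm3).1 h3
  obtain ⟨y, hyA, hy⟩ : ∃ y ∈ A, ∀ᵐ θ : ℝ, y ∈ A → b (y - e θ) = 0 := by
    by_contra hno
    apply hA0
    refine measure_mono_null (fun y hy => ?_) (ae_iff.1 h4)
    exact fun h => hno ⟨y, hy, h⟩
  have h5 : ∀ᵐ θ : ℝ, ∀ᵐ φ : ℝ, y - e θ + e φ ∉ B := by
    filter_upwards [hy] with θ hθ
    have := hθ hyA
    rw [ae_iff]; simpa using this
  have hc2 : Continuous fun p : ℝ × ℝ => y - e p.1 + e p.2 :=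
    (continuous_const.sub ((continuous_circleMap 0 1).comp continuous_fst)).add
      ((continuous_circleMap 0 1).comp continuous_snd)
  have h6 : ∀ᵐ p : ℝ × ℝ, y - e p.1 + e p.2 ∉ B := by
    rw [Measure.volume_eq_prod]
    exact (Measure.ae_prod_iff_ae_ae (hc2.measurable hB).compl).2 h5
  have h7 : ∀ᵐ p : ℂ, y - e p.re + e p.im ∉ B :=
    Complex.volume_preserving_equiv_real_prod.quasiMeasurePreserving.ae h6
  let Φ : ℂ → ℂ := fun p => y - e p.re + e p.im
  have hΦ : Differentiable ℝ Φ := by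
    have hre : Differentiable ℝ fun p : ℂ => p.re := Complex.reCLM.differentiable
    have him : Differentiable ℝ fun p : ℂ => p.im := Complex.imCLM.differentiable
    exact ((differentiable_const y).sub ((differentiable_circleMap 0 1).comp hre)).add
      ((differentiable_circleMap 0 1).comp him)
  have h8 : volume (Φ '' {p | Φ p ∈ B}) = 0 :=
    addHaar_image_eq_zero_of_differentiableOn_of_addHaar_eq_zero volume hΦ.differentiableOn
      (by have := ae_iff.1 h7; simpa using this)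
  apply hB0
  refine measure_mono_null (fun z hz => ?_) h8
  have hd : ‖z - y‖ ≤ 2 := by
    have e1 := hAo hyA
    have e2 := hBo hz
    rw [Metric.mem_ball, dist_eq_norm] at e1 e2
    calc ‖z - y‖ = ‖(z - o) - (y - o)‖ := by congr 1; ring
      _ ≤ ‖z - o‖ + ‖y - o‖ := norm_sub_le _ _
      _ ≤ 2 := by linarith
  obtain ⟨θ, φ, h⟩ := meet_exists_angles (z - y) hd
  have : Φ ⟨θ, φ⟩ = z := by
    show y - e θ + e φ = z
    linear_combination h
  exact ⟨⟨θ, φ⟩, by show Φ _ ∈ B; rw [this]; exact hz, this⟩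

end Crest.Agent.R40
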