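import Crest.Agent.R40.MBasic
import Crest.Agent.R40.Coc
import Crest.Agent.R40.Avoid

/-! Row 40, measurable part: Part II (all `N(x)` forests is impossible). -/

set_option autoImplicit false

namespace Crest.Agent.R40
open MeasureTheory Set Filter Topology

namespace P2

theorem null_of_nae {X : Type*} [TopologicalSpace X] [SecondCountableTopology X] [MeasureSpace X]
    {s : Set X} (h : ∀ x ∈ s, ∀ᶠ y in nae x, y ∉ s) : volume s = 0 := by
  refine measure_null_of_locally_null s fun x hx => ?_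
  obtain ⟨u, hu, t, ht, hut⟩ := Filter.eventually_inf.1 (h x hx)
  refine ⟨s ∩ u, inter_mem_nhdsWithin s hu, measure_mono_null (t := tᶜ) (fun y hy hyt => ?_) ht⟩
  exact hut y ⟨hy.2, hyt⟩ hy.1

/-- locally a.e. constant functions are a.e. constant on preconnected sets -/
theorem ae_const {X : Type*} [PseudoMetricSpace X] [SecondCountableTopology X] [MeasureSpace X]
    [(volume : Measure X).IsOpenPosMeasure] {α : Type*} [Nonempty α] {f : X → α} {U : Set X}
    (hU : IsPreconnected U) (h : ∀ x ∈ U, ∃ v, ∀ᶠ y in nae x, f y = v) :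
    ∃ v, ∀ᵐ y, y ∈ U → f y = v := by
  classical
  rcases U.eq_empty_or_nonempty with rfl | ⟨x₀, hx₀⟩
  · exact ⟨Classical.arbitrary α, ae_of_all _ fun y hy => hy.elim⟩
  choose! v hv using h
  let _ : TopologicalSpace α := ⊥
  have : DiscreteTopology α := ⟨rfl⟩
  have hc : ContinuousOn v U := by
    intro x hx
    have h1 : ∀ᶠ x' in 𝓝[U] x, v x' = v x := by
      filter_upwards [nhdsWithin_le_nhds (eventually_eventually_nae (hv x hx)),
        self_mem_nhdsWithin] with x' h1 h2
      have := nae_neBot x'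
      obtain ⟨y, h3, h4⟩ := (h1.and (hv x' h2)).exists
      rw [← h3, h4]
    exact continuousWithinAt_const.congr_of_eventuallyEq h1 rfl
  refine ⟨v x₀, ?_⟩
  rw [ae_iff]
  refine null_of_nae fun x hx => ?_
  simp only [mem_ofPred_eq, Classical.not_imp] at hx
  filter_upwards [hv x hx.1] with y hy
  simp only [Classical.not_imp, not_and, not_not]
  intro _
  rw [hy]
  exact hU.constant hc hx.1 hx₀

theorem ae_pres (c : ℂ → Fin 5) : ∀ᵐ y, Pres c y (c y) := by
  have : ∀ i, ∀ᵐ y, c y = i → Pres c y i := fun i => by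
    rw [ae_iff]
    refine null_of_nae fun x hx => ?_
    simp only [mem_ofPred_eq, Classical.not_imp] at hx
    filter_upwards [Filter.not_frequently.1 hx.2] with y hy hy'
    simp only [Classical.not_imp] at hy'
    exact hy hy'.1
  filter_upwards [ae_all_iff.2 this] with y hy using hy _ rfl

theorem eventually_pres (c : ℂ → Fin 5) (x : ℂ) : ∀ᶠ y in nae x, Pres c x (c y) := by
  have : ∀ i, ∀ᶠ y in nae x, c y = i → Pres c x i := fun i => by
    by_cases h : Pres c x i
    · exact Eventually.of_forall fun _ _ => h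
    · exact (Filter.not_frequently.1 h).mono fun y hy h' => absurd h' hy
  filter_upwards [eventually_all.2 this] with y hy using hy _ rfl

theorem exists_pres (c : ℂ → Fin 5) (x : ℂ) : ∃ i, Pres c x i := by
  have := nae_neBot x
  obtain ⟨y, hy⟩ := (eventually_pres c x).exists
  exact ⟨_, hy⟩

/-- the edge indicator -/
def dl (a b i j : Fin 5) : ZMod 2 := if (i = a ∧ j = b) ∨ (i = b ∧ j = a) then 1 else 0

theorem dl_comm (a b i j : Fin 5) : dl a b i j = dl b a i j := by
  unfold dl; simp only [or_comm]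

theorem dl_sum : ∀ a i j : Fin 5, i ≠ j →
    ∑ b ∈ Finset.univ.erase a, dl a b i j + (if i = a then 1 else 0) + (if j = a then 1 else 0)
      = 0 := by
  unfold dl; decide

/-- local structure of a potential -/
def LP (c : ℂ → Fin 5) (a b : Fin 5) (φ : ℂ → ZMod 2) : Prop :=
  ∀ x, ∃ χ : Fin 5 → ZMod 2, (∀ i j, i ≠ j → NS c x {i, j} → χ i + χ j = dl a b i j) ∧
    ∀ᶠ y in nae x, φ y = χ (c y)

theorem z2 : ∀ u v : ZMod 2, u + v = 0 → u = v := by decide

theorem exists_pot (hC : CONN) (hE : EX) {c : ℂ → Fin 5} (hc : Good c)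
    (hA : ∀ x, Acyc fun i j => NS c x {i, j}) (a b : Fin 5) :
    ∃ φ : ℂ → ZMod 2, Measurable φ ∧ LP c a b φ := by
  have h1 : ∀ x, ∃ ψ : Fin 5 → ZMod 2, ∀ i j, i ≠ j → NS c x {i, j} → ψ i + ψ j = dl a b i j :=
    fun x => hE _ (fun i j h => by rwa [Finset.pair_comm]) (hA x) a b
  choose ψ hψ using h1
  obtain ⟨k, hk⟩ := cocycle_glue_complex (fun x => {i | Pres c x i}) (exists_pres c) ψ fun x => by
    have e1 : ∀ᶠ x' in 𝓝 x, ∀ i, Pres c x' i → Pres c x i := eventually_all.2 fun i => by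
      by_cases h : Pres c x i
      · exact Eventually.of_forall fun _ _ => h
      · exact (not_Pres_eventually h).mono fun y hy h' => absurd h' hy
    have e2 : ∀ᶠ x' in 𝓝 x, ∀ i j, NS c x' {i, j} → NS c x {i, j} :=
      eventually_all.2 fun i => eventually_all.2 fun j => by
        by_cases h : NS c x {i, j}
        · exact Eventually.of_forall fun _ _ => h
        · exact (not_NS_eventually h).mono fun y hy h' => absurd h' hy
    filter_upwards [e1, e2] with x' h1 h2
    refine ⟨h1, ?_⟩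
    obtain ⟨i₀, hi₀⟩ := exists_pres c x'
    refine ⟨ψ x i₀ - ψ x' i₀, fun i hi => ?_⟩
    have := hC c hc x' (fun i => ψ x i - ψ x' i) (fun i j _ _ hij hN => by
      apply z2
      have e3 := hψ x i j hij (h2 i j hN)
      have e4 := hψ x' i j hij hN
      linear_combination e3 - e4) i i₀ hi hi₀
    linear_combination this
  let φ : ℂ → ZMod 2 := fun y => ψ y (c y) + k y
  have hφ : LP c a b φ := fun x => by
    refine ⟨fun i => ψ x i + k x, fun i j hij hN => ?_, ?_⟩
    · have : k x + k x = 0 := by generalize k x = u; revert u; decide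
      linear_combination hψ x i j hij hN + this
    · filter_upwards [eventually_nae_of_nhds (hk x), eventually_nae_of_ae (ae_pres c)]
        with y h1 h2 using (h1 _ h2).symm
  have hm : AEMeasurable φ := by
    choose χ _ hχ using hφ
    choose δ hδ hδ' using fun x => eventually_nae.1 (hχ x)
    obtain ⟨s, hs, hcov⟩ := TopologicalSpace.countable_cover_nhds
      (f := fun x => Metric.ball x (δ x)) fun x => Metric.ball_mem_nhds x (hδ x)
    have := hs.to_subtype
    rw [← Measure.restrict_univ (μ := (volume : Measure ℂ)), ← hcov, biUnion_eq_iUnion,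
      aemeasurable_iUnion_iff]
    intro x
    refine ((measurable_from_top (f := χ x)).comp hc.1).aemeasurable.congr ?_
    filter_upwards [ae_restrict_mem Metric.isOpen_ball.measurableSet, ae_restrict_of_ae (hδ' x)]
      with y h1 h2 using (h2 h1).symm
  refine ⟨hm.mk φ, hm.measurable_mk, fun x => ?_⟩
  obtain ⟨χ, h1, h2⟩ := hφ x
  refine ⟨χ, h1, ?_⟩
  filter_upwards [h2, eventually_nae_of_ae hm.ae_eq_mk] with y h3 h4
  rw [← h4, h3]

/-- potentials are constant on almost every `a`-free circle -/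
theorem circ_const (hS : SLICE0) {c : ℂ → Fin 5} (hc : Good c) {a b : Fin 5} {φ : ℂ → ZMod 2}
    (hφ : LP c a b φ) : ∀ᵐ y, Free c a y → ∃ v, ∀ᵐ θ : ℝ, φ (y + e θ) = v := by
  classical
  choose χ hχ1 hχ using hφ
  choose δ hδ hδ' using fun x => eventually_nae.1 (hχ x)
  have h1 := fun z => hS c hc z (Finset.univ.filter fun i => i ≠ a ∧ χ z i = 0)
    (Finset.univ.filter fun i => i ≠ a ∧ χ z i = 1)
    (by
      rw [Finset.disjoint_filter]
      intro i _ h1 h2
      exact zero_ne_one (h1.2.symm.trans h2.2))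
    (fun i hi j hj hN => by
      simp only [Finset.mem_filter, Finset.mem_univ, true_and] at hi hj
      have hij : i ≠ j := by
        rintro rfl
        exact zero_ne_one (hi.2.symm.trans hj.2)
      have := hχ1 z i j hij hN
      rw [hi.2, hj.2, dl, if_neg (by simp [hi.1, hj.1])] at this
      simp at this)
  choose ρ hρ hρ' using h1
  obtain ⟨s, hs, hcov⟩ := TopologicalSpace.countable_cover_nhds
    (f := fun x => Metric.ball x (min (δ x) (ρ x)))
    fun x => Metric.ball_mem_nhds x (lt_min (hδ x) (hρ x))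
  filter_upwards [(ae_ball_iff hs).2 fun z _ => hρ' z,
    (ae_ball_iff hs).2 fun z _ => ae_circle_of_ae (hδ' z)] with y h1 h2 hF
  have h3 := ae_const (f := fun θ : ℝ => φ (y + e θ)) isPreconnected_univ fun θ₀ _ => by
    obtain ⟨z, hz, hzθ⟩ : ∃ z ∈ s, y + e θ₀ ∈ Metric.ball z (min (δ z) (ρ z)) := by
      have h0 := mem_univ (y + e θ₀)
      rw [← hcov] at h0
      simpa only [mem_iUnion, exists_prop] using h0
    have h4 : ∀ᶠ θ in 𝓝 θ₀, y + e θ ∈ Metric.ball z (min (δ z) (ρ z)) :=
      (continuous_const.add continuous_e).continuousAt.eventually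
        (Metric.isOpen_ball.mem_nhds hzθ)
    obtain ⟨β₁, β₂, hβ, hβ'⟩ := mem_nhds_iff_exists_Ioo_subset.1 h4
    have h5 := h1 z hz β₁ β₂ (fun β h => Metric.ball_subset_ball (min_le_right _ _) (hβ' h)) (by
      filter_upwards [hF] with β h _
      simp only [Finset.mem_filter, Finset.mem_univ, true_and]
      have : ∀ u : ZMod 2, u = 0 ∨ u = 1 := by decide
      rcases this (χ z (c (y + e β))) with h' | h'
      exacts [Or.inl ⟨h, h'⟩, Or.inr ⟨h, h'⟩])
    have h6 : ∀ᶠ θ in nae θ₀, θ ∈ Ioo β₁ β₂ := eventually_nae_of_nhds (Ioo_mem_nhds hβ.1 hβ.2)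
    rcases h5 with h5 | h5
    · refine ⟨0, ?_⟩
      filter_upwards [h6, eventually_nae_of_ae h5, eventually_nae_of_ae (h2 z hz)]
        with θ e1 e2 e3
      rw [e3 (Metric.ball_subset_ball (min_le_left _ _) (hβ' e1))]
      exact (Finset.mem_filter.1 (e2 e1)).2.2
    · refine ⟨1, ?_⟩
      filter_upwards [h6, eventually_nae_of_ae h5, eventually_nae_of_ae (h2 z hz)]
        with θ e1 e2 e3
      rw [e3 (Metric.ball_subset_ball (min_le_left _ _) (hβ' e1))]
      exact (Finset.mem_filter.1 (e2 e1)).2.2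
  obtain ⟨v, hv⟩ := h3
  exact ⟨v, hv.mono fun θ h => h trivial⟩

theorem e_add_pi (θ : ℝ) : e (θ + Real.pi) = -e θ := by
  simp [e, circleMap, add_mul, Complex.exp_add, Complex.exp_pi_mul_I]

theorem swap {A B : Set ℂ} (hA : MeasurableSet A) (hB : MeasurableSet B)
    (h : ∀ y ∈ A, ∀ᵐ θ : ℝ, y + e θ ∉ B) : ∀ᵐ w, w ∈ B → ∀ᵐ θ : ℝ, w + e θ ∉ A := by
  have hm : Measurable fun p : ℂ × ℝ => p.1 + e p.2 :=
    (continuous_fst.add (continuous_e.comp continuous_snd)).measurable
  have h1 : ∀ᵐ y : ℂ, ∀ᵐ θ : ℝ, ¬ (y ∈ A ∧ y + e θ ∈ B) := ae_of_all _ fun y => by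
    by_cases hy : y ∈ A
    · exact (h y hy).mono fun θ h1 h2 => h1 h2.2
    · exact ae_of_all _ fun θ h2 => hy h2.1
  have h2 := (Measure.ae_ae_comm (p := fun (y : ℂ) (θ : ℝ) => ¬ (y ∈ A ∧ y + e θ ∈ B))
    ((measurable_fst hA).inter (hm hB)).compl).1 h1
  have h3 := (measurePreserving_add_right (volume : Measure ℝ) Real.pi).quasiMeasurePreserving.ae h2
  have h4 : ∀ᵐ θ : ℝ, ∀ᵐ w : ℂ, ¬ (w ∈ B ∧ w + e θ ∈ A) := by
    filter_upwards [h3] with θ hθ
    filter_upwards [(measurePreserving_add_right (volume : Measure ℂ)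
      (e θ)).quasiMeasurePreserving.ae hθ] with w hw h5
    refine hw ⟨h5.2, ?_⟩
    rw [e_add_pi, add_neg_cancel_right]
    exact h5.1
  have h5 := (Measure.ae_ae_comm (p := fun (w : ℂ) (θ : ℝ) => ¬ (w ∈ B ∧ w + e θ ∈ A))
    ((measurable_fst hB).inter (hm hA)).compl).2 h4
  filter_upwards [h5] with w hw hwB
  exact hw.mono fun θ h1 h2 => h1 ⟨hwB, h2⟩

theorem meetv (hM : MEET) {φ : ℂ → ZMod 2} (hφ : Measurable φ) {A B : Set ℂ}
    (hA : MeasurableSet A) (hB : MeasurableSet B) (hA1 : A ⊆ Metric.ball 0 1)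
    (hB1 : B ⊆ Metric.ball 0 1) (hA0 : volume A ≠ 0) (hB0 : volume B ≠ 0) {v v' : ZMod 2}
    (h1 : ∀ y ∈ A, ∀ᵐ θ : ℝ, φ (y + e θ) = v) (h2 : ∀ y ∈ B, ∀ᵐ θ : ℝ, φ (y + e θ) = v') :
    v = v' := by
  have e1 := swap (B := {w | φ w ≠ v}) hA (hφ (measurableSet_singleton v).compl)
    fun y hy => (h1 y hy).mono fun θ h h' => h' h
  have e2 := swap (B := {w | φ w ≠ v'}) hB (hφ (measurableSet_singleton v').compl)
    fun y hy => (h2 y hy).mono fun θ h h' => h' h
  by_contra hne
  refine hM 0 A B hA hB hA1 hB1 hA0 hB0 (measure_mono_null (fun w hw => ?_) (ae_iff.1 (e1.and e2)))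
  rintro ⟨h3, h4⟩
  by_cases h5 : φ w = v
  · refine hw.2 ?_
    simpa [ae_iff] using h4 fun h6 => hne (h5.symm.trans h6)
  · refine hw.1 ?_
    simpa [ae_iff] using h3 h5

theorem sum_sym (S : Finset (Fin 5)) (F : Fin 5 → Fin 5 → ZMod 2)
    (h : ∀ a ∈ S, ∀ b ∈ S, F a b = F b a) :
    ∑ a ∈ S, ∑ b ∈ Finset.univ.erase a, F a b = ∑ a ∈ S, ∑ b ∈ Sᶜ, F a b := by
  have h1 : ∀ a ∈ S, ∑ b ∈ Finset.univ.erase a, F a b =
      ∑ b ∈ S.erase a, F a b + ∑ b ∈ Sᶜ, F a b := fun a ha => by
    rw [← Finset.sum_union]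
    · congr 1
      ext b
      by_cases hb : b ∈ S
      · simp [hb]
      · have : b ≠ a := fun h => hb (h ▸ ha)
        simp [hb, this]
    · exact Finset.disjoint_of_subset_left (Finset.erase_subset _ _) disjoint_compl_right
  rw [Finset.sum_congr rfl h1, Finset.sum_add_distrib, add_eq_right]
  rw [Finset.sum_sigma']
  refine Finset.sum_involution (fun p _ => ⟨p.2, p.1⟩) (fun p hp => ?_) (fun p hp _ h' => ?_)
    (fun p hp => ?_) fun p _ => rfl
  · simp only [Finset.mem_sigma, Finset.mem_erase] at hp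
    rw [h _ hp.1 _ hp.2.2]
    generalize F p.2 p.1 = u; revert u; decide
  · simp only [Finset.mem_sigma, Finset.mem_erase] at hp
    exact hp.2.1 (congrArg Sigma.fst h')
  · simp only [Finset.mem_sigma, Finset.mem_erase] at hp ⊢
    exact ⟨hp.2.2, hp.2.1.symm, hp.1⟩

theorem exists_of_ne {s : Set ℂ} (hs : volume s ≠ 0) {p : ℂ → Prop} (hp : ∀ᵐ y, p y) :
    ∃ y ∈ s, p y := by
  by_contra h
  push Not at h
  exact hs (measure_mono_null (fun y hy => h y hy) (ae_iff.1 hp))

end P2

open P2 in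
theorem part2 (_ : BASIC) (hS : SLICE0) (hC : CONN) (hE : EX) (hM : MEET) : PART2 := by
  classical
  intro c hc hA
  choose φ' hφm' hφ' using exists_pot hC hE hc hA
  obtain ⟨φ, hφm, hφ, hsym⟩ : ∃ φ : Fin 5 → Fin 5 → ℂ → ZMod 2, (∀ a b, Measurable (φ a b)) ∧
      (∀ a b, LP c a b (φ a b)) ∧ ∀ a b, φ a b = φ b a := by
    refine ⟨fun a b => if a ≤ b then φ' a b else φ' b a, fun a b => ?_, fun a b => ?_,
      fun a b => ?_⟩
    · dsimp only; split_ifs <;> exact hφm' _ _
    · dsimp only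
      split_ifs
      · exact hφ' _ _
      · intro x
        simpa only [dl_comm a b] using hφ' b a x
    · dsimp only
      rcases lt_trichotomy a b with h | rfl | h
      · rw [if_pos h.le, if_neg h.not_ge]
      · rfl
      · rw [if_neg h.not_ge, if_pos h.le]
  -- (1)
  have h1 : ∀ a, ∃ k, ∀ᵐ z, ∑ b ∈ Finset.univ.erase a, φ a b z + (if c z = a then 1 else 0) = k := by
    intro a
    obtain ⟨k, hk⟩ := ae_const (f := fun z => ∑ b ∈ Finset.univ.erase a, φ a b z +
        (if c z = a then (1 : ZMod 2) else 0)) isPreconnected_univ fun x _ => by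
      choose χ hχ1 hχ2 using fun b => hφ a b x
      obtain ⟨i₀, hi₀⟩ := exists_pres c x
      have := hC c hc x (fun i => ∑ b ∈ Finset.univ.erase a, χ b i + (if i = a then 1 else 0))
        fun i j _ _ hij hN => by
          apply z2
          have e1 := dl_sum a i j hij
          rw [← Finset.sum_congr rfl fun b _ => hχ1 b i j hij hN, Finset.sum_add_distrib] at e1
          linear_combination e1
      refine ⟨∑ b ∈ Finset.univ.erase a, χ b i₀ + (if i₀ = a then 1 else 0), ?_⟩
      filter_upwards [eventually_all.2 hχ2, eventually_pres c x] with y e1 e2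
      simp only [e1]
      exact this _ _ e2 hi₀
    exact ⟨k, hk.mono fun z h => h trivial⟩
  choose k hk using h1
  let R : Set ℂ := Metric.ball 0 1
  let S : Finset (Fin 5) := Finset.univ.filter fun a => volume {y | y ∈ R ∧ c y = a} ≠ 0
  let A : Fin 5 → (Fin 5 → ZMod 2) → Set ℂ := fun a m =>
    {y | (y ∈ R ∧ c y = a) ∧ ∀ b, ∀ᵐ θ : ℝ, φ a b (y + e θ) = m b}
  have hAm : ∀ a m, MeasurableSet (A a m) := fun a m => by
    refine (Metric.isOpen_ball.measurableSet.inter (hc.1 (measurableSet_singleton a))).inter ?_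
    have : ∀ b, MeasurableSet {y | ∀ᵐ θ : ℝ, φ a b (y + e θ) = m b} := fun b => by
      simpa using measurableSet_unseen (A := {w | φ a b w ≠ m b})
        (hφm a b (measurableSet_singleton (m b)).compl)
    have h0 := MeasurableSet.iInter this
    rw [← ofPred_forall] at h0
    exact h0
  have h2 : ∀ a ∈ S, ∃ m, volume (A a m) ≠ 0 := fun a ha => by
    by_contra hne
    push Not at hne
    have e1 : ∀ᵐ y, ∀ m, y ∉ A a m := ae_all_iff.2 fun m => by
      rw [ae_iff]; simpa using hne m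
    obtain ⟨y, hy, e2, e3, e4⟩ := exists_of_ne (Finset.mem_filter.1 ha).2
      (e1.and (hc.ae_free.and (ae_all_iff.2 fun b => circ_const hS hc (hφ a b))))
    rw [hy.2] at e3
    choose m hm using fun b => e4 b e3
    exact e2 m ⟨hy, hm⟩
  choose! m hm using h2
  have hAR : ∀ a m, A a m ⊆ R := fun a m y hy => hy.1.1
  have h3 : ∀ a ∈ S, ∀ b ∈ S, m a b = m b a := fun a ha b hb =>
    meetv hM (hφm a b) (hAm a _) (hAm b _) (hAR a _) (hAR b _) (hm a ha) (hm b hb)
      (fun y hy => hy.2 b) fun y hy => by rw [hsym a b]; exact hy.2 a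
  have h4 : ∀ a ∈ S, ∑ b ∈ Finset.univ.erase a, m a b = k a := fun a ha => by
    obtain ⟨y, hy, e1, e2⟩ := exists_of_ne (hm a ha) (hc.ae_free.and (ae_circle_of_ae (hk a)))
    rw [hy.1.2] at e1
    obtain ⟨θ, e3, e4, e5⟩ := (e1.and (e2.and (ae_all_iff.2 hy.2))).exists
    rw [← e4, if_neg e3, add_zero]
    exact Finset.sum_congr rfl fun b _ => (e5 b).symm
  have hS0 : ∀ b, b ∉ S → volume {y | y ∈ R ∧ c y = b} = 0 := fun b hb => by
    simpa [S] using hb
  have h5 : ∀ a ∈ S, ∀ b, b ∉ S → ∀ᵐ z, z ∈ R → φ a b z = m a b := fun a ha b hb => by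
    obtain ⟨v, hv⟩ := ae_const (f := φ a b) (U := R) (convex_ball 0 1).isPreconnected
      fun x hx => by
        obtain ⟨χ, hχ1, hχ2⟩ := hφ a b x
        obtain ⟨i₀, hi₀⟩ := exists_pres c x
        have e0 : ¬ Pres c x b := by
          refine Filter.not_frequently.2 ?_
          filter_upwards [eventually_nae_of_nhds (Metric.isOpen_ball.mem_nhds hx),
            eventually_nae_of_ae (measure_eq_zero_iff_ae_notMem.1 (hS0 b hb))] with y e1 e2 e3
          exact e2 ⟨e1, e3⟩
        have := hC c hc x χ fun i j hi hj hij hN => by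
          apply z2
          have hib : i ≠ b := fun h => e0 (h ▸ hi)
          have hjb : j ≠ b := fun h => e0 (h ▸ hj)
          rw [hχ1 i j hij hN, dl, if_neg (by simp [hib, hjb])]
        refine ⟨χ i₀, ?_⟩
        filter_upwards [hχ2, eventually_pres c x] with y e1 e2
        rw [e1]
        exact this _ _ e2 hi₀
    obtain ⟨y, hy, e1, e2⟩ := exists_of_ne (hm a ha)
      ((ae_circle_of_ae hv).and (Measure.ae_ne volume (0 : ℂ)))
    have e3 : y + e (Complex.arg (-y)) ∈ R := by
      have hy1 : ‖y‖ < 1 := by simpa [R] using hy.1.1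
      have hy0 : 0 < ‖y‖ := norm_pos_iff.2 e2
      have e4 : (‖y‖ : ℂ) * e (Complex.arg (-y)) = -y := by
        have := Complex.norm_mul_exp_arg_mul_I (-y)
        simpa [e, circleMap] using this
      have e5 : y + e (Complex.arg (-y)) = ((1 - ‖y‖ : ℝ) : ℂ) * e (Complex.arg (-y)) := by
        push_cast
        linear_combination e4
      simp only [R, mem_ball_zero_iff, e5, norm_mul, Complex.norm_real, Real.norm_eq_abs]
      rw [abs_of_pos (by linarith)]
      simp [e, hy0]
    have e4 : ∀ᶠ θ in nae (Complex.arg (-y)), y + e θ ∈ R :=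
      eventually_nae_of_nhds ((continuous_const.add continuous_e).continuousAt.eventually
        (Metric.isOpen_ball.mem_nhds e3))
    have := nae_neBot (Complex.arg (-y))
    obtain ⟨θ, e5, e6, e7⟩ :=
      (e4.and ((eventually_nae_of_ae e1).and (eventually_nae_of_ae (hy.2 b)))).exists
    rw [← e7, e6 e5]
    exact hv
  have h6 : ∀ᵐ z, ∀ a b, a ∈ S → b ∉ S → z ∈ R → φ a b z = m a b :=
    ae_all_iff.2 fun a => ae_all_iff.2 fun b => by
      by_cases ha : a ∈ S
      · by_cases hb : b ∈ S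
        · exact ae_of_all _ fun z _ h => absurd hb h
        · exact (h5 a ha b hb).mono fun z hz _ _ => hz
      · exact ae_of_all _ fun z h => absurd h ha
  have h7 : ∀ᵐ z, ∀ b, b ∉ S → ¬ (z ∈ R ∧ c z = b) := ae_all_iff.2 fun b => by
    by_cases hb : b ∈ S
    · exact ae_of_all _ fun z h => absurd hb h
    · exact (measure_eq_zero_iff_ae_notMem.1 (hS0 b hb)).mono fun z hz _ => hz
  obtain ⟨z, hz, e1, e2, e3⟩ := exists_of_ne (s := R)
    (Metric.measure_ball_pos volume (0 : ℂ) one_pos).ne' (h6.and (h7.and (ae_all_iff.2 hk)))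
  have hcz : c z ∈ S := by
    by_contra h
    exact e2 _ h ⟨hz, rfl⟩
  have f1 : ∑ a ∈ S, k a = ∑ a ∈ S, ∑ b ∈ Sᶜ, m a b := by
    rw [← sum_sym S m h3]
    exact Finset.sum_congr rfl fun a ha => (h4 a ha).symm
  have f2 : ∑ a ∈ S, k a = ∑ a ∈ S, ∑ b ∈ Sᶜ, m a b + 1 := by
    rw [← Finset.sum_congr rfl fun a _ => e3 a, Finset.sum_add_distrib,
      sum_sym S (fun a b => φ a b z) fun a _ b _ => by rw [hsym a b]]
    congr 1
    · exact Finset.sum_congr rfl fun a ha => Finset.sum_congr rfl fun b hb =>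
        e1 a b ha (Finset.mem_compl.1 hb) hz
    · simp [hcz]
  rw [f1] at f2
  simp at f2

end Crest.Agent.R40
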