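import Crest.Agent.R40.FCf
import Crest.Agent.R40.FNp
import Crest.Agent.R40.MCone
import Crest.Agent.R40.MCone2
import Crest.Agent.R40.MOH
import Crest.Agent.R40.MSlice
import Crest.Agent.R40.MEdge
import Crest.Agent.R40.MConn
import Crest.Agent.R40.MEx
import Crest.Agent.R40.MMeet
import Crest.Agent.R40.MPart2
import Crest.Agent.R40.D2Alt
import Crest.Agent.R40.D2End
import Crest.Agent.R40.D2I10
import Crest.Agent.R40.D2I5
import Crest.Agent.R40.D2I8
import Crest.Agent.R40.D2Inst
import Crest.Agent.R40.D2Loc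
import Crest.Agent.R40.D2Npb
import Crest.Agent.R40.D2Path
import Crest.Agent.R40.D2Recip
import Crest.Agent.R40.D2St3
import Crest.Agent.R40.D2Step
import Crest.Agent.R40.D2Tt2
import Crest.Agent.R40.D2St4
import Crest.Agent.R40.D2Emax
import Crest.Agent.R40.D2Ncx

/-! Row 40: the measurable theorem. -/

set_option autoImplicit false

namespace Crest.Agent.R40.Fn

theorem fCONE : CONE := cone basic fan' cone0' hAVAPI

theorem fSLICE : SLICE := slice basic oh'

theorem fINST : D2.INST :=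
  D2.inst hAV1 hAV2 hAV3 hKEY hNSL fCONE hAVAPI D2.i5 D2.i7 (D2.i8 fSLICE D2.loc) D2.i10

theorem fTHMDD : THMDD :=
  D2.thmD2_of D2.emax fINST
    (D2.end_ (D2.ncx D2.alt) (D2.step D2.alt D2.path (D2.st3 D2.tt2a) (D2.st4 D2.tt2a))
      (D2.recip D2.alt) (D2.two D2.tt2a) (D2.npb D2.alt) (D2.trans D2.alt))

theorem fPART2 : PART2 := part2 basic (slice0 basic oh') (conn (edge basic)) ex meet

theorem meas : MEAS :=
  meas_of (tri0_of fTHMDD)
    (cf0_end fTHMDD fCONE (np hNSL hKEY hAV1 hAV3 hAVAPI) connl fSLICE)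
    (cv0_of fTHMDD fCONE) fPART2

end Crest.Agent.R40.Fn
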