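import Crest.Agent.R40.D2Final
import Crest.Agent.R40.MPart2
import Crest.Agent.R40.MConn
import Crest.Agent.R40.MEdge
import Crest.Agent.R40.MEx
import Crest.Agent.R40.MMeet
import Crest.Agent.R40.C4End
import Crest.Agent.R40.DTrip
import Crest.Agent.R40.DNp
import Crest.Agent.R40.DC4p
import Crest.Agent.R40A.Step0

set_option autoImplicit false

namespace Crest.Agent.R40

theorem hPART2_fin : PART2 := part2 basic (slice0 basic oh') (conn (edge basic)) ex meet

theorem final_of (h4 : CF0) (c : EuclideanSpace ℝ (Fin 2) → Fin 5) :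
    ∃ x y : EuclideanSpace ℝ (Fin 2), dist x y = 1 ∧ c x = c y := by
  by_contra h
  push Not at h
  obtain ⟨c', hc'⟩ := R40A.step0_good c h
  exact meas_of hTRI0 h4 hCV0 hPART2_fin c' hc'

end Crest.Agent.R40
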