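import Mathlib
import Crest.Agent.R40.Avoid

/-! Row 40: the general avoidance rule (free of definitions). -/

set_option autoImplicit false

open MeasureTheory Filter Topology Set
open scoped ENNReal

namespace Crest.Agent.R40

/-- Sweeping lemma with a general limit map. -/
theorem sweep_gen {α : Type*} {l : Filter α} [l.IsCountablyGenerated] {φ : α → ℝ → ℝ}
    {φ0 : ℝ → ℝ} {S : Set ℝ} (hS : MeasurableSet S) (hS' : volume S ≠ ⊤) {C : NNReal}
    (hm : ∀ᶠ n in l, AEMeasurable (φ n) (volume.restrict S))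
    (hm0 : AEMeasurable φ0 (volume.restrict S))
    (h : ∀ᶠ n in l, ∀ s ∈ S, ∀ t ∈ S, |s - t| ≤ C * |φ n s - φ n t|)
    (hlim : ∀ t ∈ S, Tendsto (fun n => φ n t) l (𝓝 (φ0 t))) {J : Set ℝ} (hJ : MeasurableSet J)
    (hfin : volume J ≠ ⊤) :
    Tendsto (fun n => volume {t ∈ S | φ0 t ∈ J ∧ φ n t ∉ J}) l (𝓝 0) := by
  rw [ENNReal.tendsto_nhds_zero]
  intro ε hε
  obtain ⟨δ, hδ0, hδ⟩ : ∃ δ : ENNReal, δ ≠ 0 ∧ C * δ ≤ ε / 2 := by
    obtain ⟨δ, h1, h2⟩ := ENNReal.exists_nnreal_pos_mul_lt (a := C) (b := ε / 2) ENNReal.coe_ne_top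
      (ENNReal.half_pos hε.ne').ne'
    exact ⟨δ, by simpa using h1.ne', by rw [mul_comm]; exact h2.le⟩
  obtain ⟨U, hU1, hU2, -, hU3⟩ := hJ.exists_isOpen_sdiff_lt hfin hδ0
  have hfm : IsFiniteMeasure (volume.restrict S) := ⟨by simpa using hS'.lt_top⟩
  have hnm : ∀ᶠ n in l, NullMeasurableSet {t | φ0 t ∈ U ∧ φ n t ∉ U} (volume.restrict S) := by
    filter_upwards [hm] with n hn
    exact (hm0.nullMeasurable hU2.measurableSet).inter (hn.nullMeasurable hU2.measurableSet.compl)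
  have h1 : Tendsto (fun n => volume.restrict S {t | φ0 t ∈ U ∧ φ n t ∉ U}) l (𝓝 0) := by
    have := tendsto_lintegral_filter_of_dominated_convergence' (μ := volume.restrict S) (l := l)
      (F := fun n t => indicator {t | φ0 t ∈ U ∧ φ n t ∉ U} (1 : ℝ → ENNReal) t)
      (f := fun _ => 0) (fun _ => 1) ?_ ?_ ?_ ?_
    · rw [lintegral_zero] at this
      refine tendsto_of_tendsto_of_tendsto_of_le_of_le' tendsto_const_nhds this
        (Eventually.of_forall fun _ => zero_le) ?_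
      filter_upwards [hnm] with n hn
      rw [lintegral_indicator_one₀ hn]
    · filter_upwards [hnm] with n hn
      exact aemeasurable_const.indicator₀ hn
    · exact Eventually.of_forall fun n => ae_of_all _ fun t => indicator_le_self' (by simp) t
    · simpa using hS'
    · filter_upwards [ae_restrict_mem hS] with t ht
      refine tendsto_const_nhds.congr' ?_
      by_cases htU : φ0 t ∈ U
      · filter_upwards [(hlim t ht).eventually (hU2.mem_nhds htU)] with n hn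
        rw [indicator_of_notMem]
        exact fun h' => h'.2 hn
      · refine Eventually.of_forall fun n => ?_
        exact (indicator_of_notMem (fun h' => htU h'.1) _).symm
  filter_upwards [(ENNReal.tendsto_nhds_zero.1 h1) (ε / 2) (ENNReal.half_pos hε.ne'), h]
    with n hn hn'
  have hsub : {t ∈ S | φ0 t ∈ J ∧ φ n t ∉ J} ⊆
      ({t | φ0 t ∈ U ∧ φ n t ∉ U} ∩ S) ∪ (S ∩ φ n ⁻¹' (U \ J)) := by
    rintro t ⟨h1, h2, h3⟩
    by_cases h4 : φ n t ∈ U
    · exact Or.inr ⟨h1, h4, h3⟩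
    · exact Or.inl ⟨⟨hU1 h2, h4⟩, h1⟩
  rw [Measure.restrict_apply' hS] at hn
  calc _ ≤ _ := measure_mono hsub
    _ ≤ _ := measure_union_le _ _
    _ ≤ ε / 2 + ε / 2 := by
        refine add_le_add hn ((vol_preimage_le hn' _).trans (le_trans ?_ hδ))
        gcongr
    _ = ε := ENNReal.add_halves ε

/-- Local sweeping for a strictly differentiable family with non-zero `θ`-derivative. -/
theorem local_sweep_gen (φ : ℂ × ℝ → ℝ) (L : ℂ × ℝ →L[ℝ] ℝ) (x : ℂ) (θ0 : ℝ)
    (hφ : HasStrictFDerivAt φ L (x, θ0)) (hL : L (0, 1) ≠ 0) :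
    ∃ r > 0, ∀ J : Set ℝ, MeasurableSet J →
      Tendsto (fun y => volume {θ ∈ Metric.ball θ0 r | φ (x, θ) ∈ J ∧ φ (y, θ) ∉ J})
        (𝓝 x) (𝓝 0) := by
  set lam := L (0, 1) with hlam
  have hl0 : 0 < |lam| := abs_pos.2 hL
  have h := hφ.isLittleO.def (c := |lam| / 2) (by positivity)
  obtain ⟨r, hr0, h1⟩ := Metric.eventually_nhds_iff.1 h
  have key : ∀ y y' : ℂ, ∀ s t : ℝ, dist y x < r → dist y' x < r → dist s θ0 < r →
      dist t θ0 < r →
      |φ (y, s) - φ (y', t) - L ((y, s) - (y', t))| ≤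
        |lam| / 2 * ‖((y, s) - (y', t) : ℂ × ℝ)‖ := by
    intro y y' s t hy hy' hs ht
    have := h1 (y := ((y, s), (y', t))) (by
      simp only [Prod.dist_eq, max_lt_iff]
      exact ⟨⟨hy, hs⟩, hy', ht⟩)
    simpa using this
  have key2 : ∀ y : ℂ, ∀ s t : ℝ, dist y x < r → dist s θ0 < r → dist t θ0 < r →
      |φ (y, s) - φ (y, t) - (s - t) * lam| ≤ |lam| / 2 * |s - t| := by
    intro y s t hy hs ht
    have h3 := key y y s t hy hy hs ht
    have h4 : ((y, s) - (y, t) : ℂ × ℝ) = (s - t) • ((0 : ℂ), (1 : ℝ)) := by simp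
    rw [h4, map_smul, ← hlam, norm_smul] at h3
    simpa using h3
  have key3 : ∀ y : ℂ, ∀ s t : ℝ, dist y x < r → dist s θ0 < r → dist t θ0 < r →
      |φ (y, s) - φ (y, t)| ≤ 2 * |lam| * |s - t| := by
    intro y s t hy hs ht
    have h3 := key2 y s t hy hs ht
    have h4 := abs_sub_abs_le_abs_sub (φ (y, s) - φ (y, t)) ((s - t) * lam)
    rw [abs_mul] at h4
    have := mul_nonneg hl0.le (abs_nonneg (s - t))
    linarith
  have hball : ∀ᶠ y in 𝓝 x, dist y x < r := Metric.ball_mem_nhds x hr0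
  have hxx : dist x x < r := by simpa using hr0
  have hcont : ∀ y, dist y x < r →
      AEMeasurable (fun t => φ (y, t)) (volume.restrict (Metric.ball θ0 r)) := by
    intro y hy
    refine ContinuousOn.aemeasurable ?_ Metric.isOpen_ball.measurableSet
    refine (LipschitzOnWith.of_dist_le_mul (K := ⟨2 * |lam|, by positivity⟩)
      fun s hs t ht => ?_).continuousOn
    rw [Real.dist_eq, Real.dist_eq]
    exact key3 y s t hy hs ht
  refine ⟨r, hr0, fun J hJ => ?_⟩
  have hsw := sweep_gen (l := 𝓝 x) (φ := fun y t => φ (y, t)) (φ0 := fun t => φ (x, t))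
    (S := Metric.ball θ0 r)
    Metric.isOpen_ball.measurableSet measure_ball_lt_top.ne (C := ⟨2 / |lam|, by positivity⟩)
    (hball.mono hcont) (hcont x hxx) ?_ ?_
    (J := J ∩ Metric.closedBall (φ (x, θ0)) (2 * |lam| * r))
    (hJ.inter Metric.isClosed_closedBall.measurableSet)
    (ne_top_of_le_ne_top measure_closedBall_lt_top.ne (measure_mono inter_subset_right))
  · refine tendsto_of_tendsto_of_tendsto_of_le_of_le tendsto_const_nhds hsw (fun _ => zero_le)
      fun y => measure_mono ?_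
    rintro θ ⟨h1, h2, h3⟩
    refine ⟨h1, ⟨h2, ?_⟩, fun h4 => h3 h4.1⟩
    have h5 := key3 x θ θ0 hxx h1 (by simpa using hr0)
    have h6 : |θ - θ0| < r := h1
    rw [Metric.mem_closedBall, Real.dist_eq]
    exact h5.trans (mul_le_mul_of_nonneg_left h6.le (by positivity))
  · filter_upwards [hball] with y hy s hs t ht
    have h3 := key2 y s t hy hs ht
    have h4 := abs_sub_abs_le_abs_sub ((s - t) * lam) (φ (y, s) - φ (y, t))
    rw [abs_sub_comm ((s - t) * lam), abs_mul] at h4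
    change |s - t| ≤ 2 / |lam| * |φ (y, s) - φ (y, t)|
    rw [div_mul_eq_mul_div, le_div_iff₀ hl0]
    linarith
  · intro t ht
    have ht' : dist t θ0 < r := ht
    rw [tendsto_iff_norm_sub_tendsto_zero]
    have hlim : Tendsto (fun y : ℂ => (‖L‖ + |lam| / 2) * ‖y - x‖) (𝓝 x) (𝓝 0) := by
      have : Tendsto (fun y : ℂ => ‖y - x‖) (𝓝 x) (𝓝 0) := tendsto_norm_sub_self x
      simpa using this.const_mul (‖L‖ + |lam| / 2)
    refine squeeze_zero' (Eventually.of_forall fun _ => norm_nonneg _) ?_ hlim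
    filter_upwards [hball] with y hy
    have h3 := key y x t t hy hxx ht' ht'
    have h4 : ‖((y, t) - (x, t) : ℂ × ℝ)‖ = ‖y - x‖ := by simp [Prod.norm_def]
    have h5 := L.le_opNorm ((y, t) - (x, t))
    rw [h4] at h3 h5
    have h6 := abs_sub_abs_le_abs_sub (φ (y, t) - φ (x, t)) (L ((y, t) - (x, t)))
    rw [Real.norm_eq_abs] at h5 ⊢
    linarith

theorem circleMap_arg_of_norm {d : ℂ} (hd : ‖d‖ = 1) : circleMap 0 1 (Complex.arg d) = d := by
  have := Complex.norm_mul_exp_arg_mul_I d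
  rw [hd] at this
  simpa [circleMap] using this

theorem circleMap_add' (s t : ℝ) : circleMap 0 1 (s + t) = circleMap 0 1 s * circleMap 0 1 t := by
  simp [circleMap, add_mul, Complex.exp_add]

theorem im_mul_conj_circleMap (s t : ℝ) :
    (circleMap 0 1 s * (starRingEnd ℂ) (circleMap 0 1 t)).im = Real.sin (s - t) := by
  simp only [circleMap, zero_add, Complex.ofReal_one, one_mul, Complex.mul_im, Complex.conj_re,
    Complex.conj_im, Complex.exp_ofReal_mul_I_re, Complex.exp_ofReal_mul_I_im, Real.sin_sub]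
  ring

/-- Core of the general rule. -/
theorem rule_core (x z : ℂ) (b0 : ℝ) (A : ℝ → ℝ) (hA : ContinuousAt A b0)
    (h : ∀ᶠ b in 𝓝 b0, ‖z + circleMap 0 1 b - x - circleMap 0 1 (A b)‖ = 1)
    (h1 : ((z + circleMap 0 1 b0 - x - circleMap 0 1 (A b0)) *
      (starRingEnd ℂ) (circleMap 0 1 (A b0))).im ≠ 0)
    (h2 : ((z + circleMap 0 1 b0 - x - circleMap 0 1 (A b0)) *
      (starRingEnd ℂ) (circleMap 0 1 b0)).im ≠ 0) :
    ∃ ε > 0, ∀ J : Set ℝ, MeasurableSet J →
      Tendsto (fun y : ℂ => volume {b ∈ Ioo (b0 - ε) (b0 + ε) | A b ∈ J ∧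
        ∀ α ∈ J, ∀ β, y + circleMap 0 1 b ≠ x + circleMap 0 1 α + circleMap 0 1 β})
        (𝓝 z) (𝓝 0) := by
  set d : ℝ → ℂ := fun b => z + circleMap 0 1 b - x - circleMap 0 1 (A b) with hd
  have hd0 : ‖d b0‖ = 1 := h.self_of_nhds
  have hd0' : d b0 ≠ 0 := by intro h0; rw [h0] at hd0; simp at hd0
  have hdc : ContinuousAt d b0 :=
    ((continuousAt_const.add (continuous_circleMap 0 1).continuousAt).sub continuousAt_const).sub
      ((continuous_circleMap 0 1).continuousAt.comp hA)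
  set β0 := Complex.arg (d b0) with hβ0
  have hβ0e : circleMap 0 1 β0 = d b0 := circleMap_arg_of_norm hd0
  let β : ℝ → ℝ := fun b => β0 + Complex.arg (d b / d b0)
  have hβb0 : β b0 = β0 := by simp [β, div_self hd0']
  have hβc : ContinuousAt β b0 := by
    refine continuousAt_const.add ?_
    have h3 : ContinuousAt Complex.arg (d b0 / d b0) := by
      rw [div_self hd0']; exact Complex.continuousAt_arg (by simp [Complex.slitPlane])
    exact ContinuousAt.comp (f := fun b => d b / d b0) h3 (hdc.div_const _)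
  have hβe : ∀ᶠ b in 𝓝 b0, circleMap 0 1 (β b) = d b := by
    filter_upwards [h] with b hb
    have : ‖d b / d b0‖ = 1 := by rw [norm_div, hd0]; simpa using hb
    simp only [β]
    rw [circleMap_add', hβ0e, circleMap_arg_of_norm this]
    field_simp
  obtain ⟨L, hL, hdet⟩ := sumMap_strict (A b0, β0)
  have hdet' : L.det ≠ 0 := by
    rw [hdet, ← im_mul_conj_circleMap]
    simpa only [hβ0e] using h1
  let L' : (ℝ × ℝ) ≃L[ℝ] (ℝ × ℝ) := L.toContinuousLinearEquivOfDetNeZero hdet'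
  have hL' : HasStrictFDerivAt sumMap (L' : (ℝ × ℝ) →L[ℝ] (ℝ × ℝ)) (A b0, β0) := by
    simpa [L'] using hL
  let Ψ := hL'.localInverse sumMap L' (A b0, β0)
  let w : ℂ × ℝ → ℝ × ℝ := fun q => Complex.equivRealProdCLM (q.1 + circleMap 0 1 q.2 - x)
  have hwx : ∀ᶠ b in 𝓝 b0, w (z, b) = sumMap (A b, β b) := by
    filter_upwards [hβe] with b hb
    rw [← sumMap_eq]
    simp only [w]
    congr 1
    rw [hb]; simp only [hd]; ring
  have hw0 : w (z, b0) = sumMap (A b0, β0) := by rw [← hβb0]; exact hwx.self_of_nhds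
  have hwd : ContDiff ℝ 1 w := by
    refine Complex.equivRealProdCLM.contDiff.comp ?_
    exact (contDiff_fst.add ((contDiff_circleMap 0 1).comp contDiff_snd)).sub contDiff_const
  have hw := hwd.contDiffAt.hasStrictFDerivAt (x := (z, b0)) one_ne_zero
  have hΨ : HasStrictFDerivAt Ψ (L'.symm : (ℝ × ℝ) →L[ℝ] (ℝ × ℝ)) (w (z, b0)) := by
    rw [hw0]; exact hL'.to_localInverse
  have hΨw := hΨ.comp (z, b0) hw
  have hφ := (hasStrictFDerivAt_fst (𝕜 := ℝ) (p := Ψ (w (z, b0)))).comp (z, b0) hΨw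
  have hΨ0 : Ψ (w (z, b0)) = (A b0, β0) := by rw [hw0]; exact hL'.localInverse_apply_image
  have hid : ∀ᶠ b in 𝓝 b0, (Ψ (w (z, b))).1 = A b := by
    have hc : Tendsto (fun b => (A b, β b)) (𝓝 b0) (𝓝 (A b0, β0)) := by
      rw [← hβb0]; exact hA.prodMk hβc
    filter_upwards [hc.eventually hL'.eventually_left_inverse, hwx] with b hb hb2
    simp only [hb2, Ψ]
    rw [hb]
  have hright : ∀ᶠ q in 𝓝 (z, b0), sumMap (Ψ (w q)) = w q := by
    have hc : Tendsto w (𝓝 (z, b0)) (𝓝 (sumMap (A b0, β0))) := by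
      rw [← hw0]; exact hwd.continuous.tendsto _
    exact hc.eventually hL'.eventually_right_inverse
  have hright' : ∀ᶠ q in 𝓝 (z, b0), circleMap 0 1 (Ψ (w q)).1 + circleMap 0 1 (Ψ (w q)).2 =
      q.1 + circleMap 0 1 q.2 - x := by
    filter_upwards [hright] with q hq
    rw [← sumMap_eq] at hq
    exact Complex.equivRealProdCLM.injective hq
  -- the derivative in the angle does not vanish
  set M := (L'.symm : (ℝ × ℝ) →L[ℝ] (ℝ × ℝ)).comp (fderiv ℝ w (z, b0)) with hM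
  have hne : ((ContinuousLinearMap.fst ℝ ℝ ℝ).comp M) (0, 1) ≠ 0 := by
    intro h0
    have hγ0 : HasDerivAt (fun b : ℝ => (z, b)) ((0 : ℂ), (1 : ℝ)) b0 :=
      (hasDerivAt_const b0 z).prodMk (hasDerivAt_id b0)
    have hγ : HasDerivAt (fun b : ℝ => Ψ (w (z, b))) (M (0, 1)) b0 :=
      hΨw.hasFDerivAt.comp_hasDerivAt b0 hγ0
    have ha : HasDerivAt (fun b : ℝ => (Ψ (w (z, b))).1) (M (0, 1)).1 b0 :=
      hγ.fst
    have hb : HasDerivAt (fun b : ℝ => (Ψ (w (z, b))).2) (M (0, 1)).2 b0 :=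
      hγ.snd
    have h0' : (M (0, 1)).1 = 0 := h0
    have hF := ((hasDerivAt_circleMap 0 1 _).scomp b0 ha).add
      ((hasDerivAt_circleMap 0 1 _).scomp b0 hb)
    have hG : HasDerivAt (fun b : ℝ => z + circleMap 0 1 b - x) (circleMap 0 1 b0 * Complex.I) b0 :=
      ((hasDerivAt_circleMap 0 1 b0).const_add z).sub_const x
    have hev : (fun b : ℝ => z + circleMap 0 1 b - x) =ᶠ[𝓝 b0]
        (circleMap 0 1 ∘ fun b : ℝ => (Ψ (w (z, b))).1) +
          (circleMap 0 1 ∘ fun b : ℝ => (Ψ (w (z, b))).2) := by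
      filter_upwards [hγ0.continuousAt.eventually hright'] with b hb
      exact hb.symm
    have huniq := hG.unique (hF.congr_of_eventuallyEq hev)
    rw [h0', hΨ0] at huniq
    simp only [zero_smul, zero_add, hβ0e] at huniq
    have h5 : circleMap 0 1 b0 = ((M (0, 1)).2 : ℂ) * d b0 := by
      have h6 : circleMap 0 1 b0 * Complex.I = (((M (0, 1)).2 : ℂ) * d b0) * Complex.I := by
        rw [huniq, Complex.real_smul]; ring
      exact mul_right_cancel₀ Complex.I_ne_zero h6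
    apply h2
    change (d b0 * (starRingEnd ℂ) (circleMap 0 1 b0)).im = 0
    rw [h5]
    simp only [map_mul, Complex.conj_ofReal, Complex.mul_im, Complex.mul_re, Complex.ofReal_re,
      Complex.ofReal_im, Complex.conj_re, Complex.conj_im]
    ring
  obtain ⟨r, hr0, hT⟩ := local_sweep_gen (fun q => (Ψ (w q)).1) _ z b0 hφ hne
  rw [nhds_prod_eq] at hright'
  obtain ⟨pa, hpa, pb, hpb, hab⟩ := eventually_prod_iff.1 hright'
  obtain ⟨r2, hr2, hr2'⟩ := Metric.eventually_nhds_iff.1 (hpb.and hid)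
  refine ⟨min r r2, lt_min hr0 hr2, fun J hJ => ?_⟩
  refine tendsto_of_tendsto_of_tendsto_of_le_of_le' tendsto_const_nhds (hT J hJ)
    (Eventually.of_forall fun _ => zero_le) ?_
  filter_upwards [hpa] with y hy
  refine measure_mono ?_
  rintro b ⟨h3, h4, h5⟩
  have hb : dist b b0 < min r r2 := by
    rw [Real.dist_eq, abs_lt]; constructor <;> linarith [h3.1, h3.2]
  obtain ⟨h6, h7⟩ := hr2' (hb.trans_le (min_le_right _ _))
  refine ⟨hb.trans_le (min_le_left _ _), by simpa only [h7] using h4,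
    fun h8 => h5 _ h8 (Ψ (w (y, b))).2 ?_⟩
  have h9 := hab hy h6
  simp only at h9
  rw [add_assoc, h9]; ring

/-- The general rule for a colour class `B`. -/
theorem rule_gen (x z : ℂ) (b0 : ℝ) (A : ℝ → ℝ) (hA : ContinuousAt A b0)
    (h : ∀ᶠ b in 𝓝 b0, ‖z + circleMap 0 1 b - x - circleMap 0 1 (A b)‖ = 1)
    (h1 : ((z + circleMap 0 1 b0 - x - circleMap 0 1 (A b0)) *
      (starRingEnd ℂ) (circleMap 0 1 (A b0))).im ≠ 0)
    (h2 : ((z + circleMap 0 1 b0 - x - circleMap 0 1 (A b0)) *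
      (starRingEnd ℂ) (circleMap 0 1 b0)).im ≠ 0) :
    ∃ ε > 0, ∀ B : Set ℂ, MeasurableSet B → ∃ N : Set ℂ, volume N = 0 ∧
      Tendsto (fun y : ℂ => volume {b ∈ Ioo (b0 - ε) (b0 + ε) |
        (∀ᵐ φ : ℝ, x + circleMap 0 1 (A b) + circleMap 0 1 φ ∉ B) ∧
          y + circleMap 0 1 b ∈ B ∧ y + circleMap 0 1 b ∉ N}) (𝓝 z) (𝓝 0) := by
  obtain ⟨ε, hε, hT⟩ := rule_core x z b0 A hA h h1 h2
  refine ⟨ε, hε, fun B hB => ⟨_, null_swept hB x, ?_⟩⟩
  have hJ : MeasurableSet {α : ℝ | ∀ᵐ φ : ℝ, x + circleMap 0 1 α + circleMap 0 1 φ ∉ B} :=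
    (continuous_const.add (continuous_circleMap 0 1)).measurable (measurableSet_unseen hB)
  refine tendsto_of_tendsto_of_tendsto_of_le_of_le tendsto_const_nhds
    (hT _ hJ) (fun _ => zero_le) fun y => measure_mono ?_
  rintro θ ⟨h0, h1, h2, h3⟩
  exact ⟨h0, h1, fun α hα β hβ => h3 ⟨h2, α, β, hα, hβ⟩⟩

end Crest.Agent.R40
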