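import Mathlib
import Crest.Agent.R40.MAv
import Crest.Agent.R40.Rule

/-! Row 40: the general rule RULE. -/

set_option autoImplicit false

open MeasureTheory Filter Topology Set

namespace Crest.Agent.R40

theorem rule' : RULE := by
  intro c hc x z b0 A i hA h h1 h2
  obtain ⟨ε, hε, hT⟩ := rule_gen x z b0 A hA h h1 h2
  obtain ⟨N, hN, hT'⟩ := hT _ (measurableSet_class hc i)
  refine ⟨ε, hε, avoid_of_null fun R => ⟨N, hN, ?_⟩⟩
  refine tendsto_of_tendsto_of_tendsto_of_le_of_le tendsto_const_nhds hT' (fun _ => zero_le)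
    fun y => measure_mono ?_
  rintro θ ⟨-, h3, h4⟩
  exact ⟨h3.1, h3.2, h4⟩

theorem rule (_ : BASIC) (_ : SW) : RULE := rule'

end Crest.Agent.R40
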