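import Crest.Agent.R40.Smooth

/-! Row 40, slice lemma, part A: the `o(|h|)` form of the smoothing estimate, the one-dimensional
rigidity of `{0,1}`-valued functions, and the push-forward bound for double circle coordinates. -/

set_option autoImplicit false

namespace Crest.Agent.R40

open MeasureTheory FourierTransform Real Filter Topology Set
open scoped RealInnerProductSpace ENNReal

namespace Slice

theorem mainO {g : ℂ → ℂ} (hg : Measurable g) {R : ℝ} (hb : ∀ y, ‖g y‖ ≤ 1)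
    (hs : ∀ y, R < ‖y‖ → g y = 0) (ε : ℝ) (hε : 0 < ε) :
    ∃ δ > 0, ∀ h : ℂ, ‖h‖ < δ →
      Integrable (fun y => ‖Smooth.A g (y + h) - Smooth.A g y‖ ^ 2) ∧
      ∫ y, ‖Smooth.A g (y + h) - Smooth.A g y‖ ^ 2 ≤ ε * ‖h‖ := by
  have mA := Smooth.measurable_A hg
  have LA : ∀ p, MemLp (Smooth.A g) p :=
    Smooth.memLp_of mA (2 * π) (R + 1) (Smooth.norm_A_le hb) (Smooth.A_far hs)
  have Lg : ∀ p, MemLp g p := Smooth.memLp_of hg 1 R hb hs
  have iA := memLp_one_iff_integrable.mp (LA 1)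
  obtain ⟨pg1, pg2⟩ := Planch.plancherel (memLp_one_iff_integrable.mp (Lg 1)) (Lg 2)
  have hig : Integrable fun ξ => ‖(𝓕 g : ℂ → ℂ) ξ‖ ^ 2 :=
    (memLp_two_iff_integrable_sq_norm pg1.aestronglyMeasurable).mp pg1
  let w : ℝ → ℂ → ℝ := fun δ ξ => min 648 (648 * π * |δ| * ‖ξ‖) * ‖(𝓕 g : ℂ → ℂ) ξ‖ ^ 2
  have hw0 : ∀ (δ : ℝ) (ξ : ℂ), 0 ≤ min 648 (648 * π * |δ| * ‖ξ‖) := fun δ ξ =>
    le_min (by norm_num) (by positivity)
  have hwb : ∀ δ ξ, ‖w δ ξ‖ ≤ 648 * ‖(𝓕 g : ℂ → ℂ) ξ‖ ^ 2 := by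
    intro δ ξ
    rw [Real.norm_of_nonneg (mul_nonneg (hw0 δ ξ) (by positivity))]
    exact mul_le_mul_of_nonneg_right (min_le_left _ _) (by positivity)
  have hwm : ∀ δ, AEStronglyMeasurable (w δ) volume := fun δ =>
    AEStronglyMeasurable.mul (Continuous.aestronglyMeasurable (by fun_prop))
      hig.aestronglyMeasurable
  have hwi : ∀ δ, Integrable (w δ) := fun δ =>
    (hig.const_mul 648).mono' (hwm δ) (Eventually.of_forall (hwb δ))
  have hlim : Tendsto (fun δ => ∫ ξ, w δ ξ) (𝓝 0) (𝓝 (∫ _ξ : ℂ, (0 : ℝ))) := by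
    refine tendsto_integral_filter_of_dominated_convergence
      (fun ξ => 648 * ‖(𝓕 g : ℂ → ℂ) ξ‖ ^ 2) (Eventually.of_forall hwm)
      (Eventually.of_forall fun δ => Eventually.of_forall (hwb δ)) (hig.const_mul 648)
      (Eventually.of_forall fun ξ => ?_)
    have hc : Continuous fun δ : ℝ => w δ ξ := by simp only [w]; fun_prop
    have := hc.tendsto 0
    simpa [w] using this
  rw [integral_zero] at hlim
  obtain ⟨δ, hδ, hδ'⟩ := Metric.tendsto_nhds_nhds.1 hlim ε hε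
  refine ⟨δ, hδ, fun h hh => ?_⟩
  have LA' : ∀ p, MemLp (fun y => Smooth.A g (y + h)) p :=
    Smooth.memLp_of (mA.comp (measurable_add_const h)) (2 * π) (R + 1 + ‖h‖)
      (fun y => Smooth.norm_A_le hb _)
      (fun y hy => Smooth.A_far hs _ (by
        have h2 := norm_sub_le (y + h) h
        rw [add_sub_cancel_right] at h2
        linarith))
  have iA' := memLp_one_iff_integrable.mp (LA' 1)
  obtain ⟨-, pu2⟩ := Planch.plancherel (iA'.sub iA) ((LA' 2).sub (LA 2))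
  have hft : ∀ ξ, (𝓕 ((fun y => Smooth.A g (y + h)) - Smooth.A g) : ℂ → ℂ) ξ =
      (((Real.fourierChar ⟪h, ξ⟫ : Circle) : ℂ) - 1) * (Smooth.sig ξ * (𝓕 g : ℂ → ℂ) ξ) := by
    intro ξ
    rw [← Smooth.ft_A hg hb hs, sub_mul, one_mul, ← Smooth.ft_shift, Real.fourier_eq,
      Real.fourier_eq, Real.fourier_eq, ← integral_sub]
    · congr 1; ext y; simp only [Pi.sub_apply, smul_sub]
    · exact (Real.fourierIntegral_convergent_iff ξ).mpr iA'
    · exact (Real.fourierIntegral_convergent_iff ξ).mpr iA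
  refine ⟨(memLp_two_iff_integrable_sq_norm ((LA' 2).sub (LA 2)).aestronglyMeasurable).mp
    ((LA' 2).sub (LA 2)), ?_⟩
  have hlt : ∫ ξ, w ‖h‖ ξ ≤ ε := by
    have := hδ' (x := ‖h‖) (by simpa using hh)
    rw [Real.dist_eq, sub_zero] at this
    exact (le_abs_self _).trans this.le
  calc ∫ y, ‖Smooth.A g (y + h) - Smooth.A g y‖ ^ 2
      = ∫ ξ, ‖(𝓕 ((fun y => Smooth.A g (y + h)) - Smooth.A g) : ℂ → ℂ) ξ‖ ^ 2 := pu2.symm
    _ ≤ ∫ ξ, ‖h‖ * w ‖h‖ ξ := by
        apply integral_mono_of_nonneg (Filter.Eventually.of_forall fun ξ => by positivity)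
          ((hwi _).const_mul _)
        refine Filter.Eventually.of_forall fun ξ => ?_
        simp only [hft, norm_mul, mul_pow, w, abs_norm]
        have b1 := Smooth.char_bound ⟪h, ξ⟫
        have b2 := Smooth.sig_bound ξ
        have b3 : |⟪h, ξ⟫| ≤ ‖h‖ * ‖ξ‖ := abs_real_inner_le_norm h ξ
        have b4 : ‖((Real.fourierChar ⟪h, ξ⟫ : Circle) : ℂ) - 1‖ ^ 2
            ≤ 2 * ‖h‖ * (2 * π * ‖ξ‖) := by
          refine b1.trans ?_
          calc 2 * (2 * π * |⟪h, ξ⟫|) ≤ 2 * (2 * π * (‖h‖ * ‖ξ‖)) := by gcongr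
            _ = _ := by ring
        have b5 : ‖((Real.fourierChar ⟪h, ξ⟫ : Circle) : ℂ) - 1‖ ≤ 2 * π * (‖h‖ * ‖ξ‖) := by
          rw [Real.fourierChar_apply, mul_comm _ Complex.I]
          refine (Real.norm_exp_I_mul_ofReal_sub_one_le).trans ?_
          rw [Real.norm_eq_abs, abs_mul, abs_of_pos (by positivity : (0:ℝ) < 2 * π)]
          gcongr
        have b6 : ‖((Real.fourierChar ⟪h, ξ⟫ : Circle) : ℂ) - 1‖ ^ 2
            ≤ (2 * π * (‖h‖ * ‖ξ‖)) ^ 2 := by gcongr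
        have b7 : ‖((Real.fourierChar ⟪h, ξ⟫ : Circle) : ℂ) - 1‖ ^ 2 * ‖Smooth.sig ξ‖ ^ 2 ≤
            ‖h‖ * min 648 (648 * π * ‖h‖ * ‖ξ‖) := by
          rw [mul_min_of_nonneg _ _ (norm_nonneg h)]
          refine le_min ?_ ?_
          · calc _ ≤ 2 * ‖h‖ * (2 * π * ‖ξ‖) * ‖Smooth.sig ξ‖ ^ 2 := by gcongr
              _ = 2 * ‖h‖ * (‖Smooth.sig ξ‖ ^ 2 * (2 * π * ‖ξ‖)) := by ring
              _ ≤ 2 * ‖h‖ * 324 := by gcongr
              _ = _ := by ring
          · calc _ ≤ (2 * π * (‖h‖ * ‖ξ‖)) ^ 2 * ‖Smooth.sig ξ‖ ^ 2 := by gcongr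
              _ = 2 * π * ‖h‖ ^ 2 * ‖ξ‖ * (‖Smooth.sig ξ‖ ^ 2 * (2 * π * ‖ξ‖)) := by ring
              _ ≤ 2 * π * ‖h‖ ^ 2 * ‖ξ‖ * 324 := by gcongr
              _ = _ := by ring
        calc _ = (‖((Real.fourierChar ⟪h, ξ⟫ : Circle) : ℂ) - 1‖ ^ 2 * ‖Smooth.sig ξ‖ ^ 2) *
              ‖(𝓕 g : ℂ → ℂ) ξ‖ ^ 2 := by ring
          _ ≤ (‖h‖ * min 648 (648 * π * ‖h‖ * ‖ξ‖)) * ‖(𝓕 g : ℂ → ℂ) ξ‖ ^ 2 := by gcongr
          _ = _ := by ring
    _ = ‖h‖ * ∫ ξ, w ‖h‖ ξ := integral_const_mul _ _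
    _ ≤ ‖h‖ * ε := by gcongr
    _ = _ := mul_comm _ _

/-- A `{0,1}`-valued function on an interval whose increments are `o(h)` in `L²` along a
sequence is constant. -/
theorem oneD {g : ℝ → ℝ} (hg : Measurable g) (hb : ∀ t, |g t| ≤ 1) {a b : ℝ}
    (h01 : ∀ᵐ t, t ∈ Ioo a b → g t = 0 ∨ g t = 1) {h : ℕ → ℝ} (hpos : ∀ k, 0 < h k)
    (hlim : Tendsto h atTop (𝓝 0))
    (hd : Tendsto (fun k => (∫⁻ t in Ioo a (b - h k), ENNReal.ofReal ((g (t + h k) - g t) ^ 2)) /
      ENNReal.ofReal (h k)) atTop (𝓝 0)) :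
    (∀ᵐ t, t ∈ Ioo a b → g t = 0) ∨ (∀ᵐ t, t ∈ Ioo a b → g t = 1) := by
  have hloc : LocallyIntegrable g volume := by
    refine (locallyIntegrable_const (1 : ℝ)).mono hg.aestronglyMeasurable
      (Eventually.of_forall fun t => ?_)
    simpa using hb t
  have hii : ∀ s t, IntervalIntegrable g volume s t := fun s t =>
    intervalIntegrable_iff.mpr <|
      (hloc.integrableOn_isCompact isCompact_uIcc).mono_set uIoc_subset_uIcc
  have hL := LocallyIntegrable.ae_hasDerivAt_integral hloc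
  let F : ℝ → ℝ := fun x => ∫ t in (0 : ℝ)..x, g t
  have hq : ∀ t, HasDerivAt F (g t) t →
      Tendsto (fun k => (F (t + h k) - F t) / h k) atTop (𝓝 (g t)) := by
    intro t ht
    have h1 := ht.tendsto_slope_zero
    have h2 : Tendsto h atTop (𝓝[≠] 0) :=
      tendsto_nhdsWithin_iff.2 ⟨hlim, Eventually.of_forall fun k => (hpos k).ne'⟩
    refine (h1.comp h2).congr fun k => ?_
    simp only [Function.comp_apply, smul_eq_mul]
    ring
  have key : ∀ s t, s ∈ Ioo a b → t ∈ Ioo a b → s ≤ t → HasDerivAt F (g s) s →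
      HasDerivAt F (g t) t → g t = g s := by
    intro s t hs ht hst Hs Ht
    have h1 := (hq t Ht).sub (hq s Hs)
    have h2 : Tendsto (fun k => (F (t + h k) - F t) / h k - (F (s + h k) - F s) / h k) atTop
        (𝓝 0) := by
      have h3 := (ENNReal.tendsto_toReal ENNReal.zero_ne_top).comp hd
      rw [ENNReal.toReal_zero] at h3
      refine squeeze_zero_norm' ?_ h3
      have h4 : ∀ᶠ k in atTop, h k < b - t :=
        hlim.eventually (gt_mem_nhds (by linarith [ht.2]))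
      filter_upwards [h4] with k hk
      have hk0 := hpos k
      have e1 : F (t + h k) - F t - (F (s + h k) - F s) =
          ∫ u in s..t, (g (u + h k) - g u) := by
        have i1 : IntervalIntegrable (fun u => g (u + h k)) volume s t := by
          simpa using (hii (s + h k) (t + h k)).comp_add_right (h k)
        rw [intervalIntegral.integral_sub i1 (hii s t), intervalIntegral.integral_comp_add_right]
        have a1 := intervalIntegral.integral_interval_sub_left (hii 0 (t + h k)) (hii 0 (s + h k))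
        have a2 := intervalIntegral.integral_interval_sub_left (hii 0 t) (hii 0 s)
        simp only [F]
        linarith
      have h01' : ∀ᵐ u, u + h k ∈ Ioo a b → g (u + h k) = 0 ∨ g (u + h k) = 1 :=
        (measurePreserving_add_right volume (h k)).quasiMeasurePreserving.ae h01
      have hfin : ∫⁻ u in Ioo a (b - h k), ENNReal.ofReal ((g (u + h k) - g u) ^ 2) ≠ ⊤ := by
        refine ne_top_of_le_ne_top (b := ∫⁻ _u in Ioo a (b - h k), ENNReal.ofReal 4) ?_ ?_
        · rw [setLIntegral_const]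
          exact ENNReal.mul_ne_top ENNReal.ofReal_ne_top (by simp)
        · refine lintegral_mono fun u => ENNReal.ofReal_le_ofReal ?_
          have a1 := abs_le.1 (hb (u + h k))
          have a2 := abs_le.1 (hb u)
          nlinarith [a1.1, a1.2, a2.1, a2.2]
      have e2 : ‖∫ u in s..t, (g (u + h k) - g u)‖ ≤
          (∫⁻ u in Ioo a (b - h k), ENNReal.ofReal ((g (u + h k) - g u) ^ 2)).toReal := by
        rw [intervalIntegral.integral_of_le hst]
        refine (norm_integral_le_lintegral_norm _).trans ?_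
        refine ENNReal.toReal_mono hfin ?_
        refine le_trans ?_ (lintegral_mono_set (s := Ioc s t)
          (fun u hu => ⟨hs.1.trans hu.1, by linarith [hu.2]⟩))
        refine setLIntegral_mono_ae (by fun_prop) ?_
        filter_upwards [h01, h01'] with u hu hu' hmem
        have m1 : u ∈ Ioo a b := ⟨hs.1.trans hmem.1, hmem.2.trans_lt ht.2⟩
        have m2 : u + h k ∈ Ioo a b := ⟨by linarith [m1.1], by linarith [hmem.2]⟩
        refine ENNReal.ofReal_le_ofReal ?_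
        rcases hu m1 with e | e <;> rcases hu' m2 with e' | e' <;> simp [e, e']
      rw [← sub_div, e1, norm_div, Real.norm_of_nonneg hk0.le]
      simp only [Function.comp_apply, ENNReal.toReal_div, ENNReal.toReal_ofReal hk0.le]
      gcongr
    have := tendsto_nhds_unique h1 h2
    linarith
  by_contra hcon
  rw [not_or] at hcon
  obtain ⟨c0, c1⟩ := hcon
  have f0 := (Filter.not_eventually.1 c0).and_eventually (hL.and h01)
  have f1 := (Filter.not_eventually.1 c1).and_eventually (hL.and h01)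
  obtain ⟨s, hs1, hs2, hs3⟩ := f0.exists
  obtain ⟨t, ht1, ht2, ht3⟩ := f1.exists
  rw [Classical.not_imp] at hs1 ht1
  have es : g s = 1 := (hs3 hs1.1).resolve_left hs1.2
  have et : g t = 0 := (ht3 ht1.1).resolve_right ht1.2
  rcases le_total s t with hst | hst
  · have := key s t hs1.1 ht1.1 hst (hs2 0) (ht2 0)
    rw [es, et] at this; norm_num at this
  · have := key t s ht1.1 hs1.1 hst (ht2 0) (hs2 0)
    rw [es, et] at this; norm_num at this

/-- Near a transversal pair of directions, `dα dβ` pushes forward to a measure with bounded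
density. -/
theorem push (x : ℂ) (α0 β0 : ℝ) (hs : Real.sin (β0 - α0) ≠ 0) :
    ∃ η > 0, ∃ K : ℝ≥0∞, K ≠ ⊤ ∧ ∀ F : ℂ → ℝ≥0∞, Measurable F →
      ∫⁻ p in Metric.ball (α0, β0) η, F (x + circleMap 0 1 p.1 + circleMap 0 1 p.2) ≤
        K * ∫⁻ w, F w := by
  let Φ : ℝ × ℝ → ℝ × ℝ := fun p =>
    (x.re + Real.cos p.1 + Real.cos p.2, x.im + Real.sin p.1 + Real.sin p.2)
  let Φ' : ℝ × ℝ → (ℝ × ℝ) →L[ℝ] (ℝ × ℝ) := fun p =>
    (((-Real.sin p.1) • ContinuousLinearMap.fst ℝ ℝ ℝ +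
      (-Real.sin p.2) • ContinuousLinearMap.snd ℝ ℝ ℝ).prod
      ((Real.cos p.1) • ContinuousLinearMap.fst ℝ ℝ ℝ +
      (Real.cos p.2) • ContinuousLinearMap.snd ℝ ℝ ℝ))
  have hΦ : ∀ p, HasStrictFDerivAt Φ (Φ' p) p := by
    intro p
    have h1 : HasStrictFDerivAt (fun q : ℝ × ℝ => Real.cos q.1)
        ((-Real.sin p.1) • ContinuousLinearMap.fst ℝ ℝ ℝ) p :=
      (Real.hasStrictDerivAt_cos p.1).comp_hasStrictFDerivAt p hasStrictFDerivAt_fst
    have h2 : HasStrictFDerivAt (fun q : ℝ × ℝ => Real.cos q.2)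
        ((-Real.sin p.2) • ContinuousLinearMap.snd ℝ ℝ ℝ) p :=
      (Real.hasStrictDerivAt_cos p.2).comp_hasStrictFDerivAt p hasStrictFDerivAt_snd
    have h3 : HasStrictFDerivAt (fun q : ℝ × ℝ => Real.sin q.1)
        ((Real.cos p.1) • ContinuousLinearMap.fst ℝ ℝ ℝ) p :=
      (Real.hasStrictDerivAt_sin p.1).comp_hasStrictFDerivAt p hasStrictFDerivAt_fst
    have h4 : HasStrictFDerivAt (fun q : ℝ × ℝ => Real.sin q.2)
        ((Real.cos p.2) • ContinuousLinearMap.snd ℝ ℝ ℝ) p :=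
      (Real.hasStrictDerivAt_sin p.2).comp_hasStrictFDerivAt p hasStrictFDerivAt_snd
    have h5 := ((h1.const_add x.re).add h2).prodMk ((h3.const_add x.im).add h4)
    exact h5
  have hdet : ∀ p, (Φ' p).det = Real.sin (p.2 - p.1) := by
    intro p
    rw [ContinuousLinearMap.det, ← LinearMap.det_toMatrix (Module.Basis.finTwoProd ℝ),
      Matrix.det_fin_two]
    simp [Φ', LinearMap.toMatrix_apply, Real.sin_sub]
    ring
  let p0 : ℝ × ℝ := (α0, β0)
  have hd0 : (Φ' p0).det ≠ 0 := by rw [hdet]; exact hs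
  let L : (ℝ × ℝ) ≃L[ℝ] (ℝ × ℝ) := (Φ' p0).toContinuousLinearEquivOfDetNeZero hd0
  have hL : HasStrictFDerivAt Φ (L : (ℝ × ℝ) →L[ℝ] (ℝ × ℝ)) p0 := by
    simpa [L] using hΦ p0
  let e := hL.toOpenPartialHomeomorph Φ
  have hpU : p0 ∈ e.source := hL.mem_toOpenPartialHomeomorph_source
  have hinj : InjOn Φ e.source := by
    have := e.injOn
    simpa [e] using this
  set κ : ℝ := |Real.sin (β0 - α0)| / 2 with hκ
  have hκ0 : 0 < κ := by have := abs_pos.2 hs; positivity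
  have hev : ∀ᶠ p in 𝓝 p0, κ < |Real.sin (p.2 - p.1)| := by
    have hc : Continuous fun p : ℝ × ℝ => |Real.sin (p.2 - p.1)| := by fun_prop
    refine (hc.tendsto p0).eventually (lt_mem_nhds ?_)
    have := abs_pos.2 hs
    simp only [p0, hκ]; linarith
  obtain ⟨η, hη, hsub⟩ := Metric.mem_nhds_iff.1
    (Filter.inter_mem (e.open_source.mem_nhds hpU) hev)
  refine ⟨η, hη, (ENNReal.ofReal κ)⁻¹, ENNReal.inv_ne_top.2 (by simpa using hκ0), fun F hF => ?_⟩
  let G : ℝ × ℝ → ℝ≥0∞ := fun q => F (Complex.measurableEquivRealProd.symm q)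
  have h1 := lintegral_image_eq_lintegral_abs_det_fderiv_mul volume
    (s := Metric.ball p0 η) measurableSet_ball
    (fun q _ => (hΦ q).hasFDerivAt.hasFDerivWithinAt)
    (hinj.mono fun q hq => (hsub hq).1) G
  have h2 : ∫⁻ q in Φ '' Metric.ball p0 η, G q ≤ ∫⁻ w, F w := by
    refine (setLIntegral_le_lintegral _ _).trans (le_of_eq ?_)
    exact Complex.volume_preserving_equiv_real_prod.symm.lintegral_comp hF
  have hG : ∀ p : ℝ × ℝ, G (Φ p) = F (x + circleMap 0 1 p.1 + circleMap 0 1 p.2) := by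
    intro p
    simp only [G]
    congr 1
    apply Complex.ext <;>
      simp [Φ, circleMap, Complex.exp_ofReal_mul_I_re, Complex.exp_ofReal_mul_I_im]
  have h3 : ENNReal.ofReal κ *
      ∫⁻ p in Metric.ball p0 η, F (x + circleMap 0 1 p.1 + circleMap 0 1 p.2) ≤ ∫⁻ w, F w := by
    rw [← lintegral_const_mul' _ _ ENNReal.ofReal_ne_top]
    refine le_trans ?_ (h1 ▸ h2)
    refine setLIntegral_mono' measurableSet_ball fun q hq => ?_
    rw [hG, hdet]
    gcongr
    exact (hsub hq).2.le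
  rw [← ENNReal.div_eq_inv_mul, ENNReal.le_div_iff_mul_le (Or.inl (by simpa using hκ0))
    (Or.inl ENNReal.ofReal_ne_top), mul_comm]
  exact h3

end Slice

end Crest.Agent.R40
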